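import Vale.Agent.P167Q.XStm

open Filter Topology
open scoped Classical

namespace Vale.Agent.P167Q

namespace XR2x

theorem ww_lt {x y : ℝ} (hx : -(Real.pi / 3) ≤ x) (hxy : x < y) (hy : y ≤ 0) : ww y < ww x := by
  have := Real.cos_lt_cos_of_nonneg_of_le_pi (x := Real.pi / 3 + x) (y := Real.pi / 3 + y)
    (by linarith) (by linarith [Real.pi_pos]) (by linarith)
  unfold ww
  linarith

theorem ww_zero : ww 0 = 1 := by
  rw [ww, add_zero, Real.cos_pi_div_three]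
  norm_num

theorem ww_le (x : ℝ) : ww x ≤ 2 := by
  unfold ww
  linarith [Real.cos_le_one (Real.pi / 3 + x)]

theorem aa_pos : 0 < aa := by
  have := Real.log_pos (show (1 : ℝ) < 2 by norm_num)
  have := Real.pi_pos
  unfold aa
  positivity

theorem ev_p {u v : ℝ} (hu : 0 < u) (huv : u < v) :
    ∀ᶠ p in 𝓝[>] (1 : ℝ), u ^ p ≤ v ^ (1 / p) := by
  have c1 : ContinuousAt (fun p : ℝ => u ^ p) 1 := Real.continuousAt_const_rpow hu.ne'
  have c2 : ContinuousAt (fun p : ℝ => v ^ (1 / p)) 1 :=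
    ContinuousAt.comp (g := fun q : ℝ => v ^ q) (f := fun p : ℝ => 1 / p)
      (Real.continuousAt_const_rpow (hu.trans huv).ne')
      (continuousAt_const.div continuousAt_id one_ne_zero)
  have := c1.eventually_lt c2 (by simpa using huv)
  exact (this.mono fun p hp => hp.le).filter_mono nhdsWithin_le_nhds

theorem one_le (h0 : R_0) {t : ℝ} (ht : 1 ≤ t) (J m : ℕ) : 1 ≤ FF t J m := by
  have := (h0.mono 1 t J m zero_le_one ht).2
  rwa [h0.one] at this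

theorem low (h0 : R_0) {u v p x : ℝ} {J m : ℕ} (hu : 1 ≤ u) (hp : 1 < p)
    (huv : u ^ p ≤ v) (hx : Real.exp x ≤ FF (|u| ^ p) J m ^ (1 / p)) :
    Real.exp x ≤ FF v J m ∧ 1 ≤ FF v J m := by
  rw [abs_of_pos (by linarith)] at hx
  have h1 : 1 ≤ u ^ p := Real.one_le_rpow hu (by linarith)
  have h2 := one_le h0 h1 J m
  have h3 : FF (u ^ p) J m ^ (1 / p) ≤ FF (u ^ p) J m ^ (1 : ℝ) :=
    Real.rpow_le_rpow_of_exponent_le h2 ((div_le_one (by linarith)).2 hp.le)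
  rw [Real.rpow_one] at h3
  have h4 := (h0.mono _ _ J m (by linarith) huv).2
  exact ⟨hx.trans (h3.trans h4), h2.trans h4⟩

theorem fin {F1 F2 P p C Q T x1 x2 : ℝ} (f1 : 1 ≤ F1) (f2 : 1 ≤ F2) (hP : P ≤ 1 / 2)
    (hp : 1 < p) (hp2 : p ≤ 2) (h : (F1 * (F2 - P)) ^ p ≤ Real.exp C * (Real.exp Q + T))
    (hT : T ≤ Real.exp (-C - Real.log 8)) (e1 : Real.exp x1 ≤ F1) (e2 : Real.exp x2 ≤ F2) :
    x1 + x2 ≤ C + Real.log 8 + Q := by
  have g : 1 ≤ F1 * F2 := one_le_mul_of_one_le_of_one_le f1 f2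
  have b1 : F1 * F2 / 2 ≤ F1 * (F2 - P) := by nlinarith
  have b2 : (F1 * F2 / 2) ^ p ≤ (F1 * (F2 - P)) ^ p :=
    Real.rpow_le_rpow (by linarith) b1 (by linarith)
  have b3 : (F1 * F2) ^ (1 : ℝ) ≤ (F1 * F2) ^ p := Real.rpow_le_rpow_of_exponent_le g hp.le
  have b4 : (2 : ℝ) ^ p ≤ 2 ^ (2 : ℝ) := Real.rpow_le_rpow_of_exponent_le (by norm_num) hp2
  rw [Real.rpow_one] at b3
  rw [show (2 : ℝ) ^ (2 : ℝ) = 4 by norm_num] at b4
  have b5 : F1 * F2 / 4 ≤ (F1 * F2 / 2) ^ p := by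
    rw [Real.div_rpow (by linarith) (by norm_num)]
    exact div_le_div₀ (by positivity) b3 (by positivity) b4
  have l8 : Real.exp (Real.log 8) = 8 := Real.exp_log (by norm_num)
  have b6 : Real.exp C * T ≤ 1 / 8 := by
    refine (mul_le_mul_of_nonneg_left hT (Real.exp_pos _).le).trans_eq ?_
    rw [← Real.exp_add, show C + (-C - Real.log 8) = -Real.log 8 by ring, Real.exp_neg, l8]
    norm_num
  have b7 : F1 * F2 ≤ 8 * (Real.exp C * Real.exp Q) := by nlinarith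
  have b8 : Real.exp x1 * Real.exp x2 ≤ F1 * F2 :=
    mul_le_mul e1 e2 (Real.exp_pos _).le (by linarith)
  rw [← Real.exp_le_exp, Real.exp_add, Real.exp_add, Real.exp_add, l8]
  linarith

theorem alg {a k d ε θ m n b b2 g C1 C2 C3 L CR : ℝ} (a0 : 0 < a) (k0 : 0 < k) (d0 : 0 < d)
    (m0 : 0 ≤ m) (n0 : 0 ≤ n) (hn : n = g * m) (k1 : k ≤ Real.pi / 12) (d1 : d ≤ Real.pi / 12)
    (hθ : θ = -(Real.pi / 3) + k) (k2 : 3 * a * k ≤ ε / 3)
    (d2 : d * (2 * Real.pi / 3 * a * g) ≤ k * ε / 3) (A5 : b2 ≤ 2 * Real.pi / 3 * a * n + CR)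
    (s4 : C1 + C2 + C3 + L + d * CR ≤ k * ε / 3 * m)
    (key : -(a * (θ + k) ^ 2 * m) - (θ + k) * b - C1 +
      (-(a * (θ / 2 + d) ^ 2 * n) - (θ / 2 + d) * b2 - C2) ≤ C3 + L +
      (-(a * θ ^ 2 * m) - θ * b + (-(a * (θ / 2) ^ 2 * n) - θ / 2 * b2))) :
    (2 * Real.pi / 3 * a - ε) * m ≤ b := by
  have pi0 := Real.pi_pos
  have s0 : 0 ≤ d * (-θ - d) := mul_nonneg d0.le (by linarith)
  have s1 : (θ / 2 + d) ^ 2 ≤ (θ / 2) ^ 2 := by linarith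
  have s2 : a * (θ / 2 + d) ^ 2 * n ≤ a * (θ / 2) ^ 2 * n :=
    mul_le_mul_of_nonneg_right (mul_le_mul_of_nonneg_left s1 a0.le) n0
  have s3 : d * b2 ≤ k * ε / 3 * m + d * CR := by
    have h1 := mul_le_mul_of_nonneg_left A5 d0.le
    have h2 := mul_le_mul_of_nonneg_right d2 m0
    rw [hn] at h1
    linarith
  have s5 : k * (3 * a * k * m) ≤ k * (ε / 3 * m) :=
    mul_le_mul_of_nonneg_left (mul_le_mul_of_nonneg_right k2 m0) k0.le
  have s6 : a * θ ^ 2 * m - a * (θ + k) ^ 2 * m =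
      k * (2 * Real.pi / 3 * a * m) - k * (3 * a * k * m) := by
    rw [hθ]
    ring
  refine le_of_mul_le_mul_left ?_ k0
  linarith

theorem tail {G P p CK Cd C m : ℝ} (p3 : 1 < p) (p4 : p ≤ 2) (G0 : 0 ≤ G) (P0 : 0 ≤ P)
    (m0 : 0 ≤ m) (G2 : G ≤ Real.exp (CK * m)) (hP : P ≤ Real.exp (Cd - (|CK| + 1) * m))
    (hm : Cd + 2 * (|C| + Real.log 8) ≤ m) :
    P ≤ 1 / 2 ∧ (G * P) ^ (1 / p) ≤ Real.exp (-C - Real.log 8) := by
  have l8 : 0 < Real.log 8 := Real.log_pos (by norm_num)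
  have ac := abs_nonneg C
  have am := mul_nonneg (abs_nonneg CK) m0
  constructor
  · have : Real.exp (Cd - (|CK| + 1) * m) ≤ Real.exp (-Real.log 8) :=
      Real.exp_le_exp.2 (by linarith)
    rw [Real.exp_neg, Real.exp_log (by norm_num)] at this
    linarith
  have G1 : G ≤ Real.exp (|CK| * m) :=
    G2.trans (Real.exp_le_exp.2 (mul_le_mul_of_nonneg_right (le_abs_self _) m0))
  have G3 : G * P ≤ Real.exp (Cd - m) := by
    refine (mul_le_mul G1 hP P0 (Real.exp_pos _).le).trans_eq ?_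
    rw [← Real.exp_add]
    congr 1
    ring
  refine (Real.rpow_le_rpow (mul_nonneg G0 P0) G3 (by positivity)).trans ?_
  rw [← Real.exp_mul, Real.exp_le_exp]
  have i1 : 1 / 2 ≤ 1 / p := one_div_le_one_div_of_le (by linarith) p4
  have i3 : (Cd - m) * (1 / p) ≤ (Cd - m) * (1 / 2) :=
    mul_le_mul_of_nonpos_left i1 (by linarith)
  linarith [le_abs_self C]

theorem ww_p {θ p : ℝ} (t0 : 0 < ww θ) (p3 : 1 < p) (p4 : p ≤ 2) : ww θ ^ p ≤ 4 := by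
  have b1 : ww θ ^ p ≤ 2 ^ p := Real.rpow_le_rpow t0.le (ww_le θ) (by linarith)
  have b4 : (2 : ℝ) ^ p ≤ 2 ^ (2 : ℝ) := Real.rpow_le_rpow_of_exponent_le (by norm_num) p4
  rw [show (2 : ℝ) ^ (2 : ℝ) = 4 by norm_num] at b4
  linarith

end XR2x

open XR2x in
theorem r2_pf (h0 : R_0) (h1 : R_1) (hu : I_u1) (hl : I_l2) (hk : K_mid) (hd : Q_dec) : R_2 := by
  intro ε hε
  have pi0 := Real.pi_pos
  have a0 := aa_pos
  obtain ⟨k, k0, k1, k2⟩ : ∃ k : ℝ, 0 < k ∧ k ≤ Real.pi / 12 ∧ 3 * aa * k ≤ ε / 3 := by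
    refine ⟨min (Real.pi / 12) (ε / (9 * aa)), by positivity, min_le_left _ _, ?_⟩
    have := mul_le_mul_of_nonneg_left (min_le_right (Real.pi / 12) (ε / (9 * aa)))
      (show 0 ≤ 3 * aa by positivity)
    refine this.trans_eq ?_
    field_simp
    norm_num
  obtain ⟨CK, J0, hK⟩ := hk 4 (by norm_num)
  obtain ⟨α, α0, Cd, hD⟩ := hd
  obtain ⟨CR, hR⟩ := h1.1
  obtain ⟨γ, hγ⟩ := exists_nat_ge ((|CK| + 1) / α)
  rw [div_le_iff₀ α0] at hγ
  have γ0 : 0 < (γ : ℝ) := by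
    have : 0 < (γ : ℝ) * α := by linarith [abs_nonneg CK]
    exact (mul_pos_iff_of_pos_right α0).1 this
  have γ1 : 1 ≤ γ := Nat.cast_pos.1 γ0
  obtain ⟨d, d0, d1, d2⟩ : ∃ d : ℝ, 0 < d ∧ d ≤ Real.pi / 12 ∧
      d * (2 * Real.pi / 3 * aa * γ) ≤ k * ε / 3 := by
    refine ⟨min (Real.pi / 12) (k * ε / 3 / (2 * Real.pi / 3 * aa * γ)), by positivity,
      min_le_left _ _, ?_⟩
    rw [← le_div_iff₀ (by positivity)]
    exact min_le_right _ _
  obtain ⟨θ, hθ⟩ : ∃ θ : ℝ, θ = -(Real.pi / 3) + k := ⟨_, rfl⟩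
  have w1 : ww (θ + k) < ww θ := ww_lt (by linarith) (by linarith) (by linarith)
  have w2 : ww (θ / 2 + d) < ww (θ / 2) := ww_lt (by linarith) (by linarith) (by linarith)
  have w3 : 1 < ww (θ + k) := ww_zero ▸ ww_lt (by linarith) (by linarith) le_rfl
  have w4 : 1 < ww (θ / 2 + d) := ww_zero ▸ ww_lt (by linarith) (by linarith) le_rfl
  obtain ⟨p, ⟨p1, p2⟩, p3, p4⟩ := (((ev_p (by linarith) w1).and (ev_p (by linarith) w2)).and
    (Ioc_mem_nhdsGT (show (1 : ℝ) < 2 by norm_num))).exists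
  obtain ⟨C1, hC1⟩ := hu (θ + k) p p3
  obtain ⟨C2, hC2⟩ := hu (θ / 2 + d) p p3
  obtain ⟨C3, hC3⟩ := hl θ p (by linarith) (by linarith) p3
  obtain ⟨m1, hm1⟩ := exists_nat_ge (Cd + 2 * (|C3| + Real.log 8))
  obtain ⟨m2, hm2⟩ := exists_nat_ge ((C1 + C2 + C3 + Real.log 8 + d * CR) / (k * ε / 3))
  rw [div_le_iff₀ (by positivity)] at hm2
  refine ⟨max 4 (max m1 m2), fun m hm => ?_⟩
  have q4 : 4 ≤ m := (le_max_left _ _).trans hm
  have q1 : (m1 : ℝ) ≤ m := Nat.cast_le.2 (((le_max_left _ _).trans (le_max_right _ _)).trans hm)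
  have q2 : (m2 : ℝ) ≤ m := Nat.cast_le.2 (((le_max_right _ _).trans (le_max_right _ _)).trans hm)
  have q5 : 4 ≤ γ * m := q4.trans (Nat.le_mul_of_pos_left _ γ1)
  have m0 : (0 : ℝ) ≤ m := Nat.cast_nonneg m
  filter_upwards [hC1 m q4, (tendsto_add_atTop_nat m).eventually (hC2 (γ * m) q5),
    hC3 m (γ * m) q4 q5, eventually_ge_atTop J0,
    (tendsto_add_atTop_nat m).eventually (hR (γ * m) q5)] with J A1 A2 A3 A4 A5
  obtain ⟨e1, f1⟩ := low h0 w3.le p3 p1 A1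
  obtain ⟨e2, f2⟩ := low h0 w4.le p3 p2 A2
  have hP : pp (J + m) (γ * m) ≤ Real.exp (Cd - (|CK| + 1) * m) := by
    refine (hD _ _).trans (Real.exp_le_exp.2 (sub_le_sub_left ?_ _))
    rw [Nat.cast_mul, ← mul_assoc, mul_comm α]
    exact mul_le_mul_of_nonneg_right hγ m0
  have P0 := (h0.arm 1 (J + m) (γ * m) zero_le_one).1
  have t0 : 0 < ww θ := zero_lt_one.trans (w3.trans w1)
  obtain ⟨G0, G1⟩ := h0.mono (ww θ ^ p) 4 J m (Real.rpow_nonneg t0.le _) (ww_p t0 p3 p4)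
  obtain ⟨hP2, hT⟩ := tail p3 p4 G0 P0 m0 (G1.trans (hK J A4 m (by omega))) hP (hm1.trans q1)
  exact alg a0 k0 d0 m0 (Nat.cast_nonneg _) (Nat.cast_mul γ m) k1 d1 hθ k2 d2 A5
    (hm2.trans ((mul_comm _ _).trans_le
      (mul_le_mul_of_nonneg_left q2 (show 0 ≤ k * ε / 3 by positivity))))
    (fin f1 f2 hP2 p3 p4 A3 hT e1 e2)

end Vale.Agent.P167Q
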