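import Vale.Agent.P167Q.YStm
import Vale.Agent.P167Q.XR2

open Filter Topology
open scoped Classical

namespace Vale.Agent.P167Q

namespace YS3x

theorem alg {a d ε θ m n b b2 g C2 C3 L CR x : ℝ} (a0 : 0 < a) (d0 : 0 < d)
    (m0 : 0 ≤ m) (n0 : 0 ≤ n) (hn : n = g * m) (d1 : d ≤ -θ / 4)
    (d2 : d * (2 * Real.pi / 3 * a * g) ≤ ε / 2) (A5 : b2 ≤ 2 * Real.pi / 3 * a * n + CR)
    (s4 : C2 + C3 + L + d * CR ≤ ε / 2 * m)
    (key : x + (-(a * (θ / 2 + d) ^ 2 * n) - (θ / 2 + d) * b2 - C2) ≤ C3 + L +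
      (-(a * θ ^ 2 * m) - θ * b + (-(a * (θ / 2) ^ 2 * n) - θ / 2 * b2))) :
    x ≤ -(a * θ ^ 2 * m) - θ * b + ε * m := by
  have s0 : 0 ≤ d * (-θ - d) := mul_nonneg d0.le (by linarith)
  have s1 : (θ / 2 + d) ^ 2 ≤ (θ / 2) ^ 2 := by linarith
  have s2 : a * (θ / 2 + d) ^ 2 * n ≤ a * (θ / 2) ^ 2 * n :=
    mul_le_mul_of_nonneg_right (mul_le_mul_of_nonneg_left s1 a0.le) n0
  have s3 : d * b2 ≤ ε / 2 * m + d * CR := by
    have h1 := mul_le_mul_of_nonneg_left A5 d0.le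
    have h2 := mul_le_mul_of_nonneg_right d2 m0
    rw [hn] at h1
    linarith
  linarith

end YS3x

open XR2x in
theorem s3_pf (h : Al) : S_3 := by
  intro θ θ1 θ2 ε hε
  have h0 := h.r0
  have pi0 := Real.pi_pos
  have a0 := aa_pos
  obtain ⟨CK, J0, hK⟩ := h.kmid 4 (by norm_num)
  obtain ⟨α, α0, Cd, hD⟩ := h.dec
  obtain ⟨CR, hR⟩ := h.r1.1
  obtain ⟨γ, hγ⟩ := exists_nat_ge ((|CK| + 1) / α)
  rw [div_le_iff₀ α0] at hγ
  have γ0 : 0 < (γ : ℝ) := by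
    have : 0 < (γ : ℝ) * α := by linarith [abs_nonneg CK]
    exact (mul_pos_iff_of_pos_right α0).1 this
  have γ1 : 1 ≤ γ := Nat.cast_pos.1 γ0
  obtain ⟨d, d0, d1, d2⟩ : ∃ d : ℝ, 0 < d ∧ d ≤ -θ / 4 ∧
      d * (2 * Real.pi / 3 * aa * γ) ≤ ε / 2 := by
    refine ⟨min (-θ / 4) (ε / 2 / (2 * Real.pi / 3 * aa * γ)),
      lt_min (by linarith) (by positivity), min_le_left _ _, ?_⟩
    rw [← le_div_iff₀ (by positivity)]
    exact min_le_right _ _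
  have w2 : ww (θ / 2 + d) < ww (θ / 2) := ww_lt (by linarith) (by linarith) (by linarith)
  have w3 : 1 < ww θ := ww_zero ▸ ww_lt (by linarith) θ2 le_rfl
  have w4 : 1 < ww (θ / 2 + d) := ww_zero ▸ ww_lt (by linarith) (by linarith) le_rfl
  obtain ⟨p₀, hp₀, hsub⟩ := mem_nhdsGT_iff_exists_Ioc_subset.1
    ((ev_p (by linarith) w2).and (Ioc_mem_nhdsGT (show (1 : ℝ) < 2 by norm_num)))
  refine ⟨p₀, hp₀, fun p p3 pp0 => ?_⟩
  obtain ⟨p2, -, p4⟩ := hsub ⟨p3, pp0⟩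
  obtain ⟨C2, hC2⟩ := h.u1 (θ / 2 + d) p p3
  obtain ⟨C3, hC3⟩ := h.l2 θ p θ1 θ2 p3
  obtain ⟨m1, hm1⟩ := exists_nat_ge (Cd + 2 * (|C3| + Real.log 8))
  obtain ⟨m2, hm2⟩ := exists_nat_ge ((C2 + C3 + Real.log 8 + d * CR) / (ε / 2))
  rw [div_le_iff₀ (by positivity)] at hm2
  refine ⟨max 4 (max m1 m2), fun m hm => ?_⟩
  have q4 : 4 ≤ m := (le_max_left _ _).trans hm
  have q1 : (m1 : ℝ) ≤ m := Nat.cast_le.2 (((le_max_left _ _).trans (le_max_right _ _)).trans hm)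
  have q2 : (m2 : ℝ) ≤ m := Nat.cast_le.2 (((le_max_right _ _).trans (le_max_right _ _)).trans hm)
  have q5 : 4 ≤ γ * m := q4.trans (Nat.le_mul_of_pos_left _ γ1)
  have m0 : (0 : ℝ) ≤ m := Nat.cast_nonneg m
  filter_upwards [(tendsto_add_atTop_nat m).eventually (hC2 (γ * m) q5),
    hC3 m (γ * m) q4 q5, eventually_ge_atTop J0,
    (tendsto_add_atTop_nat m).eventually (hR (γ * m) q5)] with J A2 A3 A4 A5
  have f1 : 1 ≤ FF (ww θ ^ (1 / p)) J m :=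
    one_le h0 (Real.one_le_rpow w3.le (by positivity)) J m
  have e0 : Real.exp (Real.log (FF (ww θ ^ (1 / p)) J m)) = FF (ww θ ^ (1 / p)) J m :=
    Real.exp_log (by linarith)
  obtain ⟨e2, f2⟩ := low h0 w4.le p3 p2 A2
  have hP : pp (J + m) (γ * m) ≤ Real.exp (Cd - (|CK| + 1) * m) := by
    refine (hD _ _).trans (Real.exp_le_exp.2 (sub_le_sub_left ?_ _))
    rw [Nat.cast_mul, ← mul_assoc, mul_comm α]
    exact mul_le_mul_of_nonneg_right hγ m0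
  have P0 := (h0.arm 1 (J + m) (γ * m) zero_le_one).1
  have t0 : 0 < ww θ := zero_lt_one.trans w3
  obtain ⟨G0, G1⟩ := h0.mono (ww θ ^ p) 4 J m (Real.rpow_nonneg t0.le _) (ww_p t0 p3 p4)
  obtain ⟨hP2, hT⟩ := tail p3 p4 G0 P0 m0 (G1.trans (hK J A4 m (by omega))) hP (hm1.trans q1)
  rw [← e0, Real.exp_le_exp]
  exact YS3x.alg a0 d0 m0 (Nat.cast_nonneg _) (Nat.cast_mul γ m) d1 d2 A5
    (hm2.trans ((mul_comm _ _).trans_le
      (mul_le_mul_of_nonneg_left q2 (show 0 ≤ ε / 2 by positivity))))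
    (fin f1 f2 hP2 p3 p4 A3 hT e0.le e2)

end Vale.Agent.P167Q
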