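import Vale.Agent.P167Q.YStm

open Finset MeasureTheory
open scoped Classical

namespace Vale.Agent.P167Q

namespace YCntx

theorem step (p : ℕ → Prop) (h0 : ¬p 0) (m : ℕ) : p m → ∃ i < m, ¬p i ∧ p (i + 1) := by
  induction m with
  | zero => exact fun h => absurd h h0
  | succ m ih =>
    intro h
    by_cases hm : p m
    · obtain ⟨i, h1, h2⟩ := ih hm
      exact ⟨i, h1.trans (Nat.lt_succ_self m), h2⟩
    · exact ⟨m, Nat.lt_succ_self m, hm, h⟩

theorem zero_mem (a : ℕ) : (0 : Sq) ∈ box a := by simp [mem_box]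

theorem big (h : Al) {ω : Cf} {C : Set Sq} {s r : ℕ} {c : Sq} (h0 : (0 : Sq) ∈ fill ω C)
    (hc : c ∈ C) (hr : c ∉ box r) (hs : s ≤ r) : ¬Sml C s := fun hS => by
  have := h.geo.sml ω C s 0 hS h0 hc
  rw [bz_zero] at this
  exact hr (h.base.bas.mono _ _ hs this)

theorem pw {J m i i' : ℕ} (h : i < i') : 2 ^ (J + i * m + m) ≤ 2 ^ (J + i' * m) := by
  refine Nat.pow_le_pow_right two_pos ?_
  have := Nat.mul_le_mul_right m (Nat.succ_le_of_lt h)
  rw [Nat.succ_mul] at this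
  omega

/-- the family counted at level `i` -/
noncomputable def F (J m : ℕ) (ω : Cf) (i : ℕ) : Finset (Set Sq) :=
  (cls ω (box (2 ^ (J + i * m + m) - 1))).filter
    (IsMid (3 * 2 ^ (J + i * m)) (2 ^ (J + i * m + m) - 1) ω)

theorem lower (h : Al) {J m t n : ℕ} (hn : 2 ^ (J + t * m) ≤ n) (ω : Cf) :
    MM J m t ω ≤ nN n ω := by
  have e : MM J m t ω = ((range t).biUnion (F J m ω)).card := by
    rw [card_biUnion]
    · rfl
    · have key : ∀ i i', i < i' → Disjoint (F J m ω i) (F J m ω i') := by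
        intro i i' hi
        rw [disjoint_left]
        intro C h1 h2
        obtain ⟨a1, -⟩ := mem_filter.1 h1
        obtain ⟨y, hy, rfl⟩ := mem_image.1 a1
        have := pw (J := J) (m := m) hi
        exact (mem_filter.1 h2).2.2.1 y (h.base.bas.mono _ _ (by omega) hy) (h.base.bas.self ω y)
      intro i _ i' _ hne
      rcases lt_or_gt_of_ne hne with hi | hi
      · exact key i i' hi
      · exact (key i' i hi).symm
  rw [e]
  refine card_le_card fun C hC => ?_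
  obtain ⟨i, hi, hC⟩ := mem_biUnion.1 hC
  obtain ⟨a1, a2, -, a3⟩ := mem_filter.1 hC
  have := pw (J := J) (m := m) (mem_range.1 hi)
  have hs := h.base.bas.mono (2 ^ (J + i * m + m) - 1) n (by omega)
  exact mem_filter.2 ⟨image_subset_image hs a1, fun x hx => hs (a2 hx), a3 0 (zero_mem _)⟩

theorem cases (h : Al) {J m t n : ℕ} (hn : n < 2 ^ (J + (t + 1) * m)) {ω : Cf} {C : Set Sq}
    (h1 : C ∈ cls ω (box n)) (h0 : (0 : Sq) ∈ fill ω C) :
    C ∈ cls ω (box (3 * 2 ^ J)) ∨ (∃ i < t, C ∈ F J m ω i) ∨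
      ∃ k ∈ (range t).image (fun i => (i + 1) * m) ∪ (range m).image (fun j => t * m + j + 1),
        (∃ x ∈ bz 0 (3 * 2 ^ (J + k)), x ∈ C) ∧ ¬Sml C (2 ^ (J + k) / 2) := by
  obtain ⟨y, hy, rfl⟩ := mem_image.1 h1
  have hs := h.base.bas.self ω y
  by_cases a0 : ∃ x ∈ box (3 * 2 ^ (J + 0 * m)), x ∈ clus ω y
  · obtain ⟨x, a1, a2⟩ := a0
    rw [zero_mul, add_zero] at a1
    exact Or.inl (mem_image.2 ⟨x, a1, h.base.bas.cleq ω y x a2⟩)
  right
  by_cases at' : ∃ x ∈ box (3 * 2 ^ (J + t * m)), x ∈ clus ω y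
  · obtain ⟨i, hi, b1, b2⟩ := step (fun i => ∃ x ∈ box (3 * 2 ^ (J + i * m)), x ∈ clus ω y) a0 t at'
    have b3 : ∀ x ∈ box (3 * 2 ^ (J + i * m)), x ∉ clus ω y := fun x hx hx' => b1 ⟨x, hx, hx'⟩
    by_cases hsub : clus ω y ⊆ box (2 ^ (J + i * m + m) - 1)
    · exact Or.inl ⟨i, hi, mem_filter.2 ⟨mem_image.2 ⟨y, hsub hs, rfl⟩, hsub, b3,
        fun x hx => h.geo.side ω _ _ b3 0 (zero_mem _) x hx h0⟩⟩
    · obtain ⟨c, c1, c2⟩ := Set.not_subset.1 hsub
      refine Or.inr ⟨(i + 1) * m, mem_union_left _ (mem_image.2 ⟨i, mem_range.2 hi, rfl⟩), ?_, ?_⟩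
      · rw [bz_zero]
        exact b2
      · refine big h h0 c1 c2 ?_
        rw [add_mul, one_mul, ← add_assoc]
        have : 0 < 2 ^ (J + i * m + m) := by positivity
        omega
  · have b0 : ¬y ∈ box (3 * 2 ^ (J + (t * m + 0))) := fun hx => at' ⟨y, hx, hs⟩
    have bm : y ∈ box (3 * 2 ^ (J + (t * m + m))) := by
      rw [add_mul, one_mul] at hn
      exact h.base.bas.mono _ _ (by omega) hy
    obtain ⟨j, hj, b1, b2⟩ := step (fun j => y ∈ box (3 * 2 ^ (J + (t * m + j)))) b0 m bm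
    refine Or.inr ⟨t * m + j + 1, mem_union_right _ (mem_image.2 ⟨j, mem_range.2 hj, rfl⟩),
      ⟨y, ?_, hs⟩, big h h0 hs b1 ?_⟩
    · rw [bz_zero]
      exact b2
    · rw [← add_assoc, pow_succ, Nat.mul_div_cancel _ two_pos]
      omega

end YCntx

open YCntx in
theorem scnt_pf (h : Al) : S_cnt := by
  intro g hg
  obtain ⟨n₀, s₀, h2⟩ := h.tile g hg
  refine ⟨n₀, s₀, fun J hJ m _ t n hn1 hn2 => ?_⟩
  choose I i1 i2 i3 using fun k : ℕ => h2 (2 ^ (J + k))
    (le_trans (by omega) Nat.lt_two_pow_self.le) 0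
  refine ⟨((range t).image (fun i => (i + 1) * m) ∪
    (range m).image (fun j => t * m + j + 1)).biUnion I, ?_, fun i hi => ?_,
    fun ω => ⟨lower h hn1 ω, ?_⟩⟩
  · refine (card_biUnion_le_card_mul _ I n₀ fun k _ => i1 k).trans ?_
    rw [mul_comm]
    refine Nat.mul_le_mul_left _ ((card_union_le _ _).trans (add_le_add ?_ ?_))
    · simpa using card_image_le (s := range t) (f := fun i => (i + 1) * m)
    · simpa using card_image_le (s := range m) (f := fun j => t * m + j + 1)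
  · obtain ⟨k, -, hk⟩ := mem_biUnion.1 hi
    exact i2 k i hk
  · have a1 : ((range t).biUnion (F J m ω)).card ≤ MM J m t ω := card_biUnion_le
    have a2 : (cls ω (box (3 * 2 ^ J))).card ≤ (box (3 * 2 ^ J)).card := card_image_le
    refine le_trans ?_ (add_le_add_left (add_le_add a1 a2) _)
    refine le_trans ?_ (add_le_add_left (card_union_le _ _) _)
    refine le_trans (card_le_card fun C hC => ?_) (card_union_le _ _)
    obtain ⟨c1, -, c3⟩ := mem_filter.1 hC
    rcases cases h hn2 c1 c3 with d | ⟨i, hi, d⟩ | ⟨k, hk, d1, d2⟩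
    · exact mem_union_left _ (mem_union_right _ d)
    · exact mem_union_left _ (mem_union_left _ (mem_biUnion.2 ⟨i, mem_range.2 hi, d⟩))
    · obtain ⟨i, j1, j2⟩ := i3 k C d1 d2
      exact mem_union_right _ (mem_filter.2 ⟨c1, i, mem_biUnion.2 ⟨k, hk, j1⟩, j2⟩)

end Vale.Agent.P167Q
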