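import Vale.Agent.P167Q.Defs

namespace Vale.Agent.P167Q

/-- Number of loops that surround the origin square and stay within sup-distance `n`. -/
noncomputable def nestN (n : ℕ) (ω : Cf) : ℕ :=
  {C ∈ loops ω | (∀ y ∈ C, max |y.1| |y.2| ≤ (n : ℤ)) ∧ (0, 0) ∈ fill ω C}.ncard

end Vale.Agent.P167Q
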