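import Vale.Agent.P167Q.XStm
import Vale.Agent.P167Q.YDefs

/-! P167Q, nesting spectrum, two point function, volume. See `skel/P167Q/PROOFY.md`. -/

open Finset Relation Filter Topology MeasureTheory
open scoped Classical BigOperators

namespace Vale.Agent.P167Q

/-- what is already proved -/
structure Al : Prop where
  base : Base
  geo : X_geo
  dep : X_dep
  sh : X_sh
  bd : X_bd
  ind : X_ind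
  sym : K_sym
  arm : K_arm
  gen : K_gen
  tile : K_tile
  kmid : K_mid
  u1 : I_u1
  l1 : I_l1
  l2 : I_l2
  r0 : R_0
  r1 : R_1
  r2 : R_2
  sub : Q_sub
  dec : Q_dec
  ring : Q_ring
  rsw : Q_rsw
  qin : Q_in
  glue : Q_glue
  eup : E_up
  elo : E_lo

noncomputable section

def nN (n : ℕ) (ω : Cf) : ℕ :=
  ((cls ω (box n)).filter fun C : Set Sq => C ⊆ box n ∧ (0 : Sq) ∈ fill ω C).card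

def gx (x : ℝ) : ℝ := 1 / 12 - 3 * x ^ 2 / (4 * Real.pi ^ 2)

def MM (J m t : ℕ) (ω : Cf) : ℕ := ∑ i ∈ range t, N1 (J + i * m) m ω

/-- sup norm -/
def nr (x : Sq) : ℕ := max x.1.natAbs x.2.natAbs

def tp (x : Sq) : ℝ := perc.real {ω | x ∈ clus ω 0}

/-- arm from `x` -/
def Ax (x : Sq) (k : ℕ) : Set Cf := {ω | ¬clus ω x ⊆ bz x k}

def blk (R : ℕ) : Finset Sq := (box R).filter fun x => Even (x.1 + x.2)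

def ZZ (R k : ℕ) (ω : Cf) : ℕ := ((blk R).filter fun x => ω ∈ Ax x k).card

def vol (n : ℕ) : ℝ := perc.real {ω | (n : ℕ∞) ≤ (clus ω (0, 0)).encard}

end

structure Y_0 : Prop where
  eq : ∀ n ω, nestN n ω = nN n ω
  loc : ∀ n, Lc (box (n + 1)) (nN n)
  zero : ∀ n ω, nN n ω = 0 ↔ ω ∈ BA true 0 n
  ax : ∀ x k, Le (bz x (k + 1)) (Ax x k) ∧ perc.real (Ax x k) = pc true 0 k ∧
    (Even (x.1 + x.2) → IsUpperSet (Ax x k))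
  p0 : ∀ k, pa 0 k = pc true 0 k
  /-- polynomial bounds for all radii -/
  pol : ∀ ε : ℝ, 0 < ε → ∃ C : ℝ, 1 ≤ C ∧ ∀ k : ℕ, 1 ≤ k →
    (k : ℝ) ^ (-(5 / 48 + ε)) ≤ C * pc true 0 k ∧ pc true 0 k ≤ C * (k : ℝ) ^ (-(5 / 48 - ε))

def S_hol : Prop := (∀ (u v s : ℝ) (J m : ℕ), 0 < u → 0 < v → 0 < s → s < 1 →
  FF (u ^ (1 - s) * v ^ s) J m ≤ FF u J m ^ (1 - s) * FF v J m ^ s) ∧
  ∀ (u : ℝ) (J m t : ℕ), 4 ≤ m → (ex fun ω => u ^ MM J m t ω) = ∏ i ∈ range t, FF u (J + i * m) m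

def S_lo : Prop := ∀ x : ℝ, 0 ≤ x → x < Real.pi / 2 → ∀ ε : ℝ, 0 < ε → ∃ p > (1 : ℝ), ∃ m₀ : ℕ, ∀ m ≥ m₀,
  ∀ᶠ J in atTop, Real.exp ((gx x * Real.log 2 - ε) * m) ≤ FF ((2 * Real.cos x) ^ (1 / p)) J m ^ p

def S_3 : Prop := ∀ θ : ℝ, -(Real.pi / 3) < θ → θ < 0 → ∀ ε : ℝ, 0 < ε → ∃ p₀ > (1 : ℝ), ∀ p > (1 : ℝ), p ≤ p₀ →
  ∃ m₀ : ℕ, ∀ m ≥ m₀, ∀ᶠ J in atTop,
  FF (ww θ ^ (1 / p)) J m ≤ Real.exp (-(aa * θ ^ 2 * m) - θ * be J m + ε * m)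

def S_upx (x : ℝ) : Prop := ∀ ε : ℝ, 0 < ε → ∃ p > (1 : ℝ), ∃ m₀ : ℕ, ∀ m ≥ m₀,
  ∀ᶠ J in atTop, FF ((2 * Real.cos x) ^ p) J m ^ (1 / p) ≤ Real.exp ((gx x * Real.log 2 + ε) * m)

def S_up1 : Prop := ∀ x : ℝ, 0 < x → x < Real.pi / 2 → S_upx x

def S_cnt : Prop := ∀ g : ℕ, 1 ≤ g → ∃ n₀ J₀ : ℕ, ∀ J ≥ J₀, ∀ m ≥ 4, ∀ t n : ℕ,
  2 ^ (J + t * m) ≤ n → n < 2 ^ (J + (t + 1) * m) →
  ∃ I : Finset (Sq × ℕ), I.card ≤ n₀ * (t + m) ∧ (∀ i ∈ I, 1 ≤ i.2) ∧ ∀ ω,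
    MM J m t ω ≤ nN n ω ∧ nN n ω ≤ MM J m t ω + (box (3 * 2 ^ J)).card + kI g (box n) I ω

def S_tup : Prop := ∀ x : ℝ, 0 ≤ x → x < Real.pi / 2 → ∀ ε : ℝ, 0 < ε → ∀ᶠ n : ℕ in atTop,
  (ex fun ω => (2 * Real.cos x) ^ nN n ω) ≤ Real.exp ((gx x + ε) * Real.log n)

def S_tlo : Prop := ∀ x : ℝ, 0 ≤ x → x < Real.pi / 2 → ∀ ε : ℝ, 0 < ε → ∀ᶠ n : ℕ in atTop,
  Real.exp ((gx x - ε) * Real.log n) ≤ ex fun ω => (2 * Real.cos x) ^ nN n ω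

def GoalA : Prop := ∀ x : ℝ, 0 ≤ x → x ≤ Real.pi / 2 → Tendsto (fun n : ℕ =>
  Real.log (∫ ω, (2 * Real.cos x) ^ nestN n ω ∂perc) / Real.log n) atTop
  (𝓝 (1 / 12 - 3 * x ^ 2 / (4 * Real.pi ^ 2)))

def GoalB : Prop := Tendsto (fun n : ℕ => (∫ ω, (nestN n ω : ℝ) ∂perc) / Real.log n) atTop
  (𝓝 (1 / (2 * Real.sqrt 3 * Real.pi)))

def T_up : Prop := (∀ x : Sq, MeasurableSet {ω : Cf | x ∈ clus ω 0}) ∧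
  ∀ (x : Sq) (k : ℕ), 2 * k + 3 ≤ nr x → tp x ≤ pc true 0 k * pc true 0 k

/-- every increasing local event that forces arms can be glued to the origin -/
def T_ring : Prop := ∃ c > 0, ∀ u : ℕ, 72 ≤ u → ∃ (G : Set Cf) (W : Finset Sq), Le W G ∧
  IsUpperSet G ∧ c * pc true 0 (6 * u) ≤ perc.real G ∧
  ∀ ω ∈ G, ∀ x : Sq, Even (x.1 + x.2) → nr x < u → ω ∈ Ax x (7 * u) → x ∈ clus ω 0

def T_pol : Prop := ∀ ε : ℝ, 0 < ε → ∃ C : ℝ, 1 ≤ C ∧ ∀ x : Sq, 1 ≤ nr x →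
  tp x ≤ C * (nr x : ℝ) ^ (-(5 / 24 - ε)) ∧
  (Even (x.1 + x.2) → (nr x : ℝ) ^ (-(5 / 24 + ε)) ≤ C * tp x)

def GoalC : Prop := Tendsto (fun x : ℤ × ℤ =>
  Real.log (perc.real {ω | x ∈ clus ω (0, 0)}) / Real.log (max |x.1| |x.2| : ℤ))
  (cofinite ⊓ 𝓟 {x | Even (x.1 + x.2)}) (𝓝 (-(5 / 24)))

def V_sum : Prop := ∀ a : ℝ, 0 ≤ a → a ≤ 1 → ∀ R : ℕ, 1 ≤ R →
  ∑ z ∈ (box R).erase 0, (nr z : ℝ) ^ (-a) ≤ 8 * (R : ℝ) ^ (2 - a)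

def V_up : Prop := ∀ ε : ℝ, 0 < ε → ∀ᶠ n : ℕ in atTop,
  vol n ≤ Real.exp (-((5 / 91 - ε) * Real.log n))

def V_pair : Prop := ∀ ε : ℝ, 0 < ε → ∃ C : ℝ, 1 ≤ C ∧ ∀ (u : ℕ) (x y : Sq), nr x < u → nr y < u →
  1 ≤ nr (x - y) → perc.real (Ax x (7 * u) ∩ Ax y (7 * u)) ≤
    C * (nr (x - y) : ℝ) ^ (-(5 / 48 - ε)) * pc true 0 (7 * u)

def V_mom : Prop := ∀ ε : ℝ, 0 < ε → ∃ C : ℝ, 1 ≤ C ∧ ∀ R : ℕ, 1 ≤ R →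
  (R : ℝ) ^ (-ε) ≤ C * perc.real
    {ω | (R : ℝ) ^ 2 * pc true 0 (7 * (R + 1)) / 2 ≤ ZZ R (7 * (R + 1)) ω}

def V_lo : Prop := ∀ ε : ℝ, 0 < ε → ∀ᶠ n : ℕ in atTop,
  Real.exp (-((5 / 91 + ε) * Real.log n)) ≤ vol n

def GoalD : Prop := Tendsto (fun n : ℕ =>
  Real.log (perc.real {ω | (n : ℕ∞) ≤ (clus ω (0, 0)).encard}) / Real.log n) atTop
  (𝓝 (-(5 / 91)))

end Vale.Agent.P167Q
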