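import Vale.Agent.P167Q.Abs

/-! P167Q: order and locality of clusters. -/

open Finset Relation
open scoped Classical

namespace Vale.Agent.P167Q

namespace ABas2x

variable {X E : Type} [Fintype X] [DecidableEq X] [Fintype E] [DecidableEq E] (S : Sys X E)

omit [Fintype X] [Fintype E] [DecidableEq E] in
theorem av_mono {ω : E → Bool} {A B : Finset X} (h : A ⊆ B) {u v : X} (hp : S.av ω B u v) :
    S.av ω A u v := by
  induction hp with
  | refl => exact ReflTransGen.refl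
  | tail _ hs ih => exact ReflTransGen.tail ih ⟨hs.1, fun hm => hs.2 (h hm)⟩

omit [Fintype X] [Fintype E] [DecidableEq E] in
theorem three (ω : E → Bool) (A B : Finset X) {z : X} (hp : ReflTransGen S.inc z S.r) :
    S.av ω (A ∪ B) z S.r ∨ (∃ a ∈ A, S.av ω B a S.r) ∨ ∃ b ∈ B, S.av ω A b S.r := by
  induction hp using ReflTransGen.head_induction_on with
  | refl => exact Or.inl ReflTransGen.refl
  | @head z z' hz _ ih =>
    rcases ih with h | h | h
    · by_cases hA : z' ∈ A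
      · exact Or.inr (Or.inl ⟨z', hA, av_mono S subset_union_right h⟩)
      by_cases hB : z' ∈ B
      · exact Or.inr (Or.inr ⟨z', hB, av_mono S subset_union_left h⟩)
      exact Or.inl (ReflTransGen.head ⟨Or.inl hz, by simp [hA, hB]⟩ h)
    · exact Or.inr (Or.inl h)
    · exact Or.inr (Or.inr h)

theorem inside (hb : S.Bas) {ω : E → Bool} {B : Finset X} {x a : X}
    (hB : ∀ z ∈ S.cl ω x, z ∉ B) (ha : a ∈ S.cl ω x) : S.av ω B x a := by
  rw [hb.mcl] at ha
  induction ha with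
  | refl => exact ReflTransGen.refl
  | tail hp hs ih =>
    exact ReflTransGen.tail ih ⟨Or.inr hs, hB _ ((hb.mcl _ _ _).2 (hp.tail hs))⟩

theorem excl (hb : S.Bas) (hn : S.PConn) (ω : E → Bool) (x y : X) (hne : S.cl ω x ≠ S.cl ω y)
    (hy : y ∈ S.D ω (S.cl ω x)) : x ∉ S.D ω (S.cl ω y) := by
  intro hx
  have hd : ∀ z ∈ S.cl ω x, z ∉ S.cl ω y := fun z h1 h2 =>
    hne ((hb.cleq ω x z h1).symm.trans (hb.cleq ω y z h2))
  have hd' : ∀ z ∈ S.cl ω y, z ∉ S.cl ω x := fun z h1 h2 => hd z h2 h1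
  have nx : ¬S.av ω (S.cl ω y) x S.r :=
    ((hb.mD _ _ _).1 hx).resolve_left (hd x (hb.self ω x))
  have ny : ¬S.av ω (S.cl ω x) y S.r :=
    ((hb.mD _ _ _).1 hy).resolve_left (hd' y (hb.self ω y))
  rcases three S ω (S.cl ω x) (S.cl ω y) (hn x) with h | ⟨a, ha, h⟩ | ⟨b, hb', h⟩
  · exact nx (av_mono S subset_union_right h)
  · exact nx (ReflTransGen.trans (inside S hb hd ha) h)
  · exact ny (ReflTransGen.trans (inside S hb hd' hb') h)

theorem ord (hb : S.Bas) (hn : S.PConn) (ω : E → Bool) (C : Finset X) (hC : C ∈ S.Sp ω)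
    (C' : Finset X) (hC' : C' ∈ S.Sp ω) : C' ⊆ S.D ω C ∨ C ⊆ S.D ω C' := by
  by_contra hcon
  rw [not_or] at hcon
  obtain ⟨h1, h2⟩ := hcon
  rw [Sys.Sp, mem_filter, hb.mCl] at hC hC'
  obtain ⟨⟨⟨x, rfl⟩, hr⟩, hg⟩ := hC
  obtain ⟨⟨⟨x', rfl⟩, -⟩, hg'⟩ := hC'
  have n1 : ∀ z ∈ S.cl ω x', z ∉ S.D ω (S.cl ω x) := fun z hz hD => by
    rw [hb.subD, hb.cleq ω x' z hz] at hD
    exact h1 hD
  have n2 : ∀ z ∈ S.cl ω x, z ∉ S.D ω (S.cl ω x') := fun z hz hD => by
    rw [hb.subD, hb.cleq ω x z hz] at hD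
    exact h2 hD
  have key : ∀ z, ReflTransGen S.inc z S.r →
      z ∉ S.D ω (S.cl ω x) ∨ z ∉ S.D ω (S.cl ω x') := by
    intro z hp
    induction hp using ReflTransGen.head_induction_on with
    | refl => exact Or.inl (hb.rD ω _ hr)
    | @head z z' hz _ ih =>
      by_contra hc
      rw [not_or, not_not, not_not] at hc
      rcases ih with h | h
      · exact n2 z (hb.cross ω _ z z' hz hc.1 h) hc.2
      · exact n1 z (hb.cross ω _ z z' hz hc.2 h) hc.1
  rcases key S.g (hn S.g) with h | h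
  · exact h hg
  · exact h hg'

omit [Fintype X] [DecidableEq X] [Fintype E] [DecidableEq E] in
theorem av_loc {ω ω' : E → Bool} {C : Finset X} (H : ∀ v b i, S.e v b i ∈ C → ω v = ω' v)
    {u w : X} (hp : S.av ω C u w) : S.av ω' C u w := by
  induction hp with
  | refl => exact ReflTransGen.refl
  | @tail p q _ hs ih =>
    obtain ⟨h | ⟨v, i, hp, hq⟩, hC⟩ := hs
    · exact ReflTransGen.tail ih ⟨Or.inl h, hC⟩
    · by_cases ht : ∃ b j, S.e v b j ∈ C
      · obtain ⟨b, j, hj⟩ := ht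
        rw [H v b j hj] at hp hq
        exact ReflTransGen.tail ih ⟨Or.inr ⟨v, i, hp, hq⟩, hC⟩
      · have hm : S.e v (!ω v) false ∉ C := fun hm => ht ⟨_, _, hm⟩
        refine ReflTransGen.tail (ReflTransGen.tail ih
          ⟨Or.inl ⟨v, ω v, i, false, hp, rfl⟩, hm⟩) ⟨Or.inl ⟨v, !ω v, false, !i, rfl, ?_⟩, hC⟩
        rw [Bool.not_not]
        exact hq

theorem cl_loc (hb : S.Bas) {ω ω' : E → Bool} {x : X}
    (H : ∀ v b i, S.e v b i ∈ S.cl ω x → ω v = ω' v) : S.cl ω x = S.cl ω' x := by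
  ext y
  rw [hb.mcl, hb.mcl]
  constructor
  · intro hp
    induction hp with
    | refl => exact ReflTransGen.refl
    | @tail p q h0 hs ih =>
      obtain ⟨v, i, hp, hq⟩ := hs
      have e : ω v = ω' v := H v _ _ (hp ▸ (hb.mcl _ _ _).2 h0)
      rw [e] at hp hq
      exact ReflTransGen.tail ih ⟨v, i, hp, hq⟩
  · intro hp
    induction hp with
    | refl => exact ReflTransGen.refl
    | @tail p q _ hs ih =>
      obtain ⟨v, i, hp, hq⟩ := hs
      have e : ω v = ω' v := H v _ _ (hp ▸ (hb.mcl _ _ _).2 ih)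
      rw [← e] at hp hq
      exact ReflTransGen.tail ih ⟨v, i, hp, hq⟩

theorem loc (hb : S.Bas) (ω ω' : E → Bool) (C : Finset X) (hC : C ∈ S.Cl ω)
    (H : ∀ v b i, S.e v b i ∈ C → ω v = ω' v) : C ∈ S.Cl ω' ∧ S.D ω' C = S.D ω C := by
  refine ⟨?_, ?_⟩
  · rw [hb.mCl] at hC ⊢
    obtain ⟨⟨x, rfl⟩, hr⟩ := hC
    exact ⟨⟨x, cl_loc S hb H⟩, hr⟩
  · ext y
    rw [hb.mD, hb.mD]
    have : S.av ω' C y S.r ↔ S.av ω C y S.r :=
      ⟨av_loc S fun v b i h => (H v b i h).symm, av_loc S H⟩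
    rw [this]

end ABas2x

theorem bas2_of {X E : Type} [Fintype X] [DecidableEq X] [Fintype E] [DecidableEq E]
    (S : Sys X E) (hb : S.Bas) (hn : S.PConn) : S.Bas2 :=
  ⟨ABas2x.excl S hb hn, fun ω C hC C' hC' _ => ABas2x.ord S hb hn ω C hC C' hC',
    ABas2x.loc S hb⟩

end Vale.Agent.P167Q
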