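import Vale.Agent.P167Q.Abs

/-! P167Q: heights compatible with a configuration correspond to orientations of clusters. -/

open Finset Relation
open scoped Classical

namespace Vale.Agent.P167Q

namespace ABijx

/-- the sign of `C` -/
def sg {ι : Type} [DecidableEq ι] (N : Finset ι) (C : ι) : ℤ := if C ∈ N then 1 else -1

theorem sum_cos {ι : Type} [DecidableEq ι] (a : ι → ℝ) (s : Finset ι) : ∀ t : ℝ,
    ∑ N ∈ s.powerset, Real.cos (t + ∑ C ∈ s, (sg N C : ℝ) * a C) =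
      Real.cos t * ∏ C ∈ s, 2 * Real.cos (a C) := by
  induction s using Finset.induction_on with
  | empty => intro t; simp
  | insert c s hc ih =>
    intro t
    have e1 : ∀ N ∈ s.powerset, Real.cos (t + ∑ C ∈ insert c s, (sg N C : ℝ) * a C) =
        Real.cos (t - a c + ∑ C ∈ s, (sg N C : ℝ) * a C) := fun N hN => by
      have h : c ∉ N := fun k => hc (mem_powerset.1 hN k)
      rw [sum_insert hc, sg, if_neg h]
      refine congrArg Real.cos ?_
      push_cast
      ring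
    have e2 : ∀ N ∈ s.powerset, Real.cos (t + ∑ C ∈ insert c s, (sg (insert c N) C : ℝ) * a C) =
        Real.cos (t + a c + ∑ C ∈ s, (sg N C : ℝ) * a C) := fun N _ => by
      have h : ∑ C ∈ s, (sg (insert c N) C : ℝ) * a C = ∑ C ∈ s, (sg N C : ℝ) * a C :=
        sum_congr rfl fun C hC => by
          have h1 : C ≠ c := fun k => hc (k ▸ hC)
          simp only [sg, mem_insert, h1, false_or]
      rw [sum_insert hc, h, sg, if_pos (mem_insert_self c N)]
      refine congrArg Real.cos ?_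
      push_cast
      ring
    rw [sum_powerset_insert hc, sum_congr rfl e1, sum_congr rfl e2, ih, ih, prod_insert hc,
      Real.cos_add, Real.cos_sub]
    ring

variable {X E : Type} [Fintype X] [DecidableEq X] [Fintype E] [DecidableEq E] (S : Sys X E)
  (ω : E → Bool)

/-- the height function of an orientation -/
noncomputable def hN (N : Finset (Finset X)) (x : X) : ℤ :=
  ∑ C ∈ S.Cl ω, if x ∈ S.D ω C then sg N C else 0

variable {S ω}

theorem mem_Cl (hb : S.Bas) {x y : X} (hy : y ∉ S.D ω (S.cl ω x)) : S.cl ω x ∈ S.Cl ω :=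
  (hb.mCl ω _).2 ⟨⟨x, rfl⟩, fun k => hy (hb.allD ω _ y k)⟩

theorem key (hb : S.Bas) (ht : S.Tree) (N : Finset (Finset X)) {x y : X} (h : S.inc x y)
    (hy : y ∉ S.D ω (S.cl ω x)) : hN S ω N x - hN S ω N y = sg N (S.cl ω x) := by
  rw [hN, hN, ← sum_sub_distrib, sum_eq_single_of_mem _ (mem_Cl hb hy)]
  · rw [if_pos ((hb.mD ω _ x).2 (Or.inl (hb.self ω x))), if_neg hy, sub_zero]
  · intro C hC hne
    obtain ⟨⟨z, rfl⟩, -⟩ := (hb.mCl ω C).1 hC
    by_cases k1 : x ∈ S.D ω (S.cl ω z)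
    · by_cases k2 : y ∈ S.D ω (S.cl ω z)
      · rw [if_pos k1, if_pos k2, sub_self]
      · exact absurd (hb.cleq ω z x (hb.cross ω _ x y h k1 k2)).symm hne
    · by_cases k2 : y ∈ S.D ω (S.cl ω z)
      · have k3 := hb.cleq ω z y (hb.cross ω _ y x (hb.incs x y h) k2 k1)
        exact absurd (k3 ▸ (ht ω x y h).resolve_left hy) k1
      · rw [if_neg k1, if_neg k2, sub_self]

theorem dich (hb : S.Bas) (h2 : S.Bas2) {x y : X} (h : S.inc x y) :
    y ∉ S.D ω (S.cl ω x) ∨ x ∉ S.D ω (S.cl ω y) := by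
  have hne : S.cl ω x ≠ S.cl ω y := fun k => by
    have k1 := hb.clc ω x y (k ▸ hb.self ω y)
    rw [hb.incc x y h] at k1
    cases hx : S.col x <;> simp [hx] at k1
  by_cases k : y ∈ S.D ω (S.cl ω x)
  · exact Or.inr (h2.excl ω x y hne k)
  · exact Or.inl k

theorem abs_sg {ι : Type} [DecidableEq ι] (N : Finset ι) (C : ι) : |sg N C| = 1 := by
  unfold sg
  split_ifs <;> simp

theorem root (hb : S.Bas) (N : Finset (Finset X)) : hN S ω N S.r = 0 :=
  sum_eq_zero fun C hC => if_neg (hb.rD ω C ((hb.mCl ω C).1 hC).2)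

theorem adm (hb : S.Bas) (h2 : S.Bas2) (ht : S.Tree) (N : Finset (Finset X)) :
    S.Adm (hN S ω N) := by
  refine ⟨root hb N, fun x y h => ?_⟩
  rcases dich (ω := ω) hb h2 h with k | k
  · rw [key hb ht N h k, abs_sg]
  · rw [abs_sub_comm, key hb ht N (hb.incs x y h) k, abs_sg]

theorem cp (hb : S.Bas) (N : Finset (Finset X)) : S.Cp ω (hN S ω N) := fun v =>
  sum_congr rfl fun C hC => by
    obtain ⟨⟨z, rfl⟩, -⟩ := (hb.mCl ω C).1 hC
    have := hb.opD ω z (S.e v (ω v) false) (S.e v (ω v) true) ⟨v, false, rfl, rfl⟩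
    simp only [this]

theorem inj (hb : S.Bas) (ht : S.Tree) {N N' : Finset (Finset X)} (hN1 : N ⊆ S.Cl ω)
    (h : hN S ω N = hN S ω N') : N ⊆ N' := fun C hC => by
  obtain ⟨x, hx, y, k1, k2⟩ := hb.exit ω C (hN1 hC)
  obtain ⟨⟨z, rfl⟩, -⟩ := (hb.mCl ω C).1 (hN1 hC)
  have e := hb.cleq ω z x hx
  rw [← e] at k2 hC ⊢
  have k3 := key hb ht N k1 k2
  rw [h, key hb ht N' k1 k2, sg, sg, if_pos hC] at k3
  by_contra k4
  rw [if_neg k4] at k3
  omega

theorem const (hb : S.Bas) {h : X → ℤ} (hc : S.Cp ω h) {x y : X} (k : y ∈ S.cl ω x) :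
    h y = h x := by
  have k1 := (hb.mcl ω x y).1 k
  clear k
  induction k1 with
  | refl => rfl
  | tail _ k2 ih =>
    obtain ⟨v, i, rfl, rfl⟩ := k2
    rw [← ih]
    cases i
    · exact (hc v).symm
    · exact hc v

theorem surj (hp : S.Pl) (hb : S.Bas) (h2 : S.Bas2) (ht : S.Tree) (hq : S.Par) {h : X → ℤ}
    (ha : S.Adm h) (hc : S.Cp ω h) : ∃ N ⊆ S.Cl ω, hN S ω N = h := by
  obtain ⟨N, hN0⟩ : ∃ N : Finset (Finset X), ∀ C, C ∈ N ↔ C ∈ S.Cl ω ∧
      ∃ x ∈ C, ∃ y, S.inc x y ∧ y ∉ S.D ω C ∧ h x = h y + 1 :=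
    ⟨(S.Cl ω).filter _, fun C => mem_filter⟩
  refine ⟨N, fun C hC => ((hN0 C).1 hC).1, funext fun x => ?_⟩
  have k1 : ∀ x y, S.inc x y → y ∉ S.D ω (S.cl ω x) → h x - h y = sg N (S.cl ω x) := by
    intro x y k hy
    unfold sg
    split_ifs with k2
    · obtain ⟨hC, x', hx', y', k3, k4, k5⟩ := (hN0 _).1 k2
      have k6 := hq ω _ hC x (hb.self ω x) x' hx' y y' k k3 hy k4
      have k7 := const hb hc hx'
      have k8 : h y' = h y := const hb hc (k6 ▸ hb.self ω y')
      omega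
    · have k3 : h x ≠ h y + 1 := fun k4 =>
        k2 ((hN0 _).2 ⟨mem_Cl hb hy, x, hb.self ω x, y, k, hy, k4⟩)
      have k4 := ha.2 x y k
      rcases abs_eq (zero_le_one' ℤ) |>.1 k4 with k5 | k5 <;> omega
  have k2 : ∀ x y, S.inc x y → hN S ω N x - h x = hN S ω N y - h y := by
    intro x y k
    rcases dich (ω := ω) hb h2 k with k3 | k3
    · have k4 := key hb ht N k k3
      have k5 := k1 x y k k3
      omega
    · have k4 := key hb ht N (hb.incs x y k) k3
      have k5 := k1 y x (hb.incs x y k) k3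
      omega
  have k3 : ∀ y, ReflTransGen S.inc x y → hN S ω N x - h x = hN S ω N y - h y := by
    intro y k
    induction k with
    | refl => rfl
    | tail _ k4 ih => exact ih.trans (k2 _ _ k4)
  have k4 := k3 _ (hp.conn x)
  rw [root hb N, ha.1] at k4
  omega

theorem sum_hN (N : Finset (Finset X)) (u : X → ℝ) :
    ∑ x, u x * hN S ω N x = ∑ C ∈ S.Cl ω, (sg N C : ℝ) * ∑ x ∈ S.D ω C, u x := by
  have e : ∀ x, u x * hN S ω N x =
      ∑ C ∈ S.Cl ω, if x ∈ S.D ω C then (sg N C : ℝ) * u x else 0 := fun x => by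
    rw [hN, Int.cast_sum, mul_sum]
    refine sum_congr rfl fun C _ => ?_
    split_ifs
    · exact mul_comm _ _
    · rw [Int.cast_zero, mul_zero]
  rw [sum_congr rfl fun x _ => e x, sum_comm]
  refine sum_congr rfl fun C _ => ?_
  rw [Fintype.sum_ite_mem, mul_sum]

end ABijx

open ABijx in
theorem bij_of {X E : Type} [Fintype X] [DecidableEq X] [Fintype E] [DecidableEq E] (S : Sys X E)
    (hp : S.Pl) (hb : S.Bas) (h2 : S.Bas2) (ht : S.Tree) (hq : S.Par) : S.Bij := by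
  intro ω u
  have e := sum_cos (fun C => ∑ x ∈ S.D ω C, u x) (S.Cl ω) 0
  rw [Real.cos_zero, one_mul] at e
  rw [← e]
  refine (sum_nbij (hN S ω) (fun N _ => ?_) (fun N hN1 N' hN2 h => ?_) (fun h hh => ?_)
    fun N _ => ?_).symm
  · exact mem_filter.2 ⟨(hb.mHs _).2 (adm hb h2 ht N), cp hb N⟩
  · exact Subset.antisymm (inj hb ht (mem_powerset.1 hN1) h) (inj hb ht (mem_powerset.1 hN2) h.symm)
  · obtain ⟨k1, k2⟩ := mem_filter.1 (mem_coe.1 hh)
    obtain ⟨N, k3, k4⟩ := surj hp hb h2 ht hq ((hb.mHs _).1 k1) k2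
    exact ⟨N, mem_coe.2 (mem_powerset.2 k3), k4⟩
  · rw [zero_add, sum_hN]

end Vale.Agent.P167Q
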