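import Vale.Agent.P167Q.Abs

open Finset Relation
open scoped Classical BigOperators

namespace Vale.Agent.P167Q

open Vale.Agent.P152 (w6)

namespace ABkwx

noncomputable def ex (t : ℝ) : ℂ := Complex.exp ((t : ℂ) * Complex.I)

lemma ex_add (s t : ℝ) : ex (s + t) = ex s * ex t := by
  simp only [ex, Complex.ofReal_add, add_mul, Complex.exp_add]

lemma ex_sum {ι : Type} (s : Finset ι) (f : ι → ℝ) : ex (∑ i ∈ s, f i) = ∏ i ∈ s, ex (f i) := by
  simp only [ex, Complex.ofReal_sum, Finset.sum_mul, Complex.exp_sum]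

lemma ex_re (t : ℝ) : (ex t).re = Real.cos t := Complex.exp_ofReal_mul_I_re t

lemma ex_two (m t : ℝ) : ex (m + t) + ex (m - t) = ((2 * Real.cos t : ℝ) : ℂ) * ex m := by
  rw [sub_eq_add_neg, ex_add, ex_add, ← mul_add, mul_comm]
  refine congrArg (· * ex m) ?_
  simp only [ex, Complex.ofReal_neg, Complex.ofReal_mul, Complex.ofReal_cos, Complex.two_cos,
    Complex.ofReal_ofNat]

lemma loc (lam : ℝ) (a0 a1 c0 c1 : ℤ) (h00 : |a0 - c0| = 1) (h01 : |a0 - c1| = 1)
    (h10 : |a1 - c0| = 1) (h11 : |a1 - c1| = 1) :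
    (if a0 = a1 then ex (-(lam * a0)) else 0) + (if c0 = c1 then ex (-(lam * c0)) else 0) =
      ((w6 (2 * Real.cos (lam / 2)) (decide (a0 = a1)) (decide (c0 = c1)) : ℝ) : ℂ) *
        ex (-(lam * ((1 / 4) * (((a1 : ℝ) + a0) + (c1 + c0))))) := by
  rw [abs_eq zero_le_one] at h00 h01 h10 h11
  by_cases ha : a0 = a1 <;> by_cases hc : c0 = c1
  · subst ha hc
    simp only [if_true, decide_true, w6]
    rw [← ex_two]
    rcases h00 with h | h
    · have e : (a0 : ℝ) = c0 + 1 := by exact_mod_cast (by omega : a0 = c0 + 1)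
      rw [e, add_comm]
      exact congrArg₂ (· + ·) (congrArg ex (by ring)) (congrArg ex (by ring))
    · have e : (a0 : ℝ) = c0 - 1 := by exact_mod_cast (by omega : a0 = c0 - 1)
      rw [e]
      exact congrArg₂ (· + ·) (congrArg ex (by ring)) (congrArg ex (by ring))
  · subst ha
    have e : (c1 : ℝ) = 2 * a0 - c0 := by exact_mod_cast (by omega : c1 = 2 * a0 - c0)
    simp only [if_true, decide_true, w6, hc, if_false, decide_false, Bool.false_eq_true, add_zero,
      Complex.ofReal_one, one_mul]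
    rw [e]
    exact congrArg ex (by ring)
  · subst hc
    have e : (a1 : ℝ) = 2 * c0 - a0 := by exact_mod_cast (by omega : a1 = 2 * c0 - a0)
    simp only [if_true, decide_true, w6, ha, if_false, decide_false, Bool.false_eq_true, zero_add,
      Complex.ofReal_one, one_mul]
    rw [e]
    exact congrArg ex (by ring)
  · simp [w6, ha, hc]

variable {X E : Type} [Fintype X] [DecidableEq X] [Fintype E] [DecidableEq E] (S : Sys X E)

lemma sum_om (lam θ : ℝ) (h : X → ℤ) (hA : S.Adm h) :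
    ∑ ω : E → Bool, (if S.Cp ω h then
        Real.cos (θ + -(lam * ∑ v, (h (S.e v (ω v) false) : ℝ))) else 0) =
      S.W (2 * Real.cos (lam / 2)) h *
        Real.cos (θ + -(lam * ((1 / 4) * ∑ v, ∑ b, ∑ i, (h (S.e v b i) : ℝ)))) := by
  have k1 : ∀ ω : E → Bool, (if S.Cp ω h then
      Real.cos (θ + -(lam * ∑ v, (h (S.e v (ω v) false) : ℝ))) else 0) =
      (ex θ * ∏ v, (if h (S.e v (ω v) false) = h (S.e v (ω v) true) then
        ex (-(lam * (h (S.e v (ω v) false) : ℝ))) else 0)).re := by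
    intro ω
    rw [Fintype.prod_ite_zero]
    by_cases hc : S.Cp ω h
    · have hc' : ∀ v, h (S.e v (ω v) false) = h (S.e v (ω v) true) := hc
      rw [if_pos hc, if_pos hc', ← ex_sum, ← ex_add, ex_re, Finset.sum_neg_distrib,
        ← Finset.mul_sum]
    · have hc' : ¬∀ v, h (S.e v (ω v) false) = h (S.e v (ω v) true) := hc
      rw [if_neg hc, if_neg hc']
      simp
  have k2 := Finset.prod_univ_sum (fun _ : E => (univ : Finset Bool))
    (fun v b => if h (S.e v b false) = h (S.e v b true) then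
      ex (-(lam * (h (S.e v b false) : ℝ))) else 0)
  rw [Fintype.piFinset_univ] at k2
  simp only [k1]
  rw [← Complex.re_sum, ← Finset.mul_sum, ← k2]
  have k3 : ∀ v, (∑ b, if h (S.e v b false) = h (S.e v b true) then
      ex (-(lam * (h (S.e v b false) : ℝ))) else 0) =
      ((w6 (2 * Real.cos (lam / 2)) (decide (h (S.e v true false) = h (S.e v true true)))
        (decide (h (S.e v false false) = h (S.e v false true))) : ℝ) : ℂ) *
        ex (-(lam * ((1 / 4) * ∑ b, ∑ i, (h (S.e v b i) : ℝ)))) := by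
    intro v
    have a := fun i j => hA.2 (S.e v true i) (S.e v false j) ⟨v, true, i, j, rfl, rfl⟩
    simp only [Fintype.sum_bool]
    exact loc lam _ _ _ _ (a _ _) (a _ _) (a _ _) (a _ _)
  simp only [k3]
  rw [Finset.prod_mul_distrib, ← Complex.ofReal_prod, ← ex_sum, mul_left_comm, ← ex_add,
    Complex.re_ofReal_mul, ex_re, Finset.sum_neg_distrib, ← Finset.mul_sum, ← Finset.mul_sum]
  rfl

lemma zw (he : S.Eul) (hj : S.Bij) (lam : ℝ) (ψ : X → ℝ) (ω : E → Bool) :
    S.Zw lam ψ ω = ∑ h ∈ S.Hs, if S.Cp ω h then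
      Real.cos ((lam * (∑ x, if x = S.g then 0 else (h x : ℝ)) + ∑ x, ψ x * h x) +
        -(lam * ∑ v, (h (S.e v (ω v) false) : ℝ))) else 0 := by
  have B := hj ω fun x => lam * ((if x = S.g then 0 else 1) -
    ∑ v, if S.e v (ω v) false = x then 1 else 0) + ψ x
  rw [Finset.sum_filter] at B
  have e1 : S.Zw lam ψ ω = ∏ C ∈ S.Cl ω, 2 * Real.cos (∑ x ∈ S.D ω C,
      (lam * ((if x = S.g then 0 else 1) -
        ∑ v, if S.e v (ω v) false = x then 1 else 0) + ψ x)) := by
    refine Finset.prod_congr rfl fun C hC => ?_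
    refine congrArg (fun t => 2 * Real.cos t) ?_
    have hE : ((S.D ω C).card : ℝ) =
        ((univ.filter fun v => S.e v (ω v) false ∈ S.D ω C).card : ℝ) + 1 := by
      exact_mod_cast he ω C hC
    have q1 : ∑ x ∈ S.D ω C, (if x = S.g then (0 : ℝ) else 1) =
        (S.D ω C).card - if S.g ∈ S.D ω C then 1 else 0 := by
      rw [← Finset.sum_ite_eq' (S.D ω C) S.g fun _ => (1 : ℝ), Finset.card_eq_sum_ones]
      push_cast
      rw [← Finset.sum_sub_distrib]
      refine Finset.sum_congr rfl fun x _ => ?_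
      split_ifs <;> simp
    have q2 : ∑ x ∈ S.D ω C, ∑ v, (if S.e v (ω v) false = x then (1 : ℝ) else 0) =
        ((univ.filter fun v => S.e v (ω v) false ∈ S.D ω C).card : ℝ) := by
      rw [Finset.sum_comm]
      simp only [Finset.sum_ite_eq, Finset.sum_boole]
    rw [Finset.sum_add_distrib, ← Finset.mul_sum, Finset.sum_sub_distrib, q1, q2, hE]
    split_ifs <;> ring
  rw [e1, ← B]
  refine Finset.sum_congr rfl fun h _ => ?_
  refine if_congr Iff.rfl (congrArg Real.cos ?_) rfl
  have q3 : ∑ x, (∑ v, if S.e v (ω v) false = x then (1 : ℝ) else 0) * (h x : ℝ) =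
      ∑ v, (h (S.e v (ω v) false) : ℝ) := by
    simp only [Finset.sum_mul]
    rw [Finset.sum_comm]
    simp
  have q4 : ∑ x, (if x = S.g then (0 : ℝ) else 1) * (h x : ℝ) =
      ∑ x, if x = S.g then 0 else (h x : ℝ) := by simp
  simp only [add_mul, mul_assoc, sub_mul, Finset.sum_add_distrib, ← Finset.mul_sum,
    Finset.sum_sub_distrib]
  rw [q3, q4]
  ring

end ABkwx

theorem bkw_of {X E : Type} [Fintype X] [DecidableEq X] [Fintype E] [DecidableEq E] (S : Sys X E)
    (hb : S.Bas) (he : S.Eul) (hj : S.Bij) : S.Bkw := by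
  intro lam ψ
  simp only [ABkwx.zw S he hj]
  rw [Finset.sum_comm]
  refine Finset.sum_congr rfl fun h hh => ?_
  rw [ABkwx.sum_om S lam _ h ((hb.mHs h).1 hh)]
  refine congrArg (fun t => S.W (2 * Real.cos (lam / 2)) h * Real.cos t) ?_
  rw [Sys.Th]
  ring

end Vale.Agent.P167Q
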