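import Vale.Agent.P167Q.Abs

/-! P167Q: one half of the Euler relation, by linear algebra over the field with two elements. -/

open Finset Relation
open scoped Classical BigOperators Matrix

namespace Vale.Agent.P167Q

namespace AEux

theorem lin {ε ι κ : Type} [Fintype ε] [Fintype ι] [Fintype κ] (A : Matrix ε ι (ZMod 2))
    (B : Matrix ε κ (ZMod 2)) (h : Aᵀ * B = 0) (hB : ∀ c, B *ᵥ c = 0 → c = 0)
    (hA : ∀ a, A *ᵥ a = 0 → ∀ x y, a x = a y) :
    Fintype.card ι + Fintype.card κ ≤ Fintype.card ε + 1 := by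
  have h1 := Matrix.rank_add_rank_le_card_of_mul_eq_zero h
  rw [Matrix.rank_transpose] at h1
  have h2 := LinearMap.finrank_range_add_finrank_ker A.mulVecLin
  have h3 := LinearMap.finrank_range_add_finrank_ker B.mulVecLin
  rw [Module.finrank_fintype_fun_eq_card] at h2 h3
  have h4 : LinearMap.ker B.mulVecLin = ⊥ := LinearMap.ker_eq_bot'.2 hB
  rw [h4, finrank_bot] at h3
  have h5 : LinearMap.ker A.mulVecLin ≤ Submodule.span (ZMod 2) {fun _ : ι => (1 : ZMod 2)} := by
    intro a ha
    rw [Submodule.mem_span_singleton]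
    rcases isEmpty_or_nonempty ι with hι | ⟨⟨x⟩⟩
    · exact ⟨0, Subsingleton.elim _ _⟩
    · exact ⟨a x, funext fun y => by simpa using hA a ha x y⟩
  have h6 := (Submodule.finrank_mono h5).trans (finrank_span_le_card _)
  rw [Set.toFinset_singleton, card_singleton] at h6
  unfold Matrix.rank at h1
  omega

variable {X E : Type}

/-- extension by zero -/
noncomputable def ext0 {p : X → Prop} (c : {x // p x} → ZMod 2) (z : X) : ZMod 2 :=
  if h : p z then c ⟨z, h⟩ else 0

theorem ext0_val {p : X → Prop} (c : {x // p x} → ZMod 2) (z : {x // p x}) :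
    ext0 c z.1 = c z := by
  rw [ext0, dif_pos z.2]

theorem ext0_not {p : X → Prop} (c : {x // p x} → ZMod 2) {z : X} (h : ¬p z) : ext0 c z = 0 := by
  rw [ext0, dif_neg h]

theorem sum_ext0 [DecidableEq X] {p : X → Prop} [Fintype {x // p x}] (c : {x // p x} → ZMod 2)
    (z : Bool → X) (h : ∑ y : {x // p x}, (∑ j, if z j = y.1 then (1 : ZMod 2) else 0) * c y = 0) :
    ext0 c (z false) = ext0 c (z true) := by
  have e : ∀ j, ∑ y : {x // p x}, (if z j = y.1 then (1 : ZMod 2) else 0) * c y =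
      ext0 c (z j) := by
    intro j
    by_cases hz : p (z j)
    · rw [Finset.sum_eq_single (⟨z j, hz⟩ : {x // p x})]
      · rw [if_pos rfl, one_mul, ← ext0_val c ⟨z j, hz⟩]
      · intro y _ hy
        rw [if_neg (fun e => hy (Subtype.ext e.symm)), zero_mul]
      · simp
    · rw [ext0_not c hz]
      refine Finset.sum_eq_zero fun y _ => ?_
      rw [if_neg (fun e => hz (by rw [e]; exact y.2)), zero_mul]
  simp only [Finset.sum_mul] at h
  rw [Finset.sum_comm, Fintype.sum_bool, e, e, CharTwo.add_eq_zero] at h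
  exact h.symm

variable [Fintype X] [DecidableEq X] [Fintype E] [DecidableEq E] (S : Sys X E)

/-- all vertices round `z` are good -/
def Gd (P : E → Prop) (b : Bool) (z : X) : Prop := ∀ v i, S.e v (!b) i = z → P v

/-- `z`, or its neighbours, carry the value `t` -/
def Rv (f : X → ZMod 2) (b : Bool) (z : X) (t : ZMod 2) : Prop :=
  (S.col z = b → f z = t) ∧ (S.col z = !b → ∀ y, S.inc z y → f y = t)

variable {S} {P : E → Prop} {b : Bool} {f : X → ZMod 2}

omit [DecidableEq E] in
theorem link (hp : S.Pl) (hf : ∀ v, P v → f (S.e v b false) = f (S.e v b true)) {z : X}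
    (hz : S.col z = !b) (hg : Gd S P b z) {y y' : X} (h : S.inc z y) (h' : S.inc z y') :
    f y = f y' := by
  have h1 := hp.link z y y' h h'
  clear h'
  induction h1 with
  | refl => rfl
  | tail _ h2 ih =>
    obtain ⟨v, c, i, j, e1, e2, e3⟩ := h2
    have hc : c = !b := by rw [← hz, ← e1, hp.col.1]
    subst hc
    have h3 := hf v (hg v i e1)
    rw [ih, e2, e3, Bool.not_not]
    cases j
    · exact h3
    · exact h3.symm

omit [DecidableEq E] in
theorem step_inc (hp : S.Pl) (hb : S.Bas) (hf : ∀ v, P v → f (S.e v b false) = f (S.e v b true))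
    {u w : X} (hw : Gd S P b w) (h : S.inc u w) {t : ZMod 2} (hr : Rv S f b u t) :
    Rv S f b w t := by
  have hc := hb.incc u w h
  refine ⟨fun h1 => hr.2 ?_ w h, fun h1 y hy => ?_⟩
  · rw [← h1, hc, Bool.not_not]
  · rw [link hp hf h1 hw hy (hb.incs u w h)]
    refine hr.1 ?_
    rw [h1] at hc
    exact (Bool.not_inj hc).symm

omit [DecidableEq E] in
theorem step_op (hp : S.Pl) (hf : ∀ v, P v → f (S.e v b false) = f (S.e v b true))
    {v : E} (hv : P v) {c i : Bool} (hw : Gd S P b (S.e v c (!i))) {t : ZMod 2}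
    (hr : Rv S f b (S.e v c i) t) : Rv S f b (S.e v c (!i)) t := by
  refine ⟨fun h1 => ?_, fun h1 y hy => ?_⟩
  · have hc : c = b := by rw [← h1, hp.col.1]
    subst hc
    rw [← hr.1 (hp.col.1 _ _ _)]
    cases i
    · exact (hf v hv).symm
    · exact hf v hv
  · have hc : c = !b := by rw [← h1, hp.col.1]
    rw [link hp hf h1 hw hy ⟨v, c, !i, false, rfl, rfl⟩]
    exact hr.2 (by rw [hp.col.1, hc]) _ ⟨v, c, i, false, rfl, rfl⟩

omit [Fintype X] [DecidableEq X] [Fintype E] [DecidableEq E] in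
theorem self_Rv {x : X} (hx : S.col x = b) : Rv S f b x (f x) :=
  ⟨fun _ => rfl, fun h => absurd (hx.symm.trans h) (by cases b <;> simp)⟩

omit [Fintype X] [DecidableEq X] [Fintype E] [DecidableEq E] in
theorem path {r : X → X → Prop} (h : ∀ u w t, r u w → (Rv S f b u t ↔ Rv S f b w t)) {x y : X}
    (hxy : ReflTransGen r x y) (t : ZMod 2) : Rv S f b x t ↔ Rv S f b y t := by
  induction hxy with
  | refl => rfl
  | tail _ h2 ih => exact ih.trans (h _ _ t h2)

omit [DecidableEq E] in
theorem const_all (hp : S.Pl) (hb : S.Bas) (hf : ∀ v, f (S.e v b false) = f (S.e v b true))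
    {x y : X} (hx : S.col x = b) (hy : S.col y = b) : f y = f x := by
  have h : ∀ u w t, S.inc u w → (Rv S f b u t ↔ Rv S f b w t) := fun u w t huw =>
    ⟨step_inc (P := fun _ => True) hp hb (fun v _ => hf v) (fun _ _ _ => trivial) huw,
      step_inc (P := fun _ => True) hp hb (fun v _ => hf v) (fun _ _ _ => trivial)
        (hb.incs u w huw)⟩
  exact ((path h (hp.conn y) _).2 ((path h (hp.conn x) _).1 (self_Rv hx))).1 hy

end AEux

open AEux in
theorem eu_of {X E : Type} [Fintype X] [DecidableEq X] [Fintype E] [DecidableEq E] (S : Sys X E)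
    (hp : S.Pl) (hb : S.Bas) : S.EU := by
  intro ω T b x₀ hop hnb hpath ⟨y₀, hy₀, hy₁⟩
  have F1 : ∀ v i, S.e v (ω v) i ∈ T → S.e v (ω v) false ∈ T := by
    intro v i h
    cases i
    · exact h
    · exact hop _ _ ⟨v, true, rfl, rfl⟩ h
  have F3 : ∀ v j, S.e v (!b) j ∈ T → S.e v (ω v) false ∈ T := by
    intro v j h
    by_cases e : ω v = !b
    · exact F1 v j (by rw [e]; exact h)
    · have e' : ω v = !!b := by
        revert e
        cases ω v <;> cases b <;> simp
      rw [e']
      exact hnb _ h (hp.col.1 _ _ _) _ ⟨v, !b, j, false, rfl, rfl⟩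
  have hG : ∀ u ∈ T, Gd S (fun v => S.e v (ω v) false ∈ T) b u := fun u hu v i e =>
    F3 v i (by rw [e]; exact hu)
  let A : Matrix {v // S.e v (ω v) false ∈ T} {x // x ∈ T ∧ S.col x = b} (ZMod 2) :=
    fun v x => ∑ i, if S.e v.1 b i = x.1 then 1 else 0
  let B : Matrix {v // S.e v (ω v) false ∈ T} {x // x ∈ T ∧ ¬S.col x = b} (ZMod 2) :=
    fun v x => ∑ i, if S.e v.1 (!b) i = x.1 then 1 else 0
  have hAB : Aᵀ * B = 0 := by
    ext x y
    have h1 : ∑ v, (∑ i, if S.e v b i = x.1 then (1 : ZMod 2) else 0) *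
        (∑ j, if S.e v (!b) j = y.1 then (1 : ZMod 2) else 0) = 0 := by
      cases b
      · exact (Finset.sum_congr rfl fun v _ => mul_comm _ _).trans (hp.bd y.1 x.1)
      · exact hp.bd x.1 y.1
    rw [← Finset.sum_filter_of_ne (p := fun v => S.e v (ω v) false ∈ T),
      Finset.sum_subtype (p := fun v => S.e v (ω v) false ∈ T) _ (by simp)] at h1
    · exact h1
    · intro v _ hv
      by_contra hn
      refine hv (mul_eq_zero_of_right _ (Finset.sum_eq_zero fun j _ => if_neg fun e => ?_))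
      exact hn (F3 v j (by rw [e]; exact y.2.1))
  have hB : ∀ c, B *ᵥ c = 0 → c = 0 := by
    intro c hc
    have hf : ∀ v, ext0 c (S.e v (!b) false) = ext0 c (S.e v (!b) true) := by
      intro v
      by_cases hv : S.e v (ω v) false ∈ T
      · exact sum_ext0 c (S.e v (!b)) (congrFun hc ⟨v, hv⟩)
      · rw [ext0_not c fun h => hv (F3 v _ h.1), ext0_not c fun h => hv (F3 v _ h.1)]
    funext y
    have hy : S.col y.1 = !b := Bool.eq_not_iff.2 y.2.2
    rw [← ext0_val c y, const_all hp hb hf hy₁ hy, ext0_not c fun h => hy₀ h.1]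
    rfl
  have hA : ∀ a, A *ᵥ a = 0 → ∀ x y, a x = a y := by
    intro a ha x y
    have hf : ∀ v, S.e v (ω v) false ∈ T → ext0 a (S.e v b false) = ext0 a (S.e v b true) :=
      fun v hv => sum_ext0 a (S.e v b) (congrFun ha ⟨v, hv⟩)
    have h1 : ∀ u w t, (S.inc u w ∨ S.op ω u w) → u ∈ T → w ∈ T → Rv S (ext0 a) b u t →
        Rv S (ext0 a) b w t := by
      rintro u w t (h | ⟨v, i, rfl, rfl⟩) hu hw hr
      · exact step_inc hp hb hf (hG w hw) h hr
      · exact step_op hp hf (F1 v i hu) (hG _ hw) hr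
    have h2 : ∀ u w t, (S.inc u w ∨ S.op ω u w) ∧ u ∈ T ∧ w ∈ T →
        (Rv S (ext0 a) b u t ↔ Rv S (ext0 a) b w t) := fun u w t h =>
      ⟨h1 u w t h.1 h.2.1 h.2.2,
        h1 w u t (h.1.imp (hb.incs u w) (hb.ops ω u w)) h.2.2 h.2.1⟩
    rw [← ext0_val a x, ← ext0_val a y]
    exact ((path h2 (hpath x.1 x.2.1) _).2
      ((path h2 (hpath y.1 y.2.1) _).1 (self_Rv y.2.2))).1 x.2.2
  have h := lin A B hAB hB hA
  rw [Fintype.card_subtype, Fintype.card_subtype, Fintype.card_subtype] at h
  have e1 : (univ.filter fun x => x ∈ T ∧ S.col x = b) = T.filter fun x => S.col x = b := by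
    ext x
    simp
  have e2 : (univ.filter fun x => x ∈ T ∧ ¬S.col x = b) = T.filter fun x => ¬S.col x = b := by
    ext x
    simp
  rw [e1, e2, card_filter_add_card_filter_not] at h
  exact h

end Vale.Agent.P167Q
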