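import Vale.Agent.P167Q.Abs

/-! P167Q: the Euler relation for the region enclosed by a cluster. -/

open Finset Relation
open scoped Classical

namespace Vale.Agent.P167Q

theorem eul_of {X E : Type} [Fintype X] [DecidableEq X] [Fintype E] [DecidableEq E] (S : Sys X E)
    (hp : S.Pl) (hb : S.Bas) (he : S.EU) : S.Eul := by
  intro ω C hC
  obtain ⟨x1, m1, y1, i1, n1⟩ := hb.exit ω C hC
  obtain ⟨⟨z, rfl⟩, hr⟩ := (hb.mCl ω C).1 hC
  have sub : ∀ x ∈ S.cl ω z, x ∈ S.D ω (S.cl ω z) := fun x hx => (hb.mD _ _ _).2 (Or.inl hx)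
  have c1 : ∀ x, ReflTransGen (S.op ω) z x → ReflTransGen (fun u v => (S.inc u v ∨ S.op ω u v) ∧
      u ∈ S.D ω (S.cl ω z) ∧ v ∈ S.D ω (S.cl ω z)) x z := fun x h => by
    induction h with
    | refl => exact .refl
    | tail h1 h2 ih => exact .head ⟨.inr (hb.ops _ _ _ h2), sub _ ((hb.mcl _ _ _).2 (h1.tail h2)),
        sub _ ((hb.mcl _ _ _).2 h1)⟩ ih
  have e1 := he ω (S.D ω (S.cl ω z)) (S.col z) z (fun x y h => (hb.opD ω z x y h).1)
    (fun x hx hc y h => by_contra fun hy => by
      rw [hb.clc ω z x (hb.cross _ _ _ _ h hx hy)] at hc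
      simp at hc)
    (fun x hx => by
      induction hp.conn x using ReflTransGen.head_induction_on with
      | refl => exact absurd hx (hb.rD _ _ hr)
      | @head u v h _ ih =>
        by_cases hu : u ∈ S.cl ω z
        · exact c1 u ((hb.mcl _ _ _).1 hu)
        · have hv := by_contra fun hv => hu (hb.cross _ _ _ _ h hx hv)
          exact .head ⟨.inl h, hx, hv⟩ (ih hv))
    ⟨y1, n1, by rw [hb.incc _ _ i1, hb.clc ω z x1 m1]⟩
  have c2 : ∀ y, ReflTransGen (fun u v => (S.inc u v ∨ S.op ω u v) ∧ v ∉ S.cl ω z) y S.r →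
      y ∉ S.cl ω z → ReflTransGen (fun u v => (S.inc u v ∨ S.op ω u v) ∧
        u ∈ (S.D ω (S.cl ω z))ᶜ ∧ v ∈ (S.D ω (S.cl ω z))ᶜ) y S.r := fun y h => by
    induction h using ReflTransGen.head_induction_on with
    | refl => exact fun _ => .refl
    | head h1 h2 ih => exact fun hu => .head ⟨h1.1,
        mem_compl.2 fun k => ((hb.mD _ _ _).1 k).elim hu fun k => k (h2.head h1),
        mem_compl.2 fun k => ((hb.mD _ _ _).1 k).elim h1.2 fun k => k h2⟩ (ih h1.2)
  have e2 := he ω (S.D ω (S.cl ω z))ᶜ (!S.col z) S.r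
    (fun x y h hx => mem_compl.2 fun k => mem_compl.1 hx ((hb.opD ω z x y h).2 k))
    (fun y hy hc x h => mem_compl.2 fun hx => by
      have := hb.incc _ _ h
      rw [hb.clc ω z x (hb.cross _ _ _ _ (hb.incs _ _ h) hx (mem_compl.1 hy)), hc] at this
      simp at this)
    (fun y hy => by
      have := not_or.1 (mt (hb.mD _ _ _).2 (mem_compl.1 hy))
      exact c2 y (not_not.1 this.2) this.1)
    ⟨z, fun k => mem_compl.1 k (sub z (hb.self ω z)), by simp⟩
  have a := card_add_card_compl (S.D ω (S.cl ω z))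
  have b := card_filter_add_card_filter_not (s := (univ : Finset E))
    fun v => S.e v (ω v) false ∈ S.D ω (S.cl ω z)
  have c : Fintype.card X = Fintype.card E + 2 := hp.eul
  simp only [mem_compl] at e2
  rw [card_univ] at b
  omega

end Vale.Agent.P167Q
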