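import Vale.Agent.P167Q.Abs

/-! P167Q: at most four separating clusters next to the clusters of a connected set. -/

open Finset Relation
open scoped Classical BigOperators

namespace Vale.Agent.P167Q

namespace AFourx

variable {X E : Type} [Fintype X] [DecidableEq X] [Fintype E] [DecidableEq E] {S : Sys X E}

theorem lemL (hc : S.PCol) (hb : S.Bas) (ω : E → Bool) (z : X) (v : E) (b i b' i' : Bool)
    (h1 : S.e v b i ∈ S.D ω (S.cl ω z)) (h2 : S.e v b i ∉ S.cl ω z)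
    (h3 : S.e v b' i' ∉ S.D ω (S.cl ω z)) (h4 : b = S.col z ∨ b' = S.col z) : False := by
  by_cases h : b' = !b
  · exact h2 (hb.cross ω _ _ _ ⟨v, b, i, i', rfl, by rw [h]⟩ h1 h3)
  · have e : b' = b := by cases b <;> cases b' <;> simp_all
    subst e
    have hk : b' = S.col z := by tauto
    have hm : S.e v (!b') false ∉ S.cl ω z := fun hm => by
      have := hb.clc ω _ _ hm
      rw [hc.1, ← hk] at this
      cases b' <;> simp at this
    by_cases hd : S.e v (!b') false ∈ S.D ω (S.cl ω z)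
    · exact hm (hb.cross ω _ _ _ ⟨v, !b', false, i', rfl, by rw [Bool.not_not]⟩ hd h3)
    · exact h2 (hb.cross ω _ _ _ ⟨v, b', i, false, rfl, rfl⟩ h1 hd)

theorem notC (hb : S.Bas) {ω : E → Bool} {T : Finset X} {z t q : X}
    (hd : Disjoint (S.cl ω z) T) (ht : t ∈ T) (hq : q ∈ S.cl ω t) : q ∉ S.cl ω z := fun h => by
  have e : S.cl ω t = S.cl ω z := (hb.cleq ω _ _ hq).symm.trans (hb.cleq ω _ _ h)
  exact disjoint_left.1 hd (e ▸ hb.self ω t) ht

theorem inD (hb : S.Bas) {ω : E → Bool} {z t q : X} (hq : q ∈ S.cl ω t) :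
    q ∈ S.D ω (S.cl ω z) ↔ t ∈ S.D ω (S.cl ω z) := by
  rw [hb.subD, hb.subD, hb.cleq ω _ _ hq]

theorem colE (hb : S.Bas) (ω : E → Bool) (z : X) :
    (∃ x ∈ S.cl ω z, S.col x = true) ↔ S.col z = true :=
  ⟨fun ⟨x, hx, h⟩ => (hb.clc ω _ _ hx).symm.trans h, fun h => ⟨z, hb.self ω z, h⟩⟩

theorem key (hc : S.PCol) (hb : S.Bas) (h2 : S.Bas2) {ω : E → Bool} {T : Finset X}
    (hT : S.Cnn T) {z z' : X} (hne : S.cl ω z ≠ S.cl ω z') (hcol : S.col z = S.col z')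
    (hs : T ⊆ S.D ω (S.cl ω z) ↔ T ⊆ S.D ω (S.cl ω z'))
    (hsub : S.cl ω z' ⊆ S.D ω (S.cl ω z))
    (d1 : Disjoint (S.cl ω z) T) (d2 : Disjoint (S.cl ω z') T)
    (t1 : ∃ v b i b' i', S.e v b i ∈ S.cl ω z ∧ S.e v b' i' ∈ T.biUnion (S.cl ω))
    (t2 : ∃ v b i b' i', S.e v b i ∈ S.cl ω z' ∧ S.e v b' i' ∈ T.biUnion (S.cl ω)) : False := by
  by_cases h : T ⊆ S.D ω (S.cl ω z)
  · obtain ⟨v, b, i, b', i', hx, hq⟩ := t1
    obtain ⟨t, ht, hq⟩ := mem_biUnion.1 hq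
    have e := hb.cleq ω _ _ hx
    refine lemL hc hb ω z' v b' i' b i ((inD hb hq).2 (hs.1 h ht)) (notC hb d2 ht hq)
      (h2.excl ω _ z' (by rwa [e]) (by rw [e]; exact hsub (hb.self ω z'))) (Or.inr ?_)
    rw [← hcol, ← hb.clc ω _ _ hx, hc.1]
  · obtain ⟨v, b, i, b', i', hx, hq⟩ := t2
    obtain ⟨t, ht, hq⟩ := mem_biUnion.1 hq
    have hd := (hb.side ω _ T hT d1).resolve_left h
    refine lemL hc hb ω z v b i b' i' (hsub hx)
      (fun h' => hne ((hb.cleq ω _ _ h').symm.trans (hb.cleq ω _ _ hx)))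
      (fun h' => disjoint_left.1 hd ht ((inD hb hq).1 h')) (Or.inl ?_)
    rw [hcol, ← hb.clc ω _ _ hx, hc.1]

end AFourx

open AFourx in
theorem four_of {X E : Type} [Fintype X] [DecidableEq X] [Fintype E] [DecidableEq E] (S : Sys X E)
    (hc : S.PCol) (hb : S.Bas) (h2 : S.Bas2) : S.Four := by
  intro T ω hT
  refine (card_le_card_of_injOn (t := (univ : Finset (Bool × Bool)))
    (fun C => (decide (∃ x ∈ C, S.col x = true), decide (T ⊆ S.D ω C)))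
    (fun _ _ => mem_coe.2 (mem_univ _)) fun C hC C' hC' h => ?_).trans (by simp)
  obtain ⟨a1, a2, a3⟩ := mem_filter.1 (mem_coe.1 hC)
  obtain ⟨b1, b2, b3⟩ := mem_filter.1 (mem_coe.1 hC')
  obtain ⟨⟨z, rfl⟩, -⟩ := (hb.mCl ω C).1 (mem_filter.1 a1).1
  obtain ⟨⟨z', rfl⟩, -⟩ := (hb.mCl ω C').1 (mem_filter.1 b1).1
  by_contra hne
  have e1 := decide_eq_decide.1 (congrArg Prod.fst h)
  have e2 := decide_eq_decide.1 (congrArg Prod.snd h)
  rw [colE hb, colE hb] at e1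
  have e3 : S.col z = S.col z' := Bool.eq_iff_iff.2 e1
  rcases h2.ord ω _ a1 _ b1 hne with h3 | h3
  · exact key hc hb h2 hT hne e3 e2 h3 a2 b2 a3 b3
  · exact key hc hb h2 hT (Ne.symm hne) e3.symm e2.symm h3 b2 a2 b3 a3

end Vale.Agent.P167Q
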