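import Vale.Agent.P167Q.Abs

/-! P167Q: the overlap bound and the bounds on the loop weights. -/

open Finset Relation
open scoped Classical BigOperators

namespace Vale.Agent.P167Q

namespace AOvlx

variable {X E : Type} [Fintype X] [DecidableEq X] [Fintype E] [DecidableEq E] (S : Sys X E)

theorem prodN (ω : E → Bool) :
    ∏ C ∈ S.Cl ω, (if S.g ∈ S.D ω C then (2 : ℝ) else 1) = 2 ^ S.N ω := by
  rw [← prod_filter, prod_const]
  rfl

theorem fac0 {ψ : X → ℝ} {ω : E → Bool} {C : Finset X} (h : ∑ x ∈ S.D ω C, ψ x = 0) :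
    S.fac (Real.pi / 3) ψ ω C = if S.g ∈ S.D ω C then (2 : ℝ) else 1 := by
  unfold Sys.fac
  rw [h, add_zero]
  split_ifs
  · rw [Real.cos_zero, mul_one]
  · rw [Real.cos_pi_div_three]
    norm_num

theorem fac2 (lam : ℝ) (ψ : X → ℝ) (ω : E → Bool) (C : Finset X) : |S.fac lam ψ ω C| ≤ 2 := by
  unfold Sys.fac
  rw [abs_mul, abs_two]
  exact mul_le_of_le_one_right zero_le_two (Real.abs_cos_le_one _)

theorem cnt (hb : S.Bas) (ω : E → Bool) (T : Finset X) :
    ((S.Cl ω).filter fun C => ¬Disjoint C T).card ≤ T.card := by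
  refine (card_le_card fun C hC => ?_).trans (card_image_le (f := S.cl ω))
  obtain ⟨h1, h2⟩ := mem_filter.1 hC
  obtain ⟨⟨x, rfl⟩, -⟩ := (hb.mCl ω C).1 h1
  obtain ⟨z, hz, hT⟩ := not_disjoint_iff.1 h2
  exact mem_image.2 ⟨z, hT, hb.cleq ω x z hz⟩

theorem bound (hb : S.Bas) (ψ : X → ℝ) (ω : E → Bool) (T : Finset X)
    (h : ∀ C ∈ S.Cl ω, S.g ∉ S.D ω C → Disjoint C T → ∑ x ∈ S.D ω C, ψ x = 0) :
    |S.Zw (Real.pi / 3) ψ ω| ≤ 2 ^ T.card * 2 ^ S.N ω := by
  have k : |S.Zw (Real.pi / 3) ψ ω| ≤ ∏ C ∈ S.Cl ω,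
      (if ¬Disjoint C T then (2 : ℝ) else 1) * (if S.g ∈ S.D ω C then (2 : ℝ) else 1) := by
    unfold Sys.Zw
    rw [abs_prod]
    refine prod_le_prod (fun _ _ => abs_nonneg _) fun C hC => ?_
    have k2 := fac2 S (Real.pi / 3) ψ ω C
    by_cases h1 : Disjoint C T <;> by_cases h2 : S.g ∈ S.D ω C
    · rw [if_neg (not_not.2 h1), if_pos h2]
      linarith
    · rw [fac0 S (h C hC h2 h1), if_neg (not_not.2 h1), if_neg h2]
      norm_num
    · rw [if_pos h1, if_pos h2]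
      linarith
    · rw [if_pos h1, if_neg h2]
      linarith
  rw [prod_mul_distrib, prodN, ← prod_filter, prod_const] at k
  exact k.trans (mul_le_mul_of_nonneg_right (pow_le_pow_right₀ one_le_two (cnt S hb ω T))
    (by positivity))

theorem sumdeg (h : X → ℝ) :
    ∑ z, (S.deg z : ℝ) * h z = ∑ v, ∑ b, ∑ i, h (S.e v b i) := by
  simp only [Sys.deg, Nat.cast_sum, sum_mul]
  rw [sum_comm]
  refine sum_congr rfl fun v _ => ?_
  rw [sum_comm]
  refine sum_congr rfl fun b _ => ?_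
  rw [sum_comm]
  refine sum_congr rfl fun i _ => ?_
  simp

theorem Th_eq (h : X → ℤ) :
    S.Th h = ∑ z, ((if z = S.g then 0 else 1) - (S.deg z : ℝ) / 4) * h z := by
  unfold Sys.Th
  rw [← sumdeg S fun z => (h z : ℝ), mul_sum, ← sum_sub_distrib]
  refine sum_congr rfl fun z _ => ?_
  split_ifs <;> ring

theorem side0 (hb : S.Bas) {ψ : X → ℝ} {T : Finset X} (ω : E → Bool) (hT : S.Cnn T)
    (h0 : ∀ z, z ∉ T → ψ z = 0) (h1 : ∑ z, ψ z = 0) {C : Finset X} (hC : Disjoint C T) :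
    ∑ x ∈ S.D ω C, ψ x = 0 := by
  rcases hb.side ω C T hT hC with h | h
  · rw [← h1]
    exact sum_subset (subset_univ _) fun z _ hz => h0 z fun hz' => hz (h hz')
  · exact sum_eq_zero fun z hz => h0 z fun hz' => disjoint_left.1 h hz' hz

end AOvlx

theorem ovl_of {X E : Type} [Fintype X] [DecidableEq X] [Fintype E] [DecidableEq E] (S : Sys X E)
    (hb : S.Bas) (hk : S.Bkw) : S.Ovl := by
  refine ⟨fun ω => ?_, fun B hB hB' => ?_⟩
  · rw [← AOvlx.prodN]
    exact prod_congr rfl fun C _ => AOvlx.fac0 S (by simp)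
  have k := hk (Real.pi / 3)
    fun z => -(Real.pi / 3) * ((if z = S.g then 0 else 1) - (S.deg z : ℝ) / 4)
  have e : ∀ h : X → ℤ, Real.pi / 3 * S.Th h + ∑ z, -(Real.pi / 3) *
      ((if z = S.g then 0 else 1) - (S.deg z : ℝ) / 4) * h z = 0 := by
    intro h
    rw [AOvlx.Th_eq, mul_sum, ← sum_add_distrib]
    exact sum_eq_zero fun z _ => by ring
  have e3 : 2 * Real.cos (Real.pi / 3 / 2) = Real.sqrt 3 := by
    rw [show Real.pi / 3 / 2 = Real.pi / 6 by ring, Real.cos_pi_div_six]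
    ring
  simp only [e, e3, Real.cos_zero, mul_one] at k
  rw [k, mul_sum]
  refine sum_le_sum fun ω _ => (le_abs_self _).trans (AOvlx.bound S hb _ ω B ?_)
  intro C hC hg hd
  have hr := hb.rD ω C ((hb.mCl ω C).1 hC).2
  refine sum_eq_zero fun z hz => ?_
  have zg : z ≠ S.g := fun h => hg (h ▸ hz)
  have zr : z ≠ S.r := fun h => hr (h ▸ hz)
  have zB : z ∉ B := fun h => disjoint_left.1 hd
    ((hB' z h).elim (fun i => hb.cross ω C z _ i hz hr) fun i => hb.cross ω C z _ i hz hg) h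
  rw [if_neg zg, hB z zB zr zg]
  norm_num

theorem bnd_of {X E : Type} [Fintype X] [DecidableEq X] [Fintype E] [DecidableEq E] (S : Sys X E)
    (hb : S.Bas) : S.Bnd := by
  intro ψ T ω hT h0 h1
  refine ⟨AOvlx.bound S hb ψ ω T fun C _ _ hd => AOvlx.side0 S hb ω hT h0 h1 hd, fun hY => ?_⟩
  rw [← AOvlx.prodN, prod_filter, ← prod_mul_distrib]
  refine prod_congr rfl fun C hC => ?_
  by_cases hd : Disjoint C T
  · rw [AOvlx.fac0 S (AOvlx.side0 S hb ω hT h0 h1 hd), if_neg (not_not.2 hd), mul_one]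
  · have hg : S.g ∉ S.D ω C := fun h => hY ⟨C, mem_filter.2 ⟨hC, h⟩, hd⟩
    rw [if_pos hd, if_neg hg, one_mul, Sys.fac, if_neg hg]

end Vale.Agent.P167Q
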