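import Vale.Agent.P167Q.Abs

/-! P167Q: the stopping set estimate. -/

open Finset Relation
open scoped Classical BigOperators

namespace Vale.Agent.P167Q

namespace AStopx

variable {X E : Type} [Fintype X] [DecidableEq X] [Fintype E] [DecidableEq E] {S : Sys X E}
  {ω ω' : E → Bool} {T Q : Finset X}

theorem cl_loc (hb : S.Bas) {t : X} (h : ∀ v b i, S.e v b i ∈ S.cl ω t → ω v = ω' v) :
    S.cl ω' t = S.cl ω t := by
  ext y
  rw [hb.mcl, hb.mcl]
  constructor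
  · intro p
    induction p with
    | refl => exact .refl
    | tail _ st ih =>
      obtain ⟨v, i, rfl, rfl⟩ := st
      have e := h v _ _ ((hb.mcl _ _ _).2 ih)
      exact ih.tail ⟨v, i, by rw [e], by rw [e]⟩
  · intro p
    induction p with
    | refl => exact .refl
    | tail p st ih =>
      obtain ⟨v, i, rfl, rfl⟩ := st
      have e := h v _ _ ((hb.mcl _ _ _).2 p)
      exact ih.tail ⟨v, i, by rw [e], by rw [e]⟩

theorem sp_loc (h2 : S.Bas2) {C : Finset X} (hC : C ∈ S.Sp ω)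
    (h : ∀ v b i, S.e v b i ∈ C → ω v = ω' v) : C ∈ S.Sp ω' := by
  obtain ⟨c1, c2⟩ := mem_filter.1 hC
  obtain ⟨k1, k2⟩ := h2.loc ω ω' C c1 h
  exact mem_filter.2 ⟨k1, k2.symm ▸ c2⟩

theorem meet (hb : S.Bas) {C : Finset X} (hC : C ∈ S.Sp ω) (h : ¬Disjoint C T) :
    ∃ t ∈ T, S.cl ω t = C := by
  obtain ⟨x, x1, x2⟩ := not_disjoint_iff.1 h
  obtain ⟨⟨z, rfl⟩, -⟩ := (hb.mCl ω C).1 (mem_filter.1 hC).1
  exact ⟨x, x2, hb.cleq ω z x x1⟩

theorem ev_loc (hb : S.Bas) (h2 : S.Bas2) (h : ∀ v, (∃ b i, S.e v b i ∈ Q) → ω v = ω' v)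
    (k : T.biUnion (S.cl ω) = Q ∧ S.Yev T ω) : T.biUnion (S.cl ω') = Q ∧ S.Yev T ω' := by
  obtain ⟨rfl, C, hC, hT⟩ := k
  have a : ∀ t ∈ T, ∀ v b i, S.e v b i ∈ S.cl ω t → ω v = ω' v := fun t ht v b i e =>
    h v ⟨b, i, mem_biUnion.2 ⟨t, ht, e⟩⟩
  refine ⟨biUnion_congr rfl fun t ht => cl_loc hb (a t ht), C, ?_, hT⟩
  obtain ⟨t, ht, rfl⟩ := meet hb hC hT
  exact sp_loc h2 hC (a t ht)

/-- separating clusters far from `Q` -/
noncomputable def far (S : Sys X E) (Q : Finset X) (ω : E → Bool) : Finset (Finset X) :=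
  (S.Sp ω).filter fun C => ¬∃ v b i b' i', S.e v b i ∈ C ∧ S.e v b' i' ∈ Q

theorem far_loc (h2 : S.Bas2) (h : ∀ v, ¬(∃ b i, S.e v b i ∈ Q) → ω v = ω' v) :
    far S Q ω ⊆ far S Q ω' := fun C hC => by
  obtain ⟨c1, c2⟩ := mem_filter.1 hC
  exact mem_filter.2 ⟨sp_loc h2 c1 fun v b i e => h v fun ⟨b', i', e'⟩ =>
    c2 ⟨v, b, i, b', i', e, e'⟩, c2⟩

theorem cnt (hb : S.Bas) (h4 : S.Four) (hT : S.Cnn T) (ω : E → Bool) :
    S.N ω ≤ 4 + T.card + (far S (T.biUnion (S.cl ω)) ω).card := by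
  have s : S.Sp ω ⊆ ((S.Sp ω).filter fun C => Disjoint C T ∧
      ∃ v b i b' i', S.e v b i ∈ C ∧ S.e v b' i' ∈ T.biUnion (S.cl ω)) ∪ T.image (S.cl ω) ∪
      far S (T.biUnion (S.cl ω)) ω := fun C hC => by
    by_cases a : Disjoint C T
    · by_cases b : ∃ v b i b' i', S.e v b i ∈ C ∧ S.e v b' i' ∈ T.biUnion (S.cl ω)
      · exact mem_union_left _ (mem_union_left _ (mem_filter.2 ⟨hC, a, b⟩))
      · exact mem_union_right _ (mem_filter.2 ⟨hC, b⟩)
    · exact mem_union_left _ (mem_union_right _ (mem_image.2 (meet hb hC a)))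
  exact (card_le_card s).trans ((card_union_le _ _).trans (Nat.add_le_add_right
    ((card_union_le _ _).trans (Nat.add_le_add (h4 T ω hT) card_image_le)) _))

end AStopx

theorem stop_of {X E : Type} [Fintype X] [DecidableEq X] [Fintype E] [DecidableEq E] (S : Sys X E)
    (hb : S.Bas) (h2 : S.Bas2) (h4 : S.Four) : S.Stop := by
  intro T hT
  let f : Finset X → (E → Bool) → ℝ := fun Q ω =>
    if T.biUnion (S.cl ω) = Q ∧ S.Yev T ω then 1 else 0
  let g : Finset X → (E → Bool) → ℝ := fun Q ω => 2 ^ (AStopx.far S Q ω).card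
  have f0 : ∀ Q ω, 0 ≤ f Q ω := fun Q ω => by
    simp only [f]
    split_ifs <;> norm_num
  have s : ∀ (u : Finset X → ℝ) ω, ∑ Q, f Q ω * u Q =
      if S.Yev T ω then u (T.biUnion (S.cl ω)) else 0 := fun u ω => by
    by_cases h : S.Yev T ω <;> simp [f, h]
  have ind : ∀ Q, 𝔼 ω, f Q ω * g Q ω = (𝔼 ω, f Q ω) * 𝔼 ω, g Q ω := fun Q =>
    ind_pi (fun v => ∃ b i, S.e v b i ∈ Q) _ _
      (fun ω ω' h => if_congr ⟨AStopx.ev_loc hb h2 h,
        AStopx.ev_loc hb h2 fun v k => (h v k).symm⟩ rfl rfl)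
      fun ω ω' h => by
        simp only [g]
        rw [(AStopx.far_loc h2 h).antisymm (AStopx.far_loc h2 fun v k => (h v k).symm)]
  have gl : ∀ Q, 𝔼 ω, g Q ω ≤ 𝔼 ω, (2 : ℝ) ^ S.N ω := fun Q =>
    expect_le_expect fun ω _ => pow_le_pow_right₀ one_le_two (card_filter_le _ _)
  calc _ ≤ 𝔼 ω, 16 * 2 ^ T.card * ∑ Q, f Q ω * g Q ω := expect_le_expect fun ω _ => by
        rw [s]
        split_ifs
        · refine (pow_le_pow_right₀ one_le_two (AStopx.cnt hb h4 hT ω)).trans (le_of_eq ?_)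
          simp only [g]
          ring
        · simp
    _ = 16 * 2 ^ T.card * ∑ Q, (𝔼 ω, f Q ω) * 𝔼 ω, g Q ω := by
        rw [← mul_expect, expect_sum_comm]
        simp only [ind]
    _ ≤ 16 * 2 ^ T.card * ∑ Q, (𝔼 ω, f Q ω) * 𝔼 ω, (2 : ℝ) ^ S.N ω :=
        mul_le_mul_of_nonneg_left (sum_le_sum fun Q _ => mul_le_mul_of_nonneg_left (gl Q)
          (expect_nonneg fun ω _ => f0 Q ω)) (by positivity)
    _ = _ := by
        rw [← sum_mul, ← expect_sum_comm, mul_assoc _ (𝔼 ω, _)]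
        congr 2
        refine expect_congr rfl fun ω _ => ?_
        simpa only [mul_one] using s (fun _ => 1) ω

end Vale.Agent.P167Q
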