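import Vale.Agent.P167Q.Abs

/-! P167Q: neighbouring clusters are nested, and the outer neighbour is unique. -/

open Finset Relation
open scoped Classical BigOperators

namespace Vale.Agent.P167Q

namespace ATreex

theorem z2 (a b : ZMod 2) (h : a + b = 0) : a = b := by
  have h2 : b + b = 0 := CharTwo.add_self_eq_zero b
  exact add_right_cancel (h.trans h2.symm)

variable {X E : Type} [Fintype X] [DecidableEq X] [Fintype E] [DecidableEq E] (S : Sys X E)

theorem opmem (hb : S.Bas) (ω : E → Bool) (z u w : X) (h : S.op ω u w) :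
    u ∈ S.cl ω z ↔ w ∈ S.cl ω z := by
  rw [hb.mcl, hb.mcl]
  exact ⟨fun h1 => h1.tail h, fun h1 => h1.tail (hb.ops ω u w h)⟩

theorem along (ω : E → Bool) (C : Finset X) (T : X → ZMod 2)
    (hi : ∀ u u', S.inc u u' → u ∉ C → u' ∉ C → T u = T u')
    (ho : ∀ u u', S.op ω u u' → T u = T u') (y z : X) (hy : y ∉ C) (h : S.av ω C y z) :
    z ∉ C ∧ T y = T z := by
  unfold Sys.av at h
  induction h with
  | refl => exact ⟨hy, rfl⟩
  | tail _ h2 ih =>
    refine ⟨h2.2, ih.2.trans ?_⟩
    rcases h2.1 with h3 | h3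
    · exact hi _ _ h3 ih.1 h2.2
    · exact ho _ _ h3

theorem main (hp : S.Pl) (hb : S.Bas) (ω : E → Bool) (v₀ : E) (i₀ j₀ : Bool) :
    S.e v₀ false j₀ ∈ S.D ω (S.cl ω (S.e v₀ true i₀)) ∨
      S.e v₀ true i₀ ∈ S.D ω (S.cl ω (S.e v₀ false j₀)) := by
  by_contra hc
  rw [not_or, hb.mD, hb.mD, not_or, not_or, not_not, not_not] at hc
  obtain ⟨⟨hyA, hy⟩, hxB, hx⟩ := hc
  set x := S.e v₀ true i₀ with hxd
  set y := S.e v₀ false j₀ with hyd
  have hA : ∀ v i, ω v = true → (S.e v true i ∈ S.cl ω x ↔ S.e v true (!i) ∈ S.cl ω x) := by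
    intro v i hv
    refine opmem S hb ω x _ _ ⟨v, i, ?_, ?_⟩ <;> rw [hv]
  have hB : ∀ v i, ω v = false → (S.e v false i ∈ S.cl ω y ↔ S.e v false (!i) ∈ S.cl ω y) := by
    intro v i hv
    refine opmem S hb ω y _ _ ⟨v, i, ?_, ?_⟩ <;> rw [hv]
  obtain ⟨T, hT⟩ := hp.ex (fun u w => if u ∈ S.cl ω x ∧ w ∈ S.cl ω y then 1 else 0) (by
    intro v
    cases hv : ω v with
    | true =>
      have h1 := hA v true hv
      rw [Fintype.sum_bool]
      simp only [Bool.not_true] at h1
      simp only [h1]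
      exact CharTwo.add_self_eq_zero _
    | false =>
      have h1 := hB v true hv
      simp only [Bool.not_true] at h1
      refine Finset.sum_eq_zero fun i _ => ?_
      rw [Fintype.sum_bool]
      simp only [h1]
      exact CharTwo.add_self_eq_zero _)
  have ho : ∀ u u', S.op ω u u' → T u = T u' := by
    rintro u u' ⟨v, i, rfl, rfl⟩
    cases hv : ω v with
    | true =>
      have h1 := hT v i false
      have h2 := hT v (!i) false
      simp only [← hA v i hv] at h2
      exact add_right_cancel (h1.trans h2.symm)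
    | false =>
      have h1 := hT v false i
      have h2 := hT v false (!i)
      simp only [← hB v i hv] at h2
      exact add_left_cancel (h1.trans h2.symm)
  have hiA : ∀ u u', S.inc u u' → u ∉ S.cl ω x → u' ∉ S.cl ω x → T u = T u' := by
    rintro u u' ⟨v, b, i, j, rfl, rfl⟩ h1 h2
    cases b with
    | true =>
      have h3 := hT v i j
      rw [if_neg (fun h => h1 h.1)] at h3
      exact z2 _ _ h3
    | false =>
      have h3 := hT v j i
      rw [if_neg (fun h => h2 h.1)] at h3
      exact (z2 _ _ h3).symm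
  have hiB : ∀ u u', S.inc u u' → u ∉ S.cl ω y → u' ∉ S.cl ω y → T u = T u' := by
    rintro u u' ⟨v, b, i, j, rfl, rfl⟩ h1 h2
    cases b with
    | true =>
      have h3 := hT v i j
      rw [if_neg (fun h => h2 h.2)] at h3
      exact z2 _ _ h3
    | false =>
      have h3 := hT v j i
      rw [if_neg (fun h => h1 h.2)] at h3
      exact (z2 _ _ h3).symm
  have e1 := (along S ω _ T hiA ho y S.r hyA hy).2
  have e2 := (along S ω _ T hiB ho x S.r hxB hx).2
  have h3 := hT v₀ i₀ j₀
  rw [if_pos ⟨hb.self ω x, hb.self ω y⟩, ← hxd, ← hyd, e1, e2,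
    CharTwo.add_self_eq_zero] at h3
  exact zero_ne_one h3

end ATreex

theorem tree_of {X E : Type} [Fintype X] [DecidableEq X] [Fintype E] [DecidableEq E]
    (S : Sys X E) (hp : S.Pl) (hb : S.Bas) : S.Tree := by
  rintro ω x y ⟨v, b, i, j, rfl, rfl⟩
  cases b with
  | true => exact ATreex.main S hp hb ω v i j
  | false => exact (ATreex.main S hp hb ω v j i).symm

theorem par_of {X E : Type} [Fintype X] [DecidableEq X] [Fintype E] [DecidableEq E]
    (S : Sys X E) (hb : S.Bas) (h2 : S.Bas2) (ht : S.Tree) : S.Par := by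
  intro ω C hC x hx x' hx' y y' hi hi' hy hy'
  obtain ⟨⟨z, rfl⟩, -⟩ := (hb.mCl ω C).1 hC
  have key : ∀ a a' c c' : X, a ∈ S.cl ω z → a' ∈ S.cl ω z → S.inc a c → S.inc a' c' →
      c ∉ S.D ω (S.cl ω z) → c' ∈ S.D ω (S.cl ω c) := by
    intro a a' c c' ha ha' hac hac' hc
    have e := hb.cleq ω z a ha
    have h1 : a ∈ S.D ω (S.cl ω c) := by
      rcases ht ω a c hac with h | h
      · rw [e] at h
        exact absurd h hc
      · exact h
    have h3 : a' ∈ S.D ω (S.cl ω c) := by
      have h4 := (hb.subD ω c a).1 h1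
      rw [e] at h4
      exact h4 ha'
    by_contra hn
    have h5 := hb.clc ω c a' (hb.cross ω _ a' c' hac' h3 hn)
    rw [hb.incc a c hac, hb.clc ω z a' ha', hb.clc ω z a ha] at h5
    exact (Bool.eq_not_self _).1 h5
  by_contra hne
  exact h2.excl ω y y' hne (key x x' y y' hx hx' hi hi' hy) (key x' x y' y hx' hx hi' hi hy')

end Vale.Agent.P167Q
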