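import Vale.Agent.P167Q.Abs

/-! P167Q: decoupling of an observable supported in `T` from the weight. -/

open Finset
open scoped Classical BigOperators

namespace Vale.Agent.P167Q

namespace ATvx

variable {X E : Type} [Fintype X] [DecidableEq X] [Fintype E] [DecidableEq E]

theorem sub (S : Sys X E) (h2 : S.Bas2) (T : Finset X) (ω ω' : E → Bool)
    (h : ∀ v, ¬(∀ b i, S.e v b i ∈ T) → ω v = ω' v) :
    (S.Sp ω).filter (fun C => Disjoint C T) ⊆ (S.Sp ω').filter fun C => Disjoint C T := by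
  intro C hC
  obtain ⟨h3, h4⟩ := mem_filter.1 hC
  obtain ⟨h5, h6⟩ := mem_filter.1 h3
  obtain ⟨h7, h8⟩ := h2.loc ω ω' C h5 fun v b i hv =>
    h v fun hA => Finset.disjoint_left.1 h4 hv (hA b i)
  exact mem_filter.2 ⟨mem_filter.2 ⟨h7, by rwa [h8]⟩, h4⟩

theorem key {Ω : Type} [Fintype Ω] [Nonempty Ω] (G f g y : Ω → ℝ) (K : ℝ) (hG : ∀ ω, |G ω| ≤ K)
    (hi : 𝔼 ω, G ω * g ω = (𝔼 ω, G ω) * 𝔼 ω, g ω) (h0 : ∀ ω, 0 ≤ f ω - g ω)
    (h1 : ∀ ω, f ω - g ω ≤ y ω) :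
    |𝔼 ω, G ω * f ω - (𝔼 ω, G ω) * 𝔼 ω, f ω| ≤ 2 * K * 𝔼 ω, y ω := by
  have hK : 0 ≤ K := (abs_nonneg _).trans (hG (Classical.arbitrary Ω))
  have e : 𝔼 ω, G ω * f ω - (𝔼 ω, G ω) * 𝔼 ω, f ω =
      𝔼 ω, G ω * (f ω - g ω) - (𝔼 ω, G ω) * 𝔼 ω, (f ω - g ω) := by
    simp only [mul_sub, expect_sub_distrib]
    rw [hi]; ring
  have a1 : 𝔼 ω, (f ω - g ω) ≤ 𝔼 ω, y ω := expect_le_expect fun ω _ => h1 ω
  have a0 : 0 ≤ 𝔼 ω, (f ω - g ω) := expect_nonneg fun ω _ => h0 ω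
  have a2 : |𝔼 ω, G ω| ≤ K :=
    (abs_expect_le _ _).trans (expect_le univ_nonempty fun ω _ => hG ω)
  have a3 : |𝔼 ω, G ω * (f ω - g ω)| ≤ K * 𝔼 ω, (f ω - g ω) := by
    rw [mul_expect]
    refine (abs_expect_le _ _).trans (expect_le_expect fun ω _ => ?_)
    rw [abs_mul, abs_of_nonneg (h0 ω)]
    exact mul_le_mul_of_nonneg_right (hG ω) (h0 ω)
  have a4 : |(𝔼 ω, G ω) * 𝔼 ω, (f ω - g ω)| ≤ K * 𝔼 ω, (f ω - g ω) := by
    rw [abs_mul, abs_of_nonneg a0]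
    exact mul_le_mul_of_nonneg_right a2 a0
  have a5 := mul_le_mul_of_nonneg_left a1 hK
  rw [e]
  refine (abs_sub _ _).trans ?_
  linarith

end ATvx

theorem tv_of {X E : Type} [Fintype X] [DecidableEq X] [Fintype E] [DecidableEq E] (S : Sys X E)
    (hb : S.Bas) (h2 : S.Bas2) : S.Tv := by
  intro T G K hG hloc
  have _ := hb
  refine ATvx.key G _ (fun ω => (2 : ℝ) ^ ((S.Sp ω).filter fun C => Disjoint C T).card) _ K hG
    (ind_pi (fun v => ∀ b i, S.e v b i ∈ T) G _ hloc fun ω ω' h => ?_) (fun ω => ?_) fun ω => ?_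
  · rw [Finset.Subset.antisymm (ATvx.sub S h2 T ω ω' h)
      (ATvx.sub S h2 T ω' ω fun v hv => (h v hv).symm)]
  · exact sub_nonneg.2 (pow_le_pow_right₀ one_le_two (card_filter_le _ _))
  · split_ifs with hY
    · exact sub_le_self _ (by positivity)
    · rw [filter_true_of_mem fun C hC => by
        by_contra hd
        exact hY ⟨C, hC, hd⟩]
      exact (sub_self _).le

end Vale.Agent.P167Q
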