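import Vale.Agent.P167Q.Stm
import Vale.Agent.P152.CCons
import Vale.Agent.P152.CBas

/-! P167Q: the chain sum as a sum over height functions. -/

open Finset
open scoped Classical BigOperators

namespace Vale.Agent.P167Q

open Vale.Agent.P152

theorem carr_pf (ho : C_out) (h1 : C_arr1) (h2 : C_arr2) : C_arr := by
  intro l n he hn c a k G
  obtain ⟨a1, a2⟩ := h1 l n he hn
  have mH := (ho l n he hn).bas.mHs
  have e : chn (tm c l) (fun s t => uL s * uR t * k s t) n a G =
      chn (tm c l) (fun s t => uL s * uR t) n a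
        fun o => k (o (-(a : ℤ))) (o ((n : ℤ) - a)) * G o := by
    unfold chn
    refine sum_congr rfl fun o _ => ?_
    simp only [neg_add_cancel, sub_add_cancel, Int.cast_zero, Int.cast_natCast]
    ring
  rw [e, cons_pf bas_pf c l n a, ← sum_subset (subset_univ ((cs l n).Hs.image arr))
    fun o _ hm => ?_, sum_image fun h hh h' hh' => a2 h h' ((mH h).1 hh) ((mH h').1 hh')]
  · refine sum_congr rfl fun h hh => ?_
    obtain ⟨b1, b2, b3⟩ := a1 c h ((mH h).1 hh)
    simp only [neg_add_cancel, sub_add_cancel, Int.cast_zero, Int.cast_natCast, b1, b2, b3]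
    ring
  · by_contra hne
    obtain ⟨h, b1, b2⟩ := h2 l n he hn c o (left_ne_zero_of_mul hne)
    exact hm (mem_image.2 ⟨h, (mH h).2 b1, b2⟩)

end Vale.Agent.P167Q
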