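import Vale.Agent.P167Q.Stm

/-! P167Q: every arrow configuration of nonzero weight comes from a height function. -/

open scoped Classical

namespace Vale.Agent.P167Q

open Vale.Agent.P152

namespace CArr2x

def s (b : Bool) : ℤ := if b then 1 else -1

theorem s_abs (b : Bool) : |s b| = 1 := by cases b <;> simp [s]

theorem s_ne {a b : Bool} (h : a ≠ b) : s a + s b = 0 := by
  cases a <;> cases b <;> simp_all [s]

theorem s_dec (a : ℤ) (b : Bool) : decide (a + s b = a + 1) = b := by cases b <;> simp [s]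

theorem ice {c : ℝ} {e W E S N : Bool} (h : w8c (w6 c) e W E S N ≠ 0) :
    s W + s S = s E + s N := by
  cases e <;> cases W <;> cases E <;> cases S <;> cases N <;> simp_all [w8c, w6, ab4, s]

variable {l n : ℕ}

def H (o : ℕ → Colc l) : ℕ → ZMod (2 * l + 2) → ℤ
  | 0, y => if cev ((0, y) : Cy l) then 0 else s (o 0 (y, true))
  | k + 1, y => H o k y - s (o (k + 1) (y, false))

theorem H_hor (o : ℕ → Colc l) (k : ℕ) (y : ZMod (2 * l + 2)) :
    H o k y = H o (k + 1) y + s (o (k + 1) (y, false)) := by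
  simp [H]

theorem H_ver {o : ℕ → Colc l}
    (hL : ∀ y, cev ((0, y) : Cy l) = false → o 0 (y, true) ≠ o 0 (y + 1, true))
    (hI : ∀ k < n, ∀ y, s (o k (y, true)) + s (o (k + 1) (y - 1, false)) =
      s (o (k + 1) (y, true)) + s (o (k + 1) (y, false))) :
    ∀ k ≤ n, ∀ y, H o k y = H o k (y - 1) + s (o k (y, true)) := by
  intro k
  induction k with
  | zero =>
    intro _ y
    simp only [H, cev_y']
    cases h : cev ((0, y) : Cy l)
    · simp
    · have := s_ne (hL (y - 1) (by rw [cev_y', h]; rfl))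
      rw [sub_add_cancel] at this
      simpa using this.symm
  | succ k ih =>
    intro hk y
    have h1 := ih (by omega) y
    have h2 := hI k (by omega) y
    simp only [H]
    linarith

theorem H_odd {o : ℕ → Colc l} (hV : ∀ y, H o n y = H o n (y - 1) + s (o n (y, true)))
    (hR : ∀ y, cev ((0, y) : Cy l) = true → o n (y, true) ≠ o n (y + 1, true))
    (y : ZMod (2 * l + 2)) (hy : cev ((0, y) : Cy l) = false) : H o n y = H o n 1 := by
  have key : ∀ m : ℕ, H o n ((2 * m + 1 : ℕ) : ZMod (2 * l + 2)) = H o n 1 := by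
    intro m
    induction m with
    | zero => simp
    | succ m ih =>
      have c1 : cev ((0, ((2 * m + 2 : ℕ) : ZMod (2 * l + 2))) : Cy l) = true := by
        rw [← Int.cast_natCast, cev_cast, decide_eq_true_iff, Int.even_iff]
        omega
      have h1 := s_ne (hR _ c1)
      have h2 := hV ((2 * m + 2 : ℕ) : ZMod (2 * l + 2))
      have h3 := hV (((2 * m + 2 : ℕ) : ZMod (2 * l + 2)) + 1)
      have e1 : ((2 * m + 2 : ℕ) : ZMod (2 * l + 2)) - 1 = ((2 * m + 1 : ℕ) : ZMod (2 * l + 2)) := by
        push_cast; ring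
      have e2 : ((2 * (m + 1) + 1 : ℕ) : ZMod (2 * l + 2)) =
          ((2 * m + 2 : ℕ) : ZMod (2 * l + 2)) + 1 := by
        push_cast; ring
      rw [add_sub_cancel_right] at h3
      rw [e1] at h2
      rw [e2]
      linarith
  have ho : Odd y.val := by
    simp only [cev, zero_add, decide_eq_false_iff_not, Int.even_coe_nat] at hy
    exact Nat.not_even_iff_odd.1 hy
  obtain ⟨m, hm⟩ := ho
  rw [← key m, ← hm, ZMod.natCast_zmod_val]

noncomputable def hh (n : ℕ) (o : ℕ → Colc l) (z : XC l n) : ℤ :=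
  z.elim 0 fun w => w.elim (H o n 1) fun p => H o p.1.1.toNat p.1.2

theorem hh_pj {o : ℕ → Colc l} (hn : Even n)
    (hO : ∀ y, cev ((0, y) : Cy l) = false → H o n y = H o n 1) (k : ℕ) (hk : k ≤ n)
    (y : ZMod (2 * l + 2)) : hh n o (pj l n ((k : ℤ), y)) = H o k y := by
  unfold pj
  split_ifs with h1 h2
  · simp [hh]
  · have : k = 0 := by
      simp [fr, h2] at h1
      omega
    subst this
    simp only [Nat.cast_zero] at h2
    simp [hh, H, h2]
  · have : k = n := by
      simp [fr, h2] at h1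
      omega
    subst this
    refine (hO y ?_).symm
    have := cev_add (l := l) 0 k 0 y
    simp only [zero_add, Int.cast_zero, add_zero, Int.even_coe_nat, hn, decide_true,
      beq_true] at this
    simpa [this] using h2

end CArr2x

open CArr2x in
theorem carr2_pf : C_arr2 := by
  intro l n hn _ c o h
  obtain ⟨h12, h3⟩ := mul_ne_zero_iff.1 h
  obtain ⟨h1, h2⟩ := mul_ne_zero_iff.1 h12
  obtain ⟨O, hO⟩ : ∃ O : ℕ → Colc l, O = fun k : ℕ => o (k : ZMod (n + 1)) := ⟨_, rfl⟩
  have O0 : O 0 = o 0 := by simp [hO]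
  have On : O n = o (n : ZMod (n + 1)) := by simp only [hO]
  have hL : (∀ y, O 0 (y, false) = false) ∧
      ∀ y, cev ((0, y) : Cy l) = false → O 0 (y, true) ≠ O 0 (y + 1, true) := by
    rw [O0]
    by_contra hc
    exact h1 (if_neg hc)
  have hR : ∀ y, cev ((0, y) : Cy l) = true → O n (y, true) ≠ O n (y + 1, true) := by
    rw [On]
    by_contra hc
    exact h2 (if_neg hc)
  have hI : ∀ k < n, ∀ y, s (O k (y, true)) + s (O (k + 1) (y - 1, false)) =
      s (O (k + 1) (y, true)) + s (O (k + 1) (y, false)) := fun k hk y => by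
    have := ice (Finset.prod_ne_zero_iff.1 h3 (((k + 1 : ℕ) : ℤ), y) (by simp [cE]; omega))
    simpa [hO] using this
  have hV := H_ver hL.2 hI
  have hp := hh_pj hn (H_odd (hV n le_rfl) hR)
  refine ⟨hh n O, ⟨rfl, ?_⟩, ?_⟩
  · rintro _ _ ⟨⟨⟨x, y⟩, hv⟩, b, i, j, rfl, rfl⟩
    obtain ⟨k, rfl, hk⟩ : ∃ k : ℕ, x = ((k + 1 : ℕ) : ℤ) ∧ k + 1 ≤ n := by
      simp [cE] at hv
      exact ⟨(x - 1).toNat, by omega, by omega⟩
    have e : ((k + 1 : ℕ) : ℤ) - 1 = (k : ℤ) := by push_cast; ring
    have a1 := hV (k + 1) hk y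
    have a2 := hV k (by omega) y
    have a3 := H_hor O k y
    have a4 := H_hor O k (y - 1)
    have b1 : |H O (k + 1) y - H O (k + 1) (y - 1)| = 1 := by rw [a1]; simp [s_abs]
    have b2 : |H O k y - H O k (y - 1)| = 1 := by rw [a2]; simp [s_abs]
    have b3 : |H O k y - H O (k + 1) y| = 1 := by rw [a3]; simp [s_abs]
    have b4 : |H O k (y - 1) - H O (k + 1) (y - 1)| = 1 := by rw [a4]; simp [s_abs]
    have c1 := (abs_sub_comm _ _).trans b1
    have c2 := (abs_sub_comm _ _).trans b2
    have c3 := (abs_sub_comm _ _).trans b3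
    have c4 := (abs_sub_comm _ _).trans b4
    simp only [cs, ced]
    generalize cev ((((k + 1 : ℕ) : ℤ), y) : Cy l) = p
    cases b <;> cases p <;> cases i <;> cases j <;>
      simp only [e, Bool.not_true, Bool.not_false, Bool.false_eq_true, Bool.true_eq_false,
        if_true, if_false, hp _ hk, hp k (by omega)] <;> assumption
  · funext i q
    obtain ⟨y, b⟩ := q
    have hi : i.val ≤ n := Nat.lt_succ_iff.1 (ZMod.val_lt i)
    have ei : o i = O i.val := by simp [hO]
    rw [ei]
    cases b
    · simp only [arr, Bool.false_eq_true, if_false]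
      generalize i.val = k at hi
      cases k with
      | zero => simp [hL.1]
      | succ k =>
        have e : ((k + 1 : ℕ) : ℤ) - 1 = (k : ℤ) := by push_cast; ring
        rw [e, hp _ hi, hp k (by omega), H_hor O k y]
        simpa using s_dec (H O (k + 1) y) (O (k + 1) (y, false))
    · simp only [arr, if_true]
      rw [hp _ hi, hp _ hi, hV _ hi y]
      exact s_dec _ _

end Vale.Agent.P167Q
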