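import Vale.Agent.P167Q.Stm

/-! P167Q: the boundary identity on the capped cylinder. -/

open Finset
open scoped Classical BigOperators

namespace Vale.Agent.P167Q

open Vale.Agent.P152

namespace CBdx

variable {l n : ℕ}

theorem shift (g : ZMod (2 * l + 2) → ZMod 2) : ∑ t, (g (t - 1) + g t) = 0 := by
  have e : ∑ t, g (t - 1) = ∑ t, g t := Equiv.sum_comp (Equiv.subRight (1 : ZMod (2 * l + 2))) g
  rw [sum_add_distrib, e]
  exact CharTwo.add_self_eq_zero _

theorem tele (S : ℤ → ZMod 2) (m : ℕ) : ∑ k ∈ Icc (1 : ℤ) m, (S (k - 1) + S k) = S 0 + S m := by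
  induction m with
  | zero => simp [CharTwo.add_self_eq_zero]
  | succ m ih =>
    have e : Icc (1 : ℤ) ((m + 1 : ℕ) : ℤ) = insert ((m + 1 : ℕ) : ℤ) (Icc (1 : ℤ) m) := by
      ext k
      simp only [mem_Icc, mem_insert]
      omega
    have e2 : ((m + 1 : ℕ) : ℤ) - 1 = m := by omega
    rw [e, sum_insert (by simp only [mem_Icc]; omega), ih, e2]
    have e3 := CharTwo.add_self_eq_zero (S m)
    linear_combination e3

def F (a b : Cy l → ZMod 2) (u u' : Cy l) : ZMod 2 := if cev u then a u * b u' else a u' * b u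

theorem term (a b : Cy l → ZMod 2) (k : ℤ) (t : ZMod (2 * l + 2)) :
    (∑ i, a (ced (k, t) true i)) * (∑ j, b (ced (k, t) false j)) =
      (F a b (k - 1, t - 1) (k, t - 1) + F a b (k - 1, t) (k, t)) +
        (F a b (k - 1, t - 1) (k - 1, t) + F a b (k, t - 1) (k, t)) := by
  simp only [F, cev_x', cev_y', Bool.not_not, Fintype.sum_bool, ced]
  cases cev ((k, t) : Cy l) <;> simp <;> ring

theorem pj_zero {t : ZMod (2 * l + 2)} (h : cev ((0, t) : Cy l) = true) :
    pj l n (0, t) = none := by
  have h1 : ((0, t) : Cy l) ∉ fr l n := by simp [fr, h]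
  simp [pj, h1, h]

theorem pj_top {t : ZMod (2 * l + 2)} (h : cev (((n : ℤ), t) : Cy l) = false) :
    pj l n ((n : ℤ), t) = some none := by
  have h1 : (((n : ℤ), t) : Cy l) ∉ fr l n := by simp [fr, h]
  simp [pj, h1, h]

theorem key (a b : XC l n → ZMod 2) :
    ∑ v : EC l n, (∑ i, a ((cs l n).e v true i)) * (∑ j, b ((cs l n).e v false j)) = 0 := by
  let A : Cy l → ZMod 2 := fun u => a (pj l n u)
  let B : Cy l → ZMod 2 := fun u => b (pj l n u)
  let S : ℤ → ZMod 2 := fun k => ∑ t, F A B (k, t - 1) (k, t)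
  have h0 : S 0 = 0 := by
    refine Eq.trans (sum_congr rfl fun t _ => ?_)
      (shift fun t => if cev ((0, t) : Cy l) then 0 else a none * B (0, t))
    have e := cev_y' (l := l) 0 t
    cases h : cev ((0, t) : Cy l)
    · rw [h] at e
      simp [F, e, A, pj_zero e]
    · rw [h] at e
      simp [F, e, A, pj_zero h]
  have hn : S n = 0 := by
    refine Eq.trans (sum_congr rfl fun t _ => ?_)
      (shift fun t => if cev (((n : ℤ), t) : Cy l) then A (n, t) * b (some none) else 0)
    have e := cev_y' (l := l) n t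
    cases h : cev (((n : ℤ), t) : Cy l)
    · rw [h] at e
      simp [F, e, B, pj_top h]
    · rw [h] at e
      simp [F, e, B, pj_top e]
  have h1 : ∑ v : EC l n, (∑ i, a ((cs l n).e v true i)) * (∑ j, b ((cs l n).e v false j)) =
      ∑ v ∈ cE l n, (∑ i, A (ced v true i)) * (∑ j, B (ced v false j)) :=
    sum_coe_sort (cE l n) fun v => (∑ i, A (ced v true i)) * (∑ j, B (ced v false j))
  rw [h1, cE, sum_product]
  have h2 : ∀ k : ℤ, ∑ t : ZMod (2 * l + 2),
      (∑ i, A (ced (k, t) true i)) * (∑ j, B (ced (k, t) false j)) = S (k - 1) + S k := fun k => by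
    simp only [term]
    rw [sum_add_distrib, shift fun t => F A B (k - 1, t) (k, t), zero_add, sum_add_distrib]
  simp only [h2]
  rw [tele, h0, hn, add_zero]

end CBdx

theorem cbd_pf : C_bd := fun _ _ _ _ x y =>
  CBdx.key (fun z => if z = x then 1 else 0) fun z => if z = y then 1 else 0

end Vale.Agent.P167Q
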