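import Vale.Agent.P167Q.Stm

open Finset Relation
open scoped Classical

namespace Vale.Agent.P167Q

namespace CClx

variable {l n a K : ℕ}

theorem mem_cl (hb : (cs l n).Bas) (L : Lift l n a K) (hp : P_bas) (ω : EC l n → Bool) (x : Sq)
    (hC : clus (pb l n a ω) x ⊆ box K) (z : XC l n) :
    z ∈ (cs l n).cl ω (em l n a x) ↔ ∃ y ∈ clus (pb l n a ω) x, z = em l n a y := by
  have hK : ∀ y ∈ clus (pb l n a ω) x, y ∈ box (K + 1) := fun y hy =>
    hp.mono K (K + 1) (Nat.le_succ K) (mem_coe.1 (hC hy))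
  rw [hb.mcl]
  constructor
  · intro h
    induction h with
    | refl => exact ⟨x, hp.self _ x, rfl⟩
    | tail _ h2 ih =>
      obtain ⟨y, hy, rfl⟩ := ih
      obtain ⟨u, hu, rfl⟩ := (L.op ω y (hK y hy) _).1 h2
      exact ⟨u, ReflTransGen.tail hy hu, rfl⟩
  · rintro ⟨y, hy, rfl⟩
    have hy' : ReflTransGen (Op (pb l n a ω)) x y := hy
    clear hy
    induction hy' with
    | refl => exact ReflTransGen.refl
    | tail h1 h2 ih => exact ih.tail ((L.op ω _ (hK _ h1) _).2 ⟨_, h2, rfl⟩)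

theorem av_out (T : Finset (XC l n)) (ω : EC l n → Bool) (hT : T ⊆ im l n a K) {z : XC l n}
    (h : ReflTransGen (fun u v => (cs l n).inc u v ∧ v ∉ im l n a K) z (cs l n).r) :
    (cs l n).av ω T z (cs l n).r := by
  unfold Sys.av
  induction h using ReflTransGen.head_induction_on with
  | refl => exact ReflTransGen.refl
  | head h1 _ ih => exact ih.head ⟨Or.inl h1.1, fun hv => h1.2 (hT hv)⟩

theorem esc_av (L : Lift l n a K) (hp : P_bas) (ω : EC l n → Bool) (C : Set Sq)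
    (T : Finset (XC l n)) (hT : ∀ y ∈ box (K + 1), em l n a y ∈ T → y ∈ C)
    (hout : ∀ z, z ∉ im l n a K → (cs l n).av ω T z (cs l n).r) {y : Sq} (hy : y ∈ box (K + 1))
    (h : Esc (pb l n a ω) C K y) : (cs l n).av ω T (em l n a y) (cs l n).r := by
  obtain ⟨w, hw, h⟩ := h
  induction h using ReflTransGen.head_induction_on with
  | refl =>
    refine hout _ fun hm => hw ?_
    obtain ⟨u, hu, e⟩ := mem_image.1 hm
    rw [L.inj w hy u (hp.mono K (K + 2) (by omega) hu) e.symm]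
    exact hu
  | @head u v h1 _ ih =>
    obtain ⟨h1, h2, h3⟩ := h1
    have hv : v ∈ box (K + 1) := h1.elim (fun h => hp.nbb K u v h h3) fun h => hp.opb K _ u v h h3
    refine ReflTransGen.head ⟨?_, fun hm => h2 (hT v hv hm)⟩ (ih hv)
    exact h1.imp (fun h => (L.inc u hy _).2 ⟨v, h, rfl⟩) fun h => (L.op ω u hy _).2 ⟨v, h, rfl⟩

theorem av_esc (L : Lift l n a K) (hp : P_bas) (ω : EC l n → Bool) (C : Set Sq)
    (T : Finset (XC l n)) (hT : ∀ y ∈ C, em l n a y ∈ T) {z : XC l n}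
    (h : (cs l n).av ω T z (cs l n).r) :
    ∀ u ∈ box K, z = em l n a u → Esc (pb l n a ω) C K u := by
  unfold Sys.av at h
  induction h using ReflTransGen.head_induction_on with
  | refl =>
    intro u hu e
    exact absurd e.symm (L.nr u (hp.mono K (K + 1) (Nat.le_succ K) hu)).1
  | @head z w h1 _ ih =>
    rintro u hu rfl
    have hu' := hp.mono K (K + 1) (Nat.le_succ K) hu
    obtain ⟨h1, h2⟩ := h1
    obtain ⟨v, hv, rfl⟩ : ∃ v, (Nb u v ∨ Op (pb l n a ω) u v) ∧ w = em l n a v := by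
      rcases h1 with h | h
      · obtain ⟨v, hv, e⟩ := (L.inc u hu' _).1 h
        exact ⟨v, Or.inl hv, e⟩
      · obtain ⟨v, hv, e⟩ := (L.op ω u hu' _).1 h
        exact ⟨v, Or.inr hv, e⟩
    have hvC : v ∉ C := fun h => h2 (hT v h)
    by_cases hvK : v ∈ box K
    · obtain ⟨y, hy, p⟩ := ih v hvK rfl
      exact ⟨y, hy, p.head ⟨hv, hvC, hu⟩⟩
    · exact ⟨v, hvK, ReflTransGen.single ⟨hv, hvC, hu⟩⟩

end CClx

open CClx in
theorem ccl_pf (ho : C_out) (hl : C_lift) (he : C_ext) (hp : P_bas) : C_cl := by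
  intro l n a R K hf _ ω hN x hx
  have hn : 0 < n := by
    obtain ⟨-, -, -, -, h⟩ := hf
    omega
  have hb := (ho l n hf.1 hn).bas
  have L := hl l n a K hf
  have hC := hN x hx
  have h1 := mem_cl hb L hp ω x hC
  have hK : ∀ y ∈ clus (pb l n a ω) x, y ∈ box (K + 1) := fun y hy =>
    hp.mono K (K + 1) (Nat.le_succ K) (mem_coe.1 (hC hy))
  have hT : (cs l n).cl ω (em l n a x) ⊆ im l n a K := fun z hz => by
    obtain ⟨y, hy, rfl⟩ := (h1 z).1 hz
    exact mem_image_of_mem _ (mem_coe.1 (hC hy))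
  have hout : ∀ z, z ∉ im l n a K →
      (cs l n).av ω ((cs l n).cl ω (em l n a x)) z (cs l n).r := fun z hz =>
    av_out _ ω hT ((he l n a K hf).1 z hz)
  have hin : ∀ y ∈ box (K + 1), em l n a y ∈ (cs l n).cl ω (em l n a x) →
      y ∈ clus (pb l n a ω) x := fun y hy hm => by
    obtain ⟨u, hu, e⟩ := (h1 _).1 hm
    rw [L.inj y hy u (hp.mono K (K + 2) (by omega) (mem_coe.1 (hC hu))) e]
    exact hu
  have hin' : ∀ y ∈ clus (pb l n a ω) x, em l n a y ∈ (cs l n).cl ω (em l n a x) :=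
    fun y hy => (h1 _).2 ⟨y, hy, rfl⟩
  refine ⟨h1, fun h => ?_, fun h => ?_, fun y hy => ?_⟩
  · obtain ⟨y, hy, e⟩ := (h1 _).1 h
    exact (L.nr y (hK y hy)).1 e.symm
  · have hg : (cs l n).g ∉ im l n a K := fun hm => by
      obtain ⟨u, hu, e⟩ := mem_image.1 hm
      exact (L.nr u (hp.mono K (K + 1) (Nat.le_succ K) hu)).2 e
    rcases (hb.mD _ _ _).1 h with h | h
    · exact hg (hT h)
    · exact h (hout _ hg)
  · have hy' := hp.mono K (K + 1) (Nat.le_succ K) hy
    rw [hb.mD, hp.fil _ _ K y hC]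
    refine or_congr ⟨hin y hy', hin' y⟩ (not_congr ⟨fun h => ?_, fun h => ?_⟩)
    · exact av_esc L hp ω _ _ hin' h y hy rfl
    · exact esc_av L hp ω _ _ hin hout hy' h

end Vale.Agent.P167Q
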