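import Vale.Agent.P167Q.Stm

/-! P167Q: comparison of the cylinder weight with the planar observable. -/

open Finset Relation
open scoped Classical

namespace Vale.Agent.P167Q

namespace CCmpx

theorem prod_im {α β γ : Type} [DecidableEq β] [DecidableEq γ] (s : Finset α) (f : α → β)
    (g : α → γ) (F : β → ℝ) (G : γ → ℝ) (h : ∀ x ∈ s, ∀ y ∈ s, f x = f y ↔ g x = g y)
    (k : ∀ x ∈ s, F (f x) = G (g x)) : ∏ b ∈ s.image f, F b = ∏ c ∈ s.image g, G c := by
  induction s using Finset.induction_on with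
  | empty => simp
  | insert a s _ ih =>
    have ih' := ih (fun x hx y hy => h x (mem_insert_of_mem hx) y (mem_insert_of_mem hy))
      fun x hx => k x (mem_insert_of_mem hx)
    have e : f a ∈ s.image f ↔ g a ∈ s.image g := by
      simp only [mem_image]
      exact exists_congr fun x => and_congr_right fun hx =>
        h x (mem_insert_of_mem hx) a (mem_insert_self _ _)
    rw [image_insert, image_insert]
    by_cases c : f a ∈ s.image f
    · rw [insert_eq_of_mem c, insert_eq_of_mem (e.1 c), ih']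
    · rw [prod_insert c, prod_insert (mt e.2 c), ih', k a (mem_insert_self _ _)]

theorem sum_push (l n a : ℕ) (φ : Sq → ℝ) (R : ℕ) (D : Finset (XC l n)) :
    ∑ z ∈ D, push l n a φ R z = ∑ x ∈ box R, if em l n a x ∈ D then φ x else 0 := by
  unfold push
  rw [sum_comm]
  exact sum_congr rfl fun x _ => sum_ite_eq _ _ _

end CCmpx

open CCmpx

theorem ccmp_pf (ho : C_out) (hl : C_lift) (he : C_ext) (hc : C_cl) (hp : P_bas) : C_cmp := by
  intro l n a R K hF hR ω
  have O := ho l n hF.1 (by have := hF.2.2.2.2; omega)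
  have hb := O.bas
  have L := hl l n a K hF
  have hy : NoArm R K (pb l n a ω) → ¬(cs l n).Yev (im l n a R) ω := by
    rintro hN ⟨C, hC, hd⟩
    obtain ⟨z, h1, h2⟩ := not_disjoint_iff.1 hd
    obtain ⟨x, hx, rfl⟩ := mem_image.1 h2
    obtain ⟨h3, h4⟩ := mem_filter.1 hC
    obtain ⟨⟨w, rfl⟩, -⟩ := (hb.mCl ω _).1 h3
    rw [← hb.cleq ω w _ h1] at h4
    exact (hc l n a R K hF hR ω hN x hx).2.2.1 h4
  refine ⟨hy, fun φ h0 => ?_⟩
  have hB := O.bnd (push l n a φ R) (im l n a R) ω ((he l n a K hF).2 R (by omega))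
    (fun z hz => sum_eq_zero fun x hx => if_neg fun k => hz (mem_image.2 ⟨x, hx, k⟩))
    (by rw [sum_push]; simpa using h0)
  refine ⟨hB.1.trans (mul_le_mul_of_nonneg_right
    (pow_le_pow_right₀ one_le_two card_image_le) (by positivity)), fun hN => ?_⟩
  rw [hB.2 (hy hN)]
  congr 1
  have H := hc l n a R K hF hR ω hN
  have e : ((cs l n).Cl ω).filter (fun C => ¬Disjoint C (im l n a R)) =
      (box R).image fun x => (cs l n).cl ω (em l n a x) := by
    ext C
    simp only [mem_filter, mem_image, not_disjoint_iff, hb.mCl]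
    constructor
    · rintro ⟨⟨⟨w, rfl⟩, -⟩, z, h1, h2⟩
      obtain ⟨x, hx, rfl⟩ := mem_image.1 h2
      exact ⟨x, hx, hb.cleq ω w _ h1⟩
    · rintro ⟨x, hx, rfl⟩
      exact ⟨⟨⟨_, rfl⟩, (H x hx).2.1⟩, _, hb.self ω _, mem_image.2 ⟨x, hx, rfl⟩⟩
  rw [e, nb]
  have m1 := hp.mono R K hR
  have m2 := hp.mono K (K + 1) (by omega)
  have m3 := hp.mono K (K + 2) (by omega)
  refine prod_im _ _ _ _ _ (fun x hx y hy => ⟨fun k => ?_, fun k => ?_⟩) fun x hx => ?_
  · have h1 : em l n a x ∈ (cs l n).cl ω (em l n a y) := k ▸ hb.self ω _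
    obtain ⟨u, hu, h2⟩ := ((H y hy).1 _).1 h1
    obtain rfl := L.inj x (m2 (m1 hx)) u (m3 (hN y hy hu)) h2
    exact hp.cleq _ _ _ hu
  · exact hb.cleq ω _ _ (((H y hy).1 _).2 ⟨x, k ▸ hp.self _ x, rfl⟩)
  · rw [if_pos ((box K).finite_toSet.subset (hN x hx)), sum_push, ms]
    refine congrArg (fun t => 2 * Real.cos (Real.pi / 3 + t)) (sum_congr rfl fun y hy => ?_)
    by_cases c : y ∈ fill (pb l n a ω) (clus (pb l n a ω) x)
    · rw [if_pos c, if_pos (((H x hx).2.2.2 y (m1 hy)).2 c)]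
    · rw [if_neg c, if_neg (mt ((H x hx).2.2.2 y (m1 hy)).1 c)]

end Vale.Agent.P167Q
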