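import Vale.Agent.P167Q.Stm

/-! P167Q: colours, connectedness and the Euler count of the capped cylinder. -/

open Finset Relation
open scoped Classical BigOperators

namespace Vale.Agent.P167Q

open Vale.Agent.P152

namespace CColx

variable {l n : ℕ}

theorem mem_fr {p : Cy l} : p ∈ fr l n ↔
    (0 ≤ p.1 ∧ p.1 ≤ n) ∧ (cev p = true → 1 ≤ p.1) ∧ (cev p = false → p.1 < n) := by
  simp only [fr, mem_filter, mem_product, mem_Icc, mem_univ, and_true]

theorem mem_cE {p : Cy l} : p ∈ cE l n ↔ 1 ≤ p.1 ∧ p.1 ≤ n := by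
  simp only [cE, mem_product, mem_Icc, mem_univ, and_true]

theorem col_pj (p : Cy l) : (cs l n).col (pj l n p) = cev p := by
  unfold pj
  split_ifs with h k
  · rfl
  · exact k.symm
  · exact (Bool.eq_false_iff.2 k).symm

theorem cev_ced (v : Cy l) (b i : Bool) : cev (ced v b i) = b := by
  obtain ⟨x, y⟩ := v
  unfold ced
  cases h : cev ((x, y) : Cy l) <;> cases b <;> cases i <;> simp [cev_x', cev_y', h]

theorem incA {v : Cy l} (hv : v ∈ cE l n) : (cs l n).inc (pj l n v) (pj l n (v.1 - 1, v.2)) :=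
  ⟨⟨v, hv⟩, cev v, true, false, by simp [cs, ced], by simp [cs, ced]⟩

theorem incB {v : Cy l} (hv : v ∈ cE l n) :
    (cs l n).inc (pj l n (v.1 - 1, v.2)) (pj l n (v.1 - 1, v.2 - 1)) :=
  ⟨⟨v, hv⟩, !cev v, false, false, by simp [cs, ced], by simp [cs, ced]⟩

theorem pj_r {y : ZMod (2 * l + 2)} (h : cev ((0, y) : Cy l) = true) : pj l n (0, y) = none := by
  rw [pj, dif_neg fun k => by simpa using (mem_fr.1 k).2.1 h, if_pos h]

theorem conn (hn : 0 < n) (x : ℕ) (hx : x ≤ n) (y : ZMod (2 * l + 2)) :
    ReflTransGen (cs l n).inc (pj l n ((x : ℤ), y)) none := by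
  induction x with
  | zero =>
    cases h : cev ((0, y) : Cy l)
    · have k := incB (n := n) (v := ((1, y) : Cy l)) (mem_cE.2 ⟨le_rfl, by simp only; omega⟩)
      simp only [sub_self] at k
      rw [pj_r (y := y - 1) (by rw [cev_y', h]; rfl)] at k
      exact ReflTransGen.single k
    · rw [Nat.cast_zero, pj_r h]
  | succ x ih =>
    have k := incA (n := n) (v := ((((x + 1 : ℕ) : ℤ), y) : Cy l))
      (mem_cE.2 ⟨by simp only; omega, by simp only; omega⟩)
    simp only [Nat.cast_succ, add_sub_cancel_right] at k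
    exact ReflTransGen.head k (ih (by omega))

theorem card_fr : (fr l n).card = (cE l n).card := by
  refine card_nbij' (fun p => if cev p then p else (p.1 + 1, p.2 + 1))
    (fun v => if cev v then v else (v.1 - 1, v.2 - 1)) ?_ ?_ ?_ ?_
  · intro p hp
    obtain ⟨h1, h2, h3⟩ := mem_fr.1 hp
    refine mem_cE.2 ?_
    cases h : cev p
    · have := h3 h
      simp only [h, Bool.false_eq_true, if_false]
      omega
    · have := h2 h
      simp only [h, if_true]
      omega
  · rintro ⟨x, y⟩ hv
    have h1 := mem_cE.1 hv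
    refine mem_fr.2 ?_
    cases h : cev ((x, y) : Cy l)
    · simp only [h, Bool.false_eq_true, if_false, cev_x', cev_y', Bool.not_false, Bool.not_true,
        false_imp_iff, true_and, forall_const] at h1 ⊢
      omega
    · simp only [h, if_true, forall_const, Bool.true_eq_false, false_imp_iff, and_true] at h1 ⊢
      omega
  · rintro ⟨x, y⟩ -
    cases h : cev ((x, y) : Cy l) <;> simp [h, cev_x, cev_y]
  · rintro ⟨x, y⟩ -
    cases h : cev ((x, y) : Cy l) <;> simp [h, cev_x', cev_y']

end CColx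

open CColx in
theorem ccol_pf : C_col := by
  intro l n he hn
  refine ⟨⟨fun v b i => (col_pj _).trans (cev_ced _ b i), rfl, rfl⟩, ?_, ?_⟩
  · rintro (_ | _ | ⟨⟨x, y⟩, hp⟩)
    · exact ReflTransGen.refl
    · have h : cev (((n : ℤ), ((1 : ℤ) : ZMod (2 * l + 2))) : Cy l) = false := by
        rw [cev_cast, decide_eq_false_iff_not, Int.even_add_one, not_not, Int.even_coe_nat]
        exact he
      have k := conn (l := l) hn n le_rfl ((1 : ℤ) : ZMod (2 * l + 2))
      rw [pj, dif_neg fun k => lt_irrefl _ ((mem_fr.1 k).2.2 h), if_neg (Bool.eq_false_iff.1 h)] at k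
      exact k
    · obtain ⟨h1, h2⟩ := (mem_fr.1 hp).1
      lift x to ℕ using h1
      have k := conn (l := l) hn x (Int.ofNat_le.1 h2) y
      rw [pj, dif_pos hp] at k
      exact k
  · unfold Sys.PEul
    rw [Fintype.card_option, Fintype.card_option, Fintype.card_coe, Fintype.card_coe, card_fr]

end Vale.Agent.P167Q
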