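import Vale.Agent.P167Q.Stm

/-! P167Q: degrees and the boundary phase of the capped cylinder. -/

open Finset Relation
open scoped Classical BigOperators

namespace Vale.Agent.P167Q

open Vale.Agent.P152

namespace CDegx

variable {l n : ℕ}

theorem mfr {p : Cy l} : p ∈ fr l n ↔
    (0 ≤ p.1 ∧ p.1 ≤ n) ∧ (cev p = true → 1 ≤ p.1) ∧ (cev p = false → p.1 < n) := by
  simp [fr]

theorem mcE {p : Cy l} : p ∈ cE l n ↔ 1 ≤ p.1 ∧ p.1 ≤ n := by simp [cE]

theorem pj_of {p : Cy l} (hp : p ∈ fr l n) : pj l n p = some (some ⟨p, hp⟩) := dif_pos hp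

theorem pj_eq {p q : Cy l} (hp : p ∈ fr l n) : pj l n q = pj l n p ↔ q = p := by
  refine ⟨fun h => ?_, fun h => by rw [h]⟩
  rw [pj_of hp] at h
  unfold pj at h
  split_ifs at h
  · simpa using h
  · simp at h

theorem pj_r {p : Cy l} (h0 : p.1 = 0) (h : cev p = true) : pj l n p = none := by
  unfold pj
  rw [dif_neg (fun h' => by have := (mfr.1 h').2.1 h; omega), if_pos h]

theorem pj_g {p : Cy l} (h0 : 0 ≤ p.1) (h1 : p.1 ≤ n) :
    pj l n p = some none ↔ p.1 = n ∧ cev p = false := by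
  unfold pj
  split_ifs with h h'
  · have := (mfr.1 h).2.2
    simp only [Option.some.injEq, reduceCtorEq, false_iff, not_and]
    intro a b
    have := this b
    omega
  · simp [h']
  · rw [mfr] at h
    simp only [Bool.not_eq_true] at h'
    simp only [h', true_iff, and_true]
    simp only [h', Bool.false_eq_true, false_imp_iff, true_and, forall_const] at h
    omega

theorem sum4 (f : Cy l → ℝ) (v : Cy l) : ∑ b, ∑ i, f (ced v b i) =
    f (v.1, v.2) + f (v.1, v.2 - 1) + (f (v.1 - 1, v.2) + f (v.1 - 1, v.2 - 1)) := by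
  simp only [Fintype.sum_bool, ced]
  cases cev v <;> simp <;> ring

theorem icc (c : ℤ → ℝ) (n : ℕ) : ∑ x ∈ Icc (1 : ℤ) n, (2 * c x + 2 * c (x - 1)) =
    4 * ∑ x ∈ Icc (0 : ℤ) n, c x - 2 * c 0 - 2 * c n := by
  induction n with
  | zero => simp; ring
  | succ n ih =>
    rw [Nat.cast_succ, ← insert_Icc_right_eq_Icc_add_one (by omega),
      ← insert_Icc_right_eq_Icc_add_one (by omega), sum_insert (by simp), sum_insert (by simp),
      ih, add_sub_cancel_right]
    ring

/-- the sum over all corners, by columns -/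
theorem master (F : XC l n → ℝ) : ∑ v, ∑ b, ∑ i, F ((cs l n).e v b i) =
    4 * ∑ x ∈ Icc (0 : ℤ) n, ∑ y, F (pj l n (x, y)) - 2 * ∑ y, F (pj l n (0, y)) -
      2 * ∑ y, F (pj l n (n, y)) := by
  rw [← icc fun x => ∑ y, F (pj l n (x, y))]
  have e := sum_coe_sort (cE l n) fun v => ∑ b, ∑ i, F (pj l n (ced v b i))
  refine e.trans ?_
  rw [cE, sum_product]
  refine sum_congr rfl fun x _ => ?_
  have s : ∀ x : ℤ, ∑ y, F (pj l n (x, y - 1)) = ∑ y, F (pj l n (x, y)) := fun x =>
    (Equiv.subRight (1 : ZMod (2 * l + 2))).sum_comp fun y => F (pj l n (x, y))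
  simp only [sum4 fun p => F (pj l n p), sum_add_distrib, s]
  ring

theorem half (x : ℤ) : ∑ y : ZMod (2 * l + 2),
    (if cev ((x, y) : Cy l) = false then (1 : ℝ) else 0) = l + 1 := by
  have s := (Equiv.subRight (1 : ZMod (2 * l + 2))).sum_comp
    fun y => if cev ((x, y) : Cy l) = false then (1 : ℝ) else 0
  simp only [Equiv.subRight_apply, cev_y'] at s
  have t : ∑ y : ZMod (2 * l + 2), ((if (!cev ((x, y) : Cy l)) = false then (1 : ℝ) else 0) +
      if cev ((x, y) : Cy l) = false then (1 : ℝ) else 0) = ∑ _y : ZMod (2 * l + 2), (1 : ℝ) :=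
    sum_congr rfl fun y _ => by cases cev ((x, y) : Cy l) <;> simp
  rw [sum_add_distrib, s, sum_const, card_univ, ZMod.card, nsmul_eq_mul] at t
  push_cast at t
  linarith

theorem colg {x : ℤ} (h0 : 0 ≤ x) (h1 : x ≤ n) :
    ∑ y, (if pj l n (x, y) = some none then (1 : ℝ) else 0) = if x = n then (l : ℝ) + 1 else 0 := by
  simp only [fun y => pj_g (l := l) (n := n) (p := (x, y)) h0 h1]
  split_ifs with h
  · simp only [h, true_and, half]
  · simp [h]

theorem allg : ∑ x ∈ Icc (0 : ℤ) n,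
    ∑ y, (if pj l n (x, y) = some none then (1 : ℝ) else 0) = l + 1 := by
  rw [sum_congr rfl fun x hx => colg (mem_Icc.1 hx).1 (mem_Icc.1 hx).2, sum_ite_eq']
  simp

theorem degR (z : XC l n) : ((cs l n).deg z : ℝ) =
    4 * ∑ x ∈ Icc (0 : ℤ) n, ∑ y, (if pj l n (x, y) = z then (1 : ℝ) else 0) -
      2 * ∑ y, (if pj l n (0, y) = z then (1 : ℝ) else 0) -
      2 * ∑ y, (if pj l n (n, y) = z then (1 : ℝ) else 0) := by
  rw [← master fun w => if w = z then (1 : ℝ) else 0]
  simp only [Sys.deg]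
  push_cast
  rfl

theorem inc_v (hn : 0 < n) {x : ℤ} (h0 : 0 ≤ x) (h1 : x ≤ n) (y : ZMod (2 * l + 2)) :
    (cs l n).inc (pj l n (x, y)) (pj l n (x, y - 1)) := by
  by_cases h : x = 0
  · refine ⟨⟨(1, y), mcE.2 ⟨le_rfl, by show (1 : ℤ) ≤ n; omega⟩⟩, !cev ((1, y) : Cy l), false,
      false, ?_, ?_⟩ <;> simp [cs, ced, h]
  · refine ⟨⟨(x, y), mcE.2 ⟨by show 1 ≤ x; omega, h1⟩⟩, cev ((x, y) : Cy l), true, true, ?_, ?_⟩ <;>
      simp [cs, ced]

theorem sg_eq {a b : ℤ} (h : |a - b| = 1) : sg (decide (a = b + 1)) = (a : ℝ) - b := by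
  rcases (abs_eq (by norm_num)).1 h with h | h
  · rw [decide_eq_true (by omega), ← Int.cast_sub, h]; simp [sg]
  · rw [decide_eq_false (by omega), ← Int.cast_sub, h]; simp [sg]

theorem cev_n (he : Even n) (y : ZMod (2 * l + 2)) :
    cev (((n : ℤ), y) : Cy l) = cev ((0, y) : Cy l) := by
  have := cev_add (l := l) 0 n 0 y
  simpa [he] using this

end CDegx

open CDegx

theorem cdeg_pf : C_deg := by
  intro l n _ hn
  refine ⟨fun p hp => ?_, ?_⟩
  · have h := degR (pj l n p)
    have c : ∀ x : ℤ, ∑ y, (if pj l n (x, y) = pj l n p then (1 : ℝ) else 0) =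
        if x = p.1 then 1 else 0 := fun x => by
      simp only [pj_eq hp, Prod.ext_iff]
      by_cases hx : x = p.1 <;> simp [hx]
    have m := (mfr.1 hp).1
    simp only [c, sum_ite_eq', mem_Icc, m, and_self, if_true] at h
    have k : ((cs l n).deg (pj l n p) : ℝ) = ((if p.1 = 0 ∨ p.1 = n then 2 else 4 : ℕ) : ℝ) := by
      rw [h]
      split_ifs <;> first | omega | norm_num
    exact_mod_cast k
  · have h := degR (l := l) (n := n) (some none)
    simp only [allg] at h
    rw [colg le_rfl (by omega), colg (by omega) le_rfl, if_neg (by omega), if_pos rfl] at h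
    have k : ((cs l n).deg (some none) : ℝ) = ((2 * l + 2 : ℕ) : ℝ) := by
      rw [h]; push_cast; ring
    exact_mod_cast k

theorem cth_pf : C_th := by
  intro l n he hn
  refine ⟨fun h hh => ?_, ((fr l n).filter fun p : Cy l => p.1 = 0 ∨ p.1 = (n : ℤ)).image (pj l n),
    ?_, ?_, ?_⟩
  · have h0 : h none = 0 := hh.1
    have e1 : ∑ z : XC l n, (if z = (cs l n).g then 0 else (h z : ℝ)) =
        ∑ x ∈ Icc (0 : ℤ) n, ∑ y, (if pj l n (x, y) = some none then 0 else
          (h (pj l n (x, y)) : ℝ)) := by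
      rw [Fintype.sum_option, Fintype.sum_option, ← sum_product' (Icc (0 : ℤ) n) univ
        fun x y => if pj l n (x, y) = some none then 0 else (h (pj l n (x, y)) : ℝ),
        ← sum_subset (s₁ := fr l n) (filter_subset _ _) fun p _ hp => by
          unfold pj
          rw [dif_neg hp]
          split_ifs <;> simp_all,
        ← sum_coe_sort (fr l n)]
      simp [cs, h0, pj_of]
    have e2 : ∑ x ∈ Icc (0 : ℤ) n, ∑ y, (h (pj l n (x, y)) : ℝ) =
        ∑ x ∈ Icc (0 : ℤ) n, ∑ y, (if pj l n (x, y) = some none then 0 else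
          (h (pj l n (x, y)) : ℝ)) + (l + 1) * h (some none) := by
      rw [← allg (l := l) (n := n), sum_mul, ← sum_add_distrib]
      refine sum_congr rfl fun x _ => ?_
      rw [sum_mul, ← sum_add_distrib]
      refine sum_congr rfl fun y _ => ?_
      split_ifs with k <;> simp [k]
    have e3 : ∀ y, (if cev ((0, y) : Cy l) then sg (arr h (n : ZMod (n + 1)) (y, true))
        else sg (arr h 0 (y, true))) =
        (h (pj l n (0, y)) : ℝ) + h (pj l n (n, y)) - h (some none) := fun y => by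
      have a0 := sg_eq (hh.2 _ _ (inc_v (l := l) hn le_rfl (by omega) y))
      have an := sg_eq (hh.2 _ _ (inc_v (l := l) hn (by omega) le_rfl y))
      simp only [arr, if_true, ZMod.val_zero, Nat.cast_zero, ZMod.val_natCast,
        Nat.mod_eq_of_lt (Nat.lt_succ_self n), a0, an]
      split_ifs with k
      · rw [pj_r rfl k, h0, (pj_g (p := ((n : ℤ), y - 1)) (by simp) le_rfl).2
          ⟨rfl, by rw [cev_y', cev_n he, k]; rfl⟩]
        simp
      · rw [Bool.not_eq_true] at k
        rw [pj_r (p := (0, y - 1)) rfl (by rw [cev_y', k]; rfl), h0,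
          (pj_g (p := ((n : ℤ), y)) (by simp) le_rfl).2 ⟨rfl, by rw [cev_n he, k]⟩]
        simp
    rw [Sys.Th, e1, master fun z => (h z : ℝ), e2, th]
    simp only [e3, sum_sub_distrib, sum_add_distrib, sum_const, card_univ, ZMod.card,
      nsmul_eq_mul]
    push_cast
    ring
  · refine card_image_le.trans ((card_le_card (t := ({0, (n : ℤ)} : Finset ℤ) ×ˢ univ)
      fun p hp => by simpa using (mem_filter.1 hp).2).trans ?_)
    rw [card_product, card_univ, ZMod.card]
    have := card_le_two (a := (0 : ℤ)) (b := n)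
    nlinarith
  · rintro (_ | _ | ⟨p, hp⟩) hB hr hg
    · exact absurd rfl hr
    · exact absurd rfl hg
    · rw [← pj_of hp] at hB ⊢
      rw [(cdeg_pf l n he hn).1 p hp, if_neg fun h => hB (mem_image_of_mem _ (mem_filter.2 ⟨hp, h⟩))]
  · intro z hz
    obtain ⟨⟨x, y⟩, hp, rfl⟩ := mem_image.1 hz
    obtain ⟨hp, k⟩ := mem_filter.1 hp
    obtain ⟨⟨m0, m1⟩, m2, m3⟩ := mfr.1 hp
    have i := inc_v (l := l) hn m0 m1 y
    cases c : cev ((x, y) : Cy l)
    · have := m3 c
      rw [pj_r (p := (x, y - 1)) (by omega) (by rw [cev_y', c]; rfl)] at i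
      exact Or.inl i
    · have := m2 c
      rw [(pj_g (p := (x, y - 1)) m0 m1).2 ⟨by omega, by rw [cev_y', c]; rfl⟩] at i
      exact Or.inr i

end Vale.Agent.P167Q
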