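import Vale.Agent.P167Q.Stm

namespace Vale.Agent.P167Q

open Vale.Agent.P152
open scoped Classical

namespace CExx

variable {l : ℕ} (n : ℕ) (p : XC l n → XC l n → ZMod 2)

noncomputable def q (u u' : Cy l) : ZMod 2 :=
  if cev u then p (pj l n u) (pj l n u') else p (pj l n u') (pj l n u)

noncomputable def H : ℕ → ZMod (2 * l + 2) → ZMod 2
  | 0, y => if cev ((0, y) : Cy l) then 0 else p none (pj l n (0, y))
  | k + 1, y => H k y + q n p ((k : ℤ), y) ((k : ℤ) + 1, y)

noncomputable def T (z : XC l n) : ZMod 2 :=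
  z.elim 0 fun w => w.elim (H n p n 1) fun u => H n p u.1.1.toNat u.1.2

theorem two : (2 : ZMod 2) = 0 := by decide

theorem mem_fr (u : Cy l) : u ∈ fr l n ↔
    (0 ≤ u.1 ∧ u.1 ≤ n) ∧ (cev u = true → 1 ≤ u.1) ∧ (cev u = false → u.1 < n) := by
  simp only [fr, Finset.mem_filter, Finset.mem_product, Finset.mem_Icc, Finset.mem_univ, and_true]

theorem pj_r {y : ZMod (2 * l + 2)} (h : cev ((0, y) : Cy l) = true) : pj l n (0, y) = none := by
  have : ((0, y) : Cy l) ∉ fr l n := fun hm => by
    have := ((mem_fr n _).1 hm).2.1 h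
    simp at this
  simp only [pj, dif_neg this, h, if_true]

theorem pj_g {y : ZMod (2 * l + 2)} (h : cev (((n : ℤ), y) : Cy l) = false) :
    pj l n ((n : ℤ), y) = some none := by
  have : (((n : ℤ), y) : Cy l) ∉ fr l n := fun hm => by
    have := ((mem_fr n _).1 hm).2.2 h
    simp at this
  simp [pj, dif_neg this, h]

variable {n p}

theorem closed (hp : ∀ v, ∑ i, ∑ j, p ((cs l n).e v true i) ((cs l n).e v false j) = 0)
    (k : ℕ) (hk : k + 1 ≤ n) (y : ZMod (2 * l + 2)) :
    q n p ((k : ℤ), y - 1) ((k : ℤ) + 1, y - 1) + q n p ((k : ℤ), y) ((k : ℤ) + 1, y)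
      + q n p ((k : ℤ), y - 1) ((k : ℤ), y) + q n p ((k : ℤ) + 1, y - 1) ((k : ℤ) + 1, y) = 0 := by
  have hv : (((k : ℤ) + 1, y) : Cy l) ∈ cE l n := by
    simp only [cE, Finset.mem_product, Finset.mem_Icc, Finset.mem_univ, and_true]
    omega
  have := hp ⟨_, hv⟩
  simp only [cs, ced, Fintype.sum_bool, add_sub_cancel_right] at this
  simp only [q, cev_y', cev_x] at this ⊢
  cases hc : cev (((k : ℤ), y) : Cy l) <;> simp [hc] at this ⊢ <;> linear_combination this

theorem vert (hp : ∀ v, ∑ i, ∑ j, p ((cs l n).e v true i) ((cs l n).e v false j) = 0)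
    (k : ℕ) (hk : k ≤ n) (y : ZMod (2 * l + 2)) :
    H n p k (y - 1) + H n p k y = q n p ((k : ℤ), y - 1) ((k : ℤ), y) := by
  induction k with
  | zero =>
    simp only [H, q, Nat.cast_zero, cev_y']
    cases hc : cev ((0, y) : Cy l)
    · have : cev ((0, y - 1) : Cy l) = true := by rw [cev_y', hc]; rfl
      simp [pj_r n this]
    · simp [pj_r n hc]
  | succ k ih =>
    have h1 := ih (by omega)
    have h2 := closed hp k hk y
    simp only [H]
    push_cast
    linear_combination h1 + h2 - q n p ((k : ℤ) + 1, y - 1) ((k : ℤ) + 1, y) * two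

theorem last (hp : ∀ v, ∑ i, ∑ j, p ((cs l n).e v true i) ((cs l n).e v false j) = 0)
    (y : ZMod (2 * l + 2)) (hy : cev (((n : ℤ), y) : Cy l) = true) :
    H n p n (y + 1) = H n p n (y - 1) := by
  have h1 := vert hp n le_rfl y
  have h2 := vert hp n le_rfl (y + 1)
  have c1 : cev (((n : ℤ), y - 1) : Cy l) = false := by rw [cev_y', hy]; rfl
  have c2 : cev (((n : ℤ), y + 1) : Cy l) = false := by rw [cev_y, hy]; rfl
  rw [add_sub_cancel_right] at h2
  simp only [q, hy, c1, pj_g n c1, pj_g n c2, if_true, Bool.false_eq_true, if_false] at h1 h2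
  linear_combination h2 - h1

theorem last' (hp : ∀ v, ∑ i, ∑ j, p ((cs l n).e v true i) ((cs l n).e v false j) = 0)
    (hn : Even n) (y : ZMod (2 * l + 2)) (hy : cev (((n : ℤ), y) : Cy l) = false) :
    H n p n y = H n p n 1 := by
  have key : ∀ k : ℕ, H n p n ((2 * k + 1 : ℕ) : ZMod (2 * l + 2)) = H n p n 1 := by
    intro k
    induction k with
    | zero => simp
    | succ k ih =>
      have hc : cev (((n : ℤ), ((2 * k + 2 : ℤ) : ZMod (2 * l + 2))) : Cy l) = true := by
        rw [cev_cast, decide_eq_true_iff, Int.even_iff]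
        obtain ⟨m, hm⟩ := hn
        omega
      have := last hp _ hc
      rw [← ih]
      have e1 : ((2 * (k + 1) + 1 : ℕ) : ZMod (2 * l + 2)) =
          ((2 * k + 2 : ℤ) : ZMod (2 * l + 2)) + 1 := by push_cast; ring
      have e2 : ((2 * k + 1 : ℕ) : ZMod (2 * l + 2)) =
          ((2 * k + 2 : ℤ) : ZMod (2 * l + 2)) - 1 := by push_cast; ring
      rw [e1, e2, this]
  have hodd : Odd y.val := by
    unfold cev at hy
    rw [decide_eq_false_iff_not, Int.even_iff] at hy
    obtain ⟨m, hm⟩ := hn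
    rw [Nat.odd_iff]
    simp only at hy
    omega
  obtain ⟨k, hk⟩ := hodd
  rw [← ZMod.natCast_zmod_val y, hk, key]

theorem T_pj (hp : ∀ v, ∑ i, ∑ j, p ((cs l n).e v true i) ((cs l n).e v false j) = 0)
    (hn : Even n) (k : ℕ) (hk : k ≤ n) (y : ZMod (2 * l + 2)) :
    T n p (pj l n ((k : ℤ), y)) = H n p k y := by
  by_cases hm : (((k : ℤ), y) : Cy l) ∈ fr l n
  · simp [pj, dif_pos hm, T]
  · have hm' := hm
    rw [mem_fr] at hm'
    cases hc : cev (((k : ℤ), y) : Cy l)
    · have : k = n := by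
        by_contra hne
        exact hm' ⟨⟨by simp, by simpa using hk⟩, fun h => by simp [hc] at h,
          fun _ => by simp only; omega⟩
      subst this
      rw [pj_g _ hc, last' hp hn y hc]
      rfl
    · have : k = 0 := by
        by_contra hne
        exact hm' ⟨⟨by simp, by simpa using hk⟩, fun _ => by simp only; omega,
          fun h => by simp [hc] at h⟩
      subst this
      simp only [Nat.cast_zero] at hc ⊢
      rw [pj_r _ hc]
      simp [T, H, hc]

end CExx

open CExx in
theorem cex_pf : C_ex := by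
  intro l n hn _ p hp
  refine ⟨T n p, ?_⟩
  rintro ⟨⟨x, y⟩, hv⟩ i j
  simp only [cE, Finset.mem_product, Finset.mem_Icc, Finset.mem_univ, and_true] at hv
  obtain ⟨k, rfl⟩ : ∃ k : ℕ, x = (k : ℤ) + 1 := ⟨(x - 1).toNat, by omega⟩
  have hk : k + 1 ≤ n := by omega
  have t0 := T_pj hp hn k (by omega)
  have t1 := T_pj hp hn (k + 1) hk
  have v0 := vert hp k (by omega) y
  have v1 := vert hp (k + 1) hk y
  have h0 : H n p (k + 1) y = H n p k y + q n p ((k : ℤ), y) ((k : ℤ) + 1, y) := rfl
  have h1 : H n p (k + 1) (y - 1) =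
    H n p k (y - 1) + q n p ((k : ℤ), y - 1) ((k : ℤ) + 1, y - 1) := rfl
  push_cast at t1 v1
  simp only [q, cev_y', cev_x] at v0 v1 h0 h1
  simp only [cs, ced, add_sub_cancel_right, cev_x]
  cases hc : cev (((k : ℤ), y) : Cy l) <;> cases i <;> cases j <;>
    simp [hc, t0, t1] at v0 v1 h0 h1 ⊢ <;>
    first
    | linear_combination v0
    | linear_combination v1
    | linear_combination h0 + H n p k y * two
    | linear_combination h1 + H n p k (y - 1) * two

end Vale.Agent.P167Q
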