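import Vale.Agent.P167Q.Stm

open Finset Relation
open scoped Classical

namespace Vale.Agent.P167Q

open Vale.Agent.P152

namespace CExtx

variable {l n : ℕ}

theorem mem_cE {k : ℤ} (t : ZMod (2 * l + 2)) (h1 : 1 ≤ k) (h2 : k ≤ n) :
    ((k, t) : Cy l) ∈ cE l n := by
  simp [cE, h1, h2]

theorem inc1 {k : ℤ} (t : ZMod (2 * l + 2)) (h1 : 1 ≤ k) (h2 : k ≤ n) :
    (cs l n).inc (pj l n (k, t)) (pj l n (k - 1, t)) :=
  ⟨⟨_, mem_cE t h1 h2⟩, cev ((k, t) : Cy l), true, false, by simp [cs, ced], by simp [cs, ced]⟩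

theorem inc2 {k : ℤ} (t : ZMod (2 * l + 2)) (h1 : 1 ≤ k) (h2 : k ≤ n) :
    (cs l n).inc (pj l n (k, t)) (pj l n (k, t - 1)) :=
  ⟨⟨_, mem_cE t h1 h2⟩, cev ((k, t) : Cy l), true, true, by simp [cs, ced], by simp [cs, ced]⟩

theorem inc0 (t : ZMod (2 * l + 2)) (h2 : (1 : ℤ) ≤ n) :
    (cs l n).inc (pj l n (0, t)) (pj l n (0, t - 1)) :=
  ⟨⟨_, mem_cE t le_rfl h2⟩, !cev ((1, t) : Cy l), false, false, by simp [cs, ced],
    by simp [cs, ced]⟩

theorem pj_r {t : ZMod (2 * l + 2)} (h : cev ((0, t) : Cy l) = true) :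
    pj l n (0, t) = (cs l n).r := by
  have h1 : ((0, t) : Cy l) ∉ fr l n := by simp [fr, h]
  simp [pj, h1, h, cs]

theorem pj_g (hn : Even n) : pj l n (n, 1) = (cs l n).g := by
  have h : cev (((n : ℤ), 1) : Cy l) = false := by
    have e := cev_cast (l := l) n 1
    rw [Int.cast_one] at e
    rw [e]
    obtain ⟨m, rfl⟩ := hn
    simp only [Int.even_iff, decide_eq_false_iff_not]
    omega
  have h1 : (((n : ℤ), 1) : Cy l) ∉ fr l n := by simp [fr, h]
  simp [pj, h1, h, cs]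

theorem pj_inj {p q : Cy l} (h : pj l n q = pj l n p) (hr : pj l n p ≠ (cs l n).r)
    (hg : pj l n p ≠ (cs l n).g) : q = p := by
  by_cases hp : p ∈ fr l n
  · by_cases hq : q ∈ fr l n
    · simpa [pj, hp, hq] using h
    · exfalso
      by_cases hc : cev q = true <;> simp [pj, hp, hq, hc] at h
  · exfalso
    by_cases hc : cev p = true
    · exact hr (by simp [pj, hp, hc, cs])
    · exact hg (by simp [pj, hp, hc, cs])

theorem left (T : Finset (XC l n)) (hr : (cs l n).r ∉ T) (hn : 1 ≤ n) (t : ZMod (2 * l + 2))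
    (k : ℕ) (hk : k ≤ n) (h : ∀ j : ℕ, j ≤ k → pj l n (j, t) ∉ T) :
    ReflTransGen (fun u v => (cs l n).inc u v ∧ v ∉ T) (pj l n (k, t)) (cs l n).r := by
  induction k with
  | zero =>
    rw [Nat.cast_zero]
    by_cases hc : cev ((0, t) : Cy l) = true
    · rw [pj_r hc]
    · have hc' : cev ((0, t - 1) : Cy l) = true := by
        rw [cev_y']
        simpa using hc
      have e := inc0 (l := l) (n := n) t (by exact_mod_cast hn)
      rw [pj_r hc'] at e
      exact ReflTransGen.single ⟨e, hr⟩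
  | succ k ih =>
    have e := inc1 (l := l) (n := n) (k := ((k + 1 : ℕ) : ℤ)) t (by omega) (by omega)
    rw [show ((k + 1 : ℕ) : ℤ) - 1 = (k : ℤ) by omega] at e
    exact ReflTransGen.head ⟨e, h k (by omega)⟩ (ih (by omega) fun j hj => h j (by omega))

theorem down (T : Finset (XC l n)) {k : ℤ} (h1 : 1 ≤ k) (h2 : k ≤ n)
    (h : ∀ t, pj l n (k, t) ∉ T) (s : ZMod (2 * l + 2)) (m : ℕ) :
    ReflTransGen (fun u v => (cs l n).inc u v ∧ v ∉ T) (pj l n (k, s + m)) (pj l n (k, s)) := by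
  induction m with
  | zero => rw [Nat.cast_zero, add_zero]
  | succ m ih =>
    have e := inc2 (l := l) (n := n) (s + ((m + 1 : ℕ) : ZMod (2 * l + 2))) h1 h2
    rw [show s + ((m + 1 : ℕ) : ZMod (2 * l + 2)) - 1 = s + m by push_cast; ring] at e
    exact ReflTransGen.head ⟨e, h _⟩ ih

theorem rep (hn : Even n) (z : XC l n) :
    z = (cs l n).r ∨ ∃ (k : ℕ) (t : ZMod (2 * l + 2)), k ≤ n ∧ z = pj l n (k, t) := by
  rcases z with _ | _ | ⟨⟨k, t⟩, hp⟩
  · exact Or.inl rfl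
  · exact Or.inr ⟨n, 1, le_rfl, (pj_g hn).symm⟩
  · have h : 0 ≤ k ∧ k ≤ n := by
      have e := (mem_filter.1 hp).1
      simpa using e
    obtain ⟨k, rfl⟩ := Int.eq_ofNat_of_zero_le h.1
    exact Or.inr ⟨k, t, by omega, by simp [pj, hp]⟩

theorem mem_im {a K : ℕ} (L : Lift l n a K) (hp : P_bas) {q : Cy l}
    (h : pj l n q ∈ im l n a K) : ∃ x ∈ box K, q = io l a x := by
  obtain ⟨x, hx, e⟩ := mem_image.1 h
  have hn := L.nr x (hp.mono K (K + 1) (by omega) hx)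
  exact ⟨x, hx, pj_inj e.symm hn.1 hn.2⟩

theorem ext1 {a K : ℕ} (hF : Fit l n a K) (L : Lift l n a K) (hp : P_bas) (z : XC l n)
    (hz : z ∉ im l n a K) :
    ReflTransGen (fun u v => (cs l n).inc u v ∧ v ∉ im l n a K) z (cs l n).r := by
  obtain ⟨hn, -, h1, h2, h3⟩ := hF
  have hr : (cs l n).r ∉ im l n a K := fun h => by
    obtain ⟨x, hx, e⟩ := mem_image.1 h
    exact (L.nr x (hp.mono K (K + 1) (by omega) hx)).1 e
  rcases rep hn z with rfl | ⟨k, t, hk, rfl⟩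
  · exact ReflTransGen.refl
  by_cases hc : k ≤ a + K
  · refine left _ hr (by omega) t k hk fun j hj hm => hz ?_
    obtain ⟨x, hx, e⟩ := mem_im L hp hm
    have e1 : (j : ℤ) = x.1 + a := congrArg Prod.fst e
    have e2 : t = (x.2 : ZMod (2 * l + 2)) := congrArg Prod.snd e
    rw [mem_box] at hx
    refine mem_image.2 ⟨((k : ℤ) - a, x.2), mem_box.2 ⟨?_, ?_, hx.2.2.1, hx.2.2.2⟩, ?_⟩
    · show -(K : ℤ) ≤ (k : ℤ) - a
      omega
    · show (k : ℤ) - a ≤ K
      omega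
    · simp [em, io, e2]
  · have hcol : ∀ s, pj l n (k, s) ∉ im l n a K := fun s hm => by
      obtain ⟨x, hx, e⟩ := mem_im L hp hm
      have e1 : (k : ℤ) = x.1 + a := congrArg Prod.fst e
      rw [mem_box] at hx
      omega
    have hd := down (im l n a K) (k := k) (by omega) (by omega) hcol
      (((K : ℤ) + 1 : ℤ) : ZMod (2 * l + 2)) (t - (((K : ℤ) + 1 : ℤ) : ZMod (2 * l + 2))).val
    rw [ZMod.natCast_zmod_val, add_sub_cancel] at hd
    refine hd.trans (left _ hr (by omega) _ k hk fun j _ hm => ?_)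
    obtain ⟨x, hx, e⟩ := mem_im L hp hm
    have e2 : (((K : ℤ) + 1 : ℤ) : ZMod (2 * l + 2)) = (x.2 : ZMod (2 * l + 2)) :=
      congrArg Prod.snd e
    rw [mem_box] at hx
    have e3 := (ZMod.intCast_eq_intCast_iff_dvd_sub _ _ _).1 e2.symm
    have e4 := Int.le_of_dvd (by omega) e3
    omega

theorem ext2 {a K : ℕ} (L : Lift l n a K) (hp : P_bas) (R : ℕ) (hR : R ≤ K + 1) :
    (cs l n).Cnn (im l n a R) := by
  intro x0 hx0 y0 hy0
  obtain ⟨x, hx, rfl⟩ := mem_image.1 hx0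
  obtain ⟨y, hy, rfl⟩ := mem_image.1 hy0
  have key : ∀ w, ReflTransGen (fun u v => Nb u v ∧ v ∈ box R) x w → w ∈ box R ∧
      ReflTransGen (fun u v => (cs l n).inc u v ∧ v ∈ im l n a R) (em l n a x) (em l n a w) := by
    intro w h
    induction h with
    | refl => exact ⟨hx, ReflTransGen.refl⟩
    | tail _ h ih =>
      exact ⟨h.2, ih.2.tail ⟨(L.inc _ (hp.mono R (K + 1) hR ih.1) _).2 ⟨_, h.1, rfl⟩,
        mem_image_of_mem _ h.2⟩⟩
  exact (key y (hp.cnn R x hx y hy)).2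

end CExtx

theorem cext_pf (hl : C_lift) (hp : P_bas) : C_ext := fun l n a K hF =>
  ⟨CExtx.ext1 hF (hl l n a K hF) hp, CExtx.ext2 (hl l n a K hF) hp⟩

end Vale.Agent.P167Q
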