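import Vale.Agent.P167Q.Stm

/-! P167Q: the height function on the cylinder and in the plane. -/

open Finset
open scoped Classical

namespace Vale.Agent.P167Q

open Vale.Agent.P152

namespace CHtx

theorem tel (u : ℤ → ℝ) {a b : ℤ} (h : a ≤ b) :
    ∑ i ∈ Ioc a b, (u i - u (i - 1)) = u b - u a := by
  induction b, h using Int.leInduction with
  | base => simp
  | succ b h ih =>
    rw [← insert_Ioc_right_eq_Ioc_add_one h, sum_insert (by simp), ih, add_sub_cancel_right]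
    ring

theorem tel2 (u f : ℤ → ℝ) {R m : ℤ} (h1 : -R ≤ m) (h2 : m ≤ R)
    (hf : ∀ i, -R ≤ i → i ≤ R → f i = u i - u (i - 1)) :
    ∑ i ∈ Ioc 0 m, f i - ∑ i ∈ Ioc m 0, f i = u m - u 0 := by
  rw [sum_congr rfl fun i hi => hf i (by have := mem_Ioc.1 hi; omega)
      (by have := mem_Ioc.1 hi; omega),
    sum_congr (s₁ := Ioc m 0) rfl fun i hi => hf i (by have := mem_Ioc.1 hi; omega)
      (by have := mem_Ioc.1 hi; omega)]
  rcases le_total 0 m with h | h
  · rw [tel u h, Ioc_eq_empty_of_le h, sum_empty, sub_zero]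
  · rw [tel u h, Ioc_eq_empty_of_le h, sum_empty]
    ring

theorem sg_eq {a b : ℤ} (h : |a - b| = 1) : sg (decide (a = b + 1)) = (a : ℝ) - b := by
  rw [abs_eq zero_le_one] at h
  rw [← Int.cast_sub]
  rcases h with h | h <;> rw [h]
  · simp [sg, show a = b + 1 by omega]
  · simp [sg, show ¬ a = b + 1 by omega]

theorem sg_rev (b : Bool) : sg (!b) = -sg b := by cases b <;> simp [sg]

theorem adj {l n : ℕ} {h : XC l n → ℤ} (hh : (cs l n).Adm h) {x : ℤ} (h1 : 1 ≤ x) (h2 : x ≤ n)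
    (y : ZMod (2 * l + 2)) : |h (pj l n (x, y)) - h (pj l n (x, y - 1))| = 1 ∧
      |h (pj l n (x - 1, y)) - h (pj l n (x, y))| = 1 := by
  have hv : (x, y) ∈ cE l n := by simp [cE, h1, h2]
  refine ⟨hh.2 _ _ ⟨⟨_, hv⟩, cev (x, y), true, true, ?_, ?_⟩,
    hh.2 _ _ ⟨⟨_, hv⟩, !cev (x, y), false, true, ?_, ?_⟩⟩ <;> simp [cs, ced]

theorem val_eq {n : ℕ} {x : ℤ} (h1 : 0 ≤ x) (h2 : x ≤ n) : ((x : ZMod (n + 1)).val : ℤ) = x := by
  rw [ZMod.val_intCast]
  exact Int.emod_eq_of_lt h1 (by push_cast; omega)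

theorem arr_eq {l n : ℕ} {h : XC l n → ℤ} (hh : (cs l n).Adm h) {x : ℤ} (h1 : 1 ≤ x) (h2 : x ≤ n)
    (y : ZMod (2 * l + 2)) :
    sg (arr h (x : ZMod (n + 1)) (y, true)) =
      (h (pj l n (x, y)) : ℝ) - h (pj l n (x, y - 1)) ∧
    sg (arr h (x : ZMod (n + 1)) (y, false)) =
      (h (pj l n (x - 1, y)) : ℝ) - h (pj l n (x, y)) := by
  have e := val_eq (n := n) (zero_le_one.trans h1) h2
  have e0 : (x : ZMod (n + 1)).val ≠ 0 := by omega
  simp only [arr, e, if_true, Bool.false_eq_true, if_false, ne_eq, e0, not_false_eq_true, true_and]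
  exact ⟨sg_eq (adj hh h1 h2 y).1, sg_eq (adj hh h1 h2 y).2⟩

end CHtx

open CHtx in
theorem cht_pf : C_ht := by
  intro l n a R h1 h2 φ h0 h hh
  have e : ∀ x ∈ box R, ht (ori fun x => arr h ((x + a : ℤ) : ZMod (n + 1))) x =
      (h (em l n a x) : ℝ) - h (em l n a (0, 0)) := by
    rintro ⟨x, y⟩ hx
    rw [mem_box] at hx
    have e1 := tel2 (fun i => -(h (em l n a (i, 0)) : ℝ))
      (fun i => sg (ori (fun x => arr h ((x + a : ℤ) : ZMod (n + 1))) ((i, 0), false)))
      hx.1 hx.2.1 fun i a1 a2 => by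
        refine (arr_eq hh (x := i + a) (by omega) (by omega) _).2.trans ?_
        simp only [em, io, add_sub_right_comm]
        ring
    have e2 := tel2 (fun j => (h (em l n a (x, j)) : ℝ))
      (fun j => sg (ori (fun x => arr h ((x + a : ℤ) : ZMod (n + 1))) ((x, j), true)))
      hx.2.2.1 hx.2.2.2 fun j _ _ => by
        refine (arr_eq hh (x := x + a) (by omega) (by omega) _).1.trans ?_
        simp only [em, io, Int.cast_sub, Int.cast_one]
    simp only [ht]
    linarith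
  rw [XH, sum_congr rfl fun x hx => by rw [e x hx, mul_sub], sum_sub_distrib, ← sum_mul, h0,
    zero_mul, sub_zero]
  simp only [push, sum_mul, ite_mul, zero_mul]
  rw [sum_comm]
  simp only [sum_ite_eq, mem_univ, if_true]

open CHtx in
theorem xloc_pf : X_loc := by
  refine fun φ R => ⟨⟨box R ×ˢ univ, fun o o' h => sum_congr rfl fun x hx => ?_⟩, fun o => ?_⟩
  · rw [mem_box] at hx
    have k : ∀ i j b, -(R : ℤ) ≤ i → i ≤ R → -(R : ℤ) ≤ j → j ≤ R →
        sg (o ((i, j), b)) = sg (o' ((i, j), b)) := fun i j b a1 a2 a3 a4 => by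
      rw [h _ (mem_product.2 ⟨mem_box.2 ⟨a1, a2, a3, a4⟩, mem_univ _⟩)]
    unfold ht
    congr 3 <;> refine sum_congr rfl fun i hi => ?_ <;> rw [mem_Ioc] at hi <;>
      exact k _ _ _ (by omega) (by omega) (by omega) (by omega)
  · rw [XH, XH, ← sum_neg_distrib]
    refine sum_congr rfl fun x _ => ?_
    simp only [ht, rev, sg_rev, sum_neg_distrib]
    ring

end Vale.Agent.P167Q
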