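import Vale.Agent.P167Q.Stm

/-! P167Q: the box of the plane lifts to the cylinder. -/

open scoped Classical

namespace Vale.Agent.P167Q

open Vale.Agent.P152

namespace CLiftx

variable {l n a K : ℕ}

theorem cev_io (ha : Even a) (x : Sq) : cev (io l a x) = decide (Even (x.1 + x.2)) := by
  unfold io
  rw [cev_cast]
  obtain ⟨c, rfl⟩ := ha
  simp only [Int.even_iff, decide_eq_decide]
  push_cast
  omega

theorem ced_io (ha : Even a) (v : Sq) (b i : Bool) :
    ced (io l a v) b i = io l a (ed v b i) := by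
  unfold ced ed
  rw [cev_io ha]
  split_ifs
  · rfl
  · simp only [io]; push_cast; congr 1; ring
  · simp only [io]; push_cast; rfl
  · simp only [io]; congr 1; ring

theorem mem_fr (p : Cy l) : p ∈ fr l n ↔
    (0 ≤ p.1 ∧ p.1 ≤ n) ∧ (cev p = true → 1 ≤ p.1) ∧ (cev p = false → p.1 < n) := by
  simp only [fr, Finset.mem_filter, Finset.mem_product, Finset.mem_Icc, Finset.mem_univ, and_true]

theorem mem_cE (p : Cy l) : p ∈ cE l n ↔ 1 ≤ p.1 ∧ p.1 ≤ n := by
  simp only [cE, Finset.mem_product, Finset.mem_Icc, Finset.mem_univ, and_true]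

theorem pj_mem {q : Cy l} (hq : q ∈ fr l n) : pj l n q = some (some ⟨q, hq⟩) := by
  unfold pj; rw [dif_pos hq]

theorem pj_inj {p q : Cy l} (hq : q ∈ fr l n) (h : pj l n q = pj l n p) : p = q := by
  rw [pj_mem hq] at h
  unfold pj at h
  split_ifs at h with h1 h2
  · exact (congrArg Subtype.val (Option.some.inj (Option.some.inj h))).symm
  · exact absurd (Option.some.inj h) (by simp)

theorem io_fr (hF : Fit l n a K) {u : Sq} (hu : u ∈ box (K + 1)) : io l a u ∈ fr l n := by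
  obtain ⟨-, -, -, h1, h2⟩ := hF
  rw [mem_box] at hu
  rw [mem_fr]
  simp only [io]
  push_cast at hu
  refine ⟨⟨by omega, by omega⟩, fun _ => by omega, fun _ => by omega⟩

theorem ed_fst (v : Sq) (b i : Bool) : (ed v b i).1 = v.1 ∨ (ed v b i).1 = v.1 - 1 := by
  unfold ed
  split_ifs <;> simp

theorem io_cE (hF : Fit l n a K) {v : Sq} {b i : Bool} (hu : ed v b i ∈ box (K + 1)) :
    io l a v ∈ cE l n := by
  obtain ⟨-, -, -, h1, h2⟩ := hF
  rw [mem_box] at hu
  rw [mem_cE]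
  simp only [io]
  push_cast at hu
  have := ed_fst v b i
  constructor <;> omega

theorem ced_pre (ha : Even a) (v : Cy l) (b i : Bool) (u : Sq) (h : ced v b i = io l a u) :
    ∃ v', v = io l a v' ∧ ed v' b i = u := by
  obtain ⟨x, y⟩ := v
  have key : ∀ v' : Sq, (x, y) = io l a v' →
      (if b = cev ((x, y) : Cy l) then (if i then v' else (v'.1 - 1, v'.2 - 1))
        else (if i then (v'.1, v'.2 - 1) else (v'.1 - 1, v'.2))) = u →
      ∃ v', (x, y) = io l a v' ∧ ed v' b i = u := by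
    intro v' h1 h2
    refine ⟨v', h1, ?_⟩
    rw [h1, cev_io ha] at h2
    exact h2
  unfold ced at h
  by_cases hb : b = cev ((x, y) : Cy l) <;> cases i
  · rw [if_pos hb] at h
    simp only [io, Bool.false_eq_true, if_false, Prod.mk.injEq] at h
    refine key (u.1 + 1, u.2 + 1) ?_ (by simp [hb])
    simp only [io, Prod.mk.injEq]
    push_cast
    exact ⟨by linarith [h.1], by rw [← h.2]; ring⟩
  · rw [if_pos hb] at h
    exact key u (by simpa using h) (by simp [hb])
  · rw [if_neg hb] at h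
    simp only [io, Bool.false_eq_true, if_false, Prod.mk.injEq] at h
    refine key (u.1 + 1, u.2) ?_ (by simp [hb])
    simp only [io, Prod.mk.injEq]
    exact ⟨by linarith [h.1], h.2⟩
  · rw [if_neg hb] at h
    simp only [io, if_true, Prod.mk.injEq] at h
    refine key (u.1, u.2 + 1) ?_ (by simp [hb])
    simp only [io, Prod.mk.injEq]
    push_cast
    exact ⟨h.1, by rw [← h.2]; ring⟩

theorem nb_ed (v : Sq) (b i j : Bool) : Nb (ed v b i) (ed v (!b) j) := by
  unfold Nb ed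
  generalize decide (Even (v.1 + v.2)) = e
  cases b <;> cases e <;> cases i <;> cases j <;> simp

theorem ed_pos (v : Sq) : ed v (decide (Even (v.1 + v.2))) true = v := by simp [ed]

theorem ed_neg (v : Sq) (i : Bool) : ed v (!decide (Even (v.1 + v.2))) i =
    if i then (v.1, v.2 - 1) else (v.1 - 1, v.2) := by
  unfold ed
  rw [if_neg (by simp)]

theorem nb_pre {u u' : Sq} (h : Nb u u') : ∃ v b i j, u = ed v b i ∧ u' = ed v (!b) j := by
  obtain ⟨x, y⟩ := u
  obtain ⟨x', y'⟩ := u'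
  unfold Nb at h
  simp only at h
  have h4 : (x' = x + 1 ∧ y' = y) ∨ (x' = x - 1 ∧ y' = y) ∨ (x' = x ∧ y' = y + 1) ∨
      (x' = x ∧ y' = y - 1) := by
    rcases abs_cases (x - x') with h1 | h1 <;> rcases abs_cases (y - y') with h2 | h2 <;> omega
  rcases h4 with ⟨h1, h2⟩ | ⟨h1, h2⟩ | ⟨h1, h2⟩ | ⟨h1, h2⟩
  · refine ⟨(x', y'), !decide (Even (x' + y')), false, true, ?_, ?_⟩
    · rw [ed_neg (x', y')]; simp [h1, h2]
    · rw [Bool.not_not, ed_pos (x', y')]
  · refine ⟨(x, y), decide (Even (x + y)), true, false, ?_, ?_⟩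
    · rw [ed_pos (x, y)]
    · rw [ed_neg (x, y)]; simp [h1, h2]
  · refine ⟨(x', y'), !decide (Even (x' + y')), true, true, ?_, ?_⟩
    · rw [ed_neg (x', y')]; simp [h1, h2]
    · rw [Bool.not_not, ed_pos (x', y')]
  · refine ⟨(x, y), decide (Even (x + y)), true, true, ?_, ?_⟩
    · rw [ed_pos (x, y)]
    · rw [ed_neg (x, y)]; simp [h1, h2]

theorem e_io (ha : Even a) {v : Sq} (h : io l a v ∈ cE l n) (b i : Bool) :
    (cs l n).e ⟨_, h⟩ b i = em l n a (ed v b i) := by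
  change pj l n (ced (io l a v) b i) = _
  rw [ced_io ha]; rfl

theorem pb_io (ω : EC l n → Bool) {v : Sq} (h : io l a v ∈ cE l n) :
    pb l n a ω v = ω ⟨_, h⟩ := by
  unfold pb; rw [dif_pos h]

theorem pre (hF : Fit l n a K) {u : Sq} (hu : u ∈ box (K + 1)) (v : EC l n) (b i : Bool)
    (h : em l n a u = (cs l n).e v b i) :
    ∃ v', ∃ h' : io l a v' ∈ cE l n, v = ⟨_, h'⟩ ∧ ed v' b i = u := by
  have h1 : ced v.1 b i = io l a u := pj_inj (io_fr hF hu) h
  obtain ⟨v', h2, h3⟩ := ced_pre hF.2.1 v.1 b i u h1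
  exact ⟨v', h2 ▸ v.2, Subtype.ext h2, h3⟩

end CLiftx

open CLiftx in
theorem clift_pf : C_lift := by
  intro l n a K hF
  have ha : Even a := hF.2.1
  refine ⟨fun u hu z => ⟨?_, ?_⟩, fun ω u hu z => ⟨?_, ?_⟩, fun x hx y hy h => ?_,
    fun x hx => ?_, fun v hv => ?_⟩
  · rintro ⟨v, b, i, j, h1, h2⟩
    obtain ⟨v', h', rfl, rfl⟩ := pre hF hu v b i h1
    exact ⟨_, nb_ed v' b i j, h2.trans (e_io ha h' _ _)⟩
  · rintro ⟨u', h1, rfl⟩
    obtain ⟨v, b, i, j, rfl, rfl⟩ := nb_pre h1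
    have h' : io l a v ∈ cE l n := io_cE hF hu
    exact ⟨⟨_, h'⟩, b, i, j, (e_io ha h' _ _).symm, (e_io ha h' _ _).symm⟩
  · rintro ⟨v, i, h1, h2⟩
    obtain ⟨v', h', rfl, h3⟩ := pre hF hu v _ i h1
    refine ⟨_, ⟨v', i, ?_, rfl⟩, ?_⟩
    · rw [pb_io ω h', h3]
    · rw [pb_io ω h']; exact h2.trans (e_io ha h' _ _)
  · rintro ⟨u', ⟨v, i, h1, rfl⟩, rfl⟩
    have h' : io l a v ∈ cE l n := io_cE hF (h1 ▸ hu)
    rw [pb_io ω h'] at h1 ⊢
    exact ⟨⟨_, h'⟩, i, h1 ▸ (e_io ha h' _ _).symm, (e_io ha h' _ _).symm⟩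
  · have h1 : io l a y = io l a x := pj_inj (io_fr hF hx) h
    simp only [io, Prod.mk.injEq] at h1
    obtain ⟨h2, h3⟩ := h1
    rw [ZMod.intCast_eq_intCast_iff_dvd_sub] at h3
    rw [mem_box] at hx hy
    have h4 := hF.2.2.1
    have h5 : x.2 - y.2 = 0 := by
      refine Int.eq_zero_of_abs_lt_dvd h3 ?_
      rw [abs_lt]
      push_cast at hx hy ⊢
      constructor <;> omega
    exact Prod.ext (by omega) (by omega)
  · have h1 : em l n a x = some (some ⟨_, io_fr hF hx⟩) := pj_mem _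
    rw [h1]
    constructor <;> simp [cs]
  · have h' : io l a v ∈ cE l n :=
      io_cE (b := decide (Even (v.1 + v.2))) (i := true) hF (by rw [ed_pos]; exact hv)
    exact ⟨h', e_io ha h'⟩

end Vale.Agent.P167Q
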