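import Vale.Agent.P167Q.Stm

/-! P167Q: the neighbours of a face of the capped cylinder are linked. -/

open Finset Relation
open scoped Classical

namespace Vale.Agent.P167Q

open Vale.Agent.P152

namespace CLinkx

variable {l n : ℕ}

def R (l n : ℕ) (y : XC l n) : XC l n → XC l n → Prop :=
  ReflTransGen fun u u' => ∃ v b i j, (cs l n).e v b i = y ∧ u = (cs l n).e v (!b) j ∧
    u' = (cs l n).e v (!b) (!j)

theorem sym {y u w : XC l n} (h : R l n y u w) : R l n y w u := by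
  induction h with
  | refl => exact ReflTransGen.refl
  | tail _ k ih =>
    obtain ⟨v, b, i, j, h1, h2, h3⟩ := k
    exact ReflTransGen.head ⟨v, b, i, !j, h1, h3, by rw [Bool.not_not]; exact h2⟩ ih

theorem one (v : EC l n) (b i j j' : Bool) :
    R l n (pj l n (ced v.1 b i)) (pj l n (ced v.1 (!b) j)) (pj l n (ced v.1 (!b) j')) := by
  by_cases h : j' = j
  · rw [h]
    exact ReflTransGen.refl
  · rw [Bool.eq_not.2 h]
    exact ReflTransGen.single ⟨v, b, i, j, rfl, rfl, rfl⟩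

theorem mem_fr {p : Cy l} : p ∈ fr l n ↔
    (0 ≤ p.1 ∧ p.1 ≤ n) ∧ (cev p = true → 1 ≤ p.1) ∧ (cev p = false → p.1 < n) := by
  simp [fr]

theorem mem_cE {p : Cy l} : p ∈ cE l n ↔ 1 ≤ p.1 ∧ p.1 ≤ n := by simp [cE]

/-- up and down are linked -/
theorem ud (hn : 0 < n) {a : ℤ} (h0 : 0 ≤ a) (h1 : a ≤ n) (t : ZMod (2 * l + 2)) :
    R l n (pj l n (a, t)) (pj l n (a, t + 1)) (pj l n (a, t - 1)) := by
  by_cases h : 1 ≤ a
  · have e1 := one ⟨(a, t + 1), mem_cE.2 ⟨h, h1⟩⟩ (!cev ((a, t + 1) : Cy l)) true true false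
    have e2 := one ⟨(a, t), mem_cE.2 ⟨h, h1⟩⟩ (cev ((a, t) : Cy l)) true false true
    simp only [ced, Bool.not_not, if_true, Bool.not_eq_self, if_false, add_sub_cancel_right,
      Bool.false_eq_true] at e1 e2
    exact e1.trans e2
  · have e1 := one (n := n) ⟨(a + 1, t + 1), mem_cE.2 ⟨by omega, by omega⟩⟩
      (cev ((a + 1, t + 1) : Cy l)) false false true
    have e2 := one (n := n) ⟨(a + 1, t), mem_cE.2 ⟨by omega, by omega⟩⟩
      (!cev ((a + 1, t) : Cy l)) false true false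
    simp only [ced, Bool.not_not, if_true, Bool.not_eq_self, if_false, add_sub_cancel_right,
      Bool.false_eq_true] at e1 e2
    exact e1.trans e2

/-- every neighbour is linked to the face below an occurrence -/
theorem nbr (hn : 0 < n) {y x : XC l n} (h : (cs l n).inc y x) : ∃ (a : ℤ) (t : ZMod (2 * l + 2)),
    0 ≤ a ∧ a ≤ n ∧ pj l n (a, t) = y ∧ R l n y x (pj l n (a, t - 1)) := by
  obtain ⟨⟨⟨a, t⟩, hv⟩, b, i, j, rfl, rfl⟩ := h
  obtain ⟨h0, h1⟩ := mem_cE.1 hv
  have e1 := one ⟨_, hv⟩ b i j true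
  have e2 := one ⟨_, hv⟩ b i j false
  change ∃ a' t', _ ∧ _ ∧ _ = pj l n (ced (a, t) b i) ∧
    R l n (pj l n (ced (a, t) b i)) (pj l n (ced (a, t) (!b) j)) _
  generalize pj l n (ced (a, t) (!b) j) = x at e1 e2 ⊢
  by_cases hb : b = cev ((a, t) : Cy l)
  · subst hb
    cases i <;> simp only [ced, if_true, Bool.not_eq_self, if_false, Bool.false_eq_true] at e1 e2 ⊢
    · have := ud hn (a := a - 1) (by omega) (by omega) (t - 1)
      rw [sub_add_cancel] at this
      exact ⟨a - 1, t - 1, by omega, by omega, rfl, e2.trans this⟩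
    · exact ⟨a, t, by omega, h1, rfl, e1⟩
  · obtain rfl := Bool.eq_not.2 hb
    cases i <;> simp only [ced, Bool.not_not, if_true, Bool.not_eq_self, if_false,
      Bool.false_eq_true] at e1 e2 ⊢
    · exact ⟨a - 1, t, by omega, by omega, rfl, e2⟩
    · have := ud hn (a := a) (by omega) h1 (t - 1)
      rw [sub_add_cancel] at this
      exact ⟨a, t - 1, by omega, h1, rfl, e1.trans this⟩

theorem pj_same {a : ℤ} {t s : ZMod (2 * l + 2)} (h : (a, t) ∉ fr l n)
    (e : cev ((a, s) : Cy l) = cev ((a, t) : Cy l)) : pj l n (a, s) = pj l n (a, t) := by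
  have h' : (a, s) ∉ fr l n := by rwa [mem_fr, e, ← mem_fr (p := (a, t))]
  rw [pj, pj, dif_neg h, dif_neg h', e]

theorem pj_inj {p q : Cy l} (p0 : 0 ≤ p.1) (p1 : p.1 ≤ n) (q0 : 0 ≤ q.1) (q1 : q.1 ≤ n)
    (h : pj l n p = pj l n q) : p = q ∨ (p ∉ fr l n ∧ p.1 = q.1 ∧ cev p = cev q) := by
  unfold pj at h
  by_cases hp : p ∈ fr l n <;> by_cases hq : q ∈ fr l n
  · rw [dif_pos hp, dif_pos hq] at h
    exact Or.inl (congrArg Subtype.val (Option.some.inj (Option.some.inj h)))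
  · rw [dif_pos hp, dif_neg hq] at h
    split_ifs at h
    cases h
  · rw [dif_neg hp, dif_pos hq] at h
    split_ifs at h
    cases h
  · rw [dif_neg hp, dif_neg hq] at h
    refine Or.inr ⟨hp, ?_⟩
    rw [mem_fr] at hp hq
    cases e : cev p <;> cases e' : cev q <;> simp [e, e'] at h hp hq ⊢ <;> omega

theorem round (hn : 0 < n) {a : ℤ} (h0 : 0 ≤ a) (h1 : a ≤ n) {t : ZMod (2 * l + 2)}
    (h : (a, t) ∉ fr l n) (k : ℕ) : cev ((a, t + 2 * k) : Cy l) = cev ((a, t) : Cy l) ∧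
      R l n (pj l n (a, t)) (pj l n (a, t + 2 * k - 1)) (pj l n (a, t - 1)) := by
  induction k with
  | zero =>
    rw [Nat.cast_zero, mul_zero, add_zero]
    exact ⟨rfl, ReflTransGen.refl⟩
  | succ k ih =>
    have e : t + 2 * ((k + 1 : ℕ) : ZMod (2 * l + 2)) = t + 2 * k + 1 + 1 := by
      push_cast
      ring
    have := ud hn h0 h1 (t + 2 * (k : ZMod (2 * l + 2)))
    rw [pj_same h ih.1] at this
    rw [e, cev_y, cev_y, Bool.not_not, add_sub_cancel_right]
    exact ⟨ih.1, this.trans ih.2⟩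

end CLinkx

open CLinkx in
theorem clink_pf : C_link := by
  intro l n _ hn y x x' h h'
  obtain ⟨a, t, a0, a1, rfl, r⟩ := nbr hn h
  obtain ⟨a', t', b0, b1, e, r'⟩ := nbr hn h'
  refine r.trans (ReflTransGen.trans ?_ (sym r'))
  rcases pj_inj (p := (a, t)) (q := (a', t')) a0 a1 b0 b1 e.symm with k | ⟨k1, k2, k3⟩
  · obtain ⟨rfl, rfl⟩ := Prod.mk.inj k
    exact ReflTransGen.refl
  · obtain rfl : a = a' := k2
    obtain ⟨m, rfl⟩ : ∃ m : ℕ, t' = t + m := ⟨(t' - t).val, by simp⟩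
    have c := cev_add a 0 m t
    rw [add_zero, zero_add, Int.cast_natCast, ← k3] at c
    obtain ⟨k, rfl⟩ : Even m := by
      by_contra hm
      simp [hm] at c
    have := (round hn a0 a1 k1 k).2
    rw [two_mul (k : ZMod (2 * l + 2)), ← Nat.cast_add] at this
    exact sym this

end Vale.Agent.P167Q
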