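import Vale.Agent.P167Q.Stm
import Vale.Agent.P152.CChain
import Vale.Agent.P152.CTm
import Vale.Agent.P152.CPrim
import Vale.Agent.P152.CBas
import Vale.Agent.P152.CTor
import Vale.Agent.P152.CRedT

/-! P167Q: the limit of long cylinders does not depend on the closing weight. -/

open Filter Topology
open scoped Classical

namespace Vale.Agent.P167Q

open Vale.Agent.P152

namespace DChx

section gen

variable {S : Type} [Fintype S] [DecidableEq S] {A : Matrix S S ℝ} {Λ : ℝ} {α β : S → ℝ}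

theorem one_lim
    (h : ∀ s t, Tendsto (fun n : ℕ => (A ^ n) s t / Λ ^ n) atTop (𝓝 (α s * β t)))
    (e : S → S → ℝ) {a b : ℕ → ℕ} (ha : Tendsto a atTop atTop) :
    Tendsto (fun j => chn A e (a j + b j) (a j) 1 / Λ ^ (a j + b j)) atTop
      (𝓝 (∑ s, ∑ t, e s t * (α s * β t))) := by
  have h1 : cchD 0 fun _ : ℕ → S => (1 : ℝ) := fun _ _ _ => rfl
  have e1 : ∀ n a, chn A e n a 1 / Λ ^ n = ∑ s, ∑ t, e s t * ((A ^ n) s t / Λ ^ n) := fun n a => by
    have e2 : chn A e n a 1 = cchQ A e (0 + n) 0 fun _ => 1 := by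
      rw [zero_add]
      refine Finset.sum_congr rfl fun o _ => ?_
      rw [mul_comm (e _ _), mul_assoc]
      rfl
    rw [e2, cch_RR A (n := 0) (a := 0) h1 le_rfl, cchQ, cchP,
      ← (Equiv.funUnique (Fin 1) S).symm.sum_comp]
    simp [Finset.sum_div, mul_div_assoc]
  simp only [e1]
  exact tendsto_finsetSum _ fun s _ => tendsto_finsetSum _ fun t _ => Tendsto.const_mul _
    ((h s t).comp (tendsto_atTop_mono (fun j => Nat.le_add_right (a j) (b j)) ha))

theorem gen_lim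
    (h : ∀ s t, Tendsto (fun n : ℕ => (A ^ n) s t / Λ ^ n) atTop (𝓝 (α s * β t))) (hΛ : 0 < Λ)
    {G : (ℤ → S) → ℝ} {k : ℕ}
    (hG : ∀ o o' : ℤ → S, (∀ x : ℤ, |x| ≤ k → o x = o' x) → G o = G o') :
    ∃ μ : ℝ, ∀ (e : S → S → ℝ) (a b : ℕ → ℕ), Tendsto a atTop atTop → Tendsto b atTop atTop →
      Tendsto (fun j => chn A e (a j + b j) (a j) G / Λ ^ (a j + b j)) atTop
        (𝓝 ((∑ s, ∑ t, e s t * (α s * β t)) * μ)) := by
  have hg : cchD (2 * k) fun p : ℕ → S => G fun x => p (x + k).toNat := fun p q hpq =>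
    hG _ _ fun x hx => hpq _ (by have := abs_le.1 hx; omega)
  refine ⟨cchQ A (fun s' t' => β s' * α t') (2 * k) 0 (fun p => G fun x => p (x + k).toNat) /
    Λ ^ (2 * k), fun e a b ha hb => ?_⟩
  have t1 := cch_lim hΛ h hg e ((tendsto_sub_atTop_nat k).comp ha)
    ((tendsto_sub_atTop_nat k).comp hb)
  have t3 := t1.div_const (Λ ^ (2 * k))
  rw [mul_div_assoc] at t3
  refine t3.congr' ?_
  filter_upwards [ha.eventually_ge_atTop k, hb.eventually_ge_atTop k] with j h2 h3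
  have e3 := cch_eq A e (n := a j + b j) (a := a j - k) hG
  rw [Nat.sub_add_cancel h2] at e3
  simp only [Function.comp_apply]
  rw [e3, div_div _ _ (Λ ^ (2 * k)), ← pow_add,
    show 2 * k + (a j - k) + (b j - k) = a j + b j by omega,
    show a j - k + (b j - k) + 2 * k = a j + b j by omega]

end gen

theorem tm_nonneg {c : ℝ} (hc : 0 < c) (l : ℕ) (s t : Colc l) : 0 ≤ tm c l s t := by
  unfold tm
  split_ifs
  · refine Finset.prod_nonneg fun y _ => ?_
    unfold vwt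
    split_ifs
    · exact zero_le_one
    · exact hc.le
    · exact le_rfl
  · exact le_rfl

theorem chn_nonneg {c : ℝ} (hc : 0 < c) (l n a : ℕ) :
    0 ≤ chn (tm c l) (fun s t => uL s * uR t) n a 1 := by
  refine Finset.sum_nonneg fun o _ => mul_nonneg (mul_nonneg (mul_nonneg ?_ ?_)
    (Finset.prod_nonneg fun i _ => tm_nonneg hc l _ _)) zero_le_one
  · unfold uL
    split_ifs <;> norm_num
  · unfold uR
    split_ifs <;> norm_num

theorem key {c : ℝ} {l : ℕ} {Λ : ℝ} {α β : Colc l → ℝ} (p0 : 0 < Λ)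
    (p1 : ∀ s t, Tendsto (fun n : ℕ => (tm c l ^ n) s t / Λ ^ n) atTop (𝓝 (α s * β t)))
    (p2 : ∑ s, ∑ t, tm c l t s * (α s * β t) ≠ 0) {F : Ori → ℝ} (hF : IsLocal F) :
    ∃ μ : ℝ, Tendsto (fun M : ℕ => texp c (M + 1) (2 * l + 2) F) atTop (𝓝 μ) ∧
      ∀ e : Colc l → Colc l → ℝ, Tendsto (fun j : ℕ =>
        chn (tm c l) e (2 * j + 2 * j) (2 * j) (F ∘ ori) / Λ ^ (2 * j + 2 * j)) atTop
        (𝓝 ((∑ s, ∑ t, e s t * (α s * β t)) * μ)) := by
  obtain ⟨A, hA⟩ := hF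
  obtain ⟨μ, hm⟩ := gen_lim p1 p0 (G := F ∘ ori) (k := A.sup fun e => e.1.1.natAbs)
    fun o o' h => hA _ _ fun e he => by
      have := Finset.le_sup (f := fun e : Edge => e.1.1.natAbs) he
      show o e.1.1 _ = o' e.1.1 _
      rw [h e.1.1 (by rw [Int.abs_eq_natAbs]; exact_mod_cast this)]
  have t2 : Tendsto (fun j : ℕ => 2 * j) atTop atTop :=
    tendsto_atTop_mono (fun j => by show j ≤ 2 * j; omega) tendsto_id
  refine ⟨μ, ?_, fun e => hm e _ _ t2 t2⟩
  have t3 : Tendsto (fun M : ℕ => M / 2) atTop atTop :=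
    tendsto_atTop.2 fun b => (eventually_ge_atTop (2 * b)).mono fun M h => by omega
  have t4 : Tendsto (fun M : ℕ => M - M / 2) atTop atTop :=
    tendsto_atTop.2 fun b => (eventually_ge_atTop (2 * b)).mono fun M h => by omega
  have t5 := (hm (fun s t => tm c l t s) _ _ t3 t4).div
    (one_lim p1 (fun s t => tm c l t s) (b := fun M => M - M / 2) t3) p2
  rw [mul_div_cancel_left₀ _ p2] at t5
  refine t5.congr fun M => ?_
  rw [Pi.div_apply, div_div_div_cancel_right₀ (pow_pos p0 _).ne', tor_pf c l M (M / 2),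
    show M / 2 + (M - M / 2) = M by omega]

end DChx

open DChx in
theorem dch_pf : D_ch := by
  intro c l F₁ F₂ hc h1 h2 hr m hm e₁ e₂ K hK
  obtain ⟨Λ, α, β, p0, p1, p2, p3⟩ := tm_pf bas_pf prim_pf c l hc
  obtain ⟨μ₁, a1, b1⟩ := key p0 p1 p2 h1
  obtain ⟨μ₂, a2, b2⟩ := key p0 p1 p2 h2
  have e1 : μ₁ = m := tendsto_nhds_unique a1 hm
  have e2 : μ₂ = 0 := by
    refine tendsto_nhds_unique a2 (tendsto_const_nhds.congr fun M => ?_)
    have q1 := redT_pf.flip c (M + 1) (2 * l + 2) F₂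
    have q2 := redT_pf.smul c (M + 1) (2 * l + 2) (-1) F₂
    have q3 : F₂ ∘ rev = (-1 : ℝ) • F₂ := funext fun o => by simp [hr o]
    rw [q3, q2] at q1
    linarith
  have t2 : Tendsto (fun j : ℕ => 2 * j) atTop atTop :=
    tendsto_atTop_mono (fun j => by show j ≤ 2 * j; omega) tendsto_id
  have o0 := one_lim p1 (fun s t => uL s * uR t) (b := fun j => 2 * j) t2
  have o1 := one_lim p1 e₁ (b := fun j => 2 * j) t2
  have s0 : 0 ≤ ∑ s, ∑ t, uL s * uR t * (α s * β t) :=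
    ge_of_tendsto' o0 fun j => div_nonneg (chn_nonneg hc l _ _) (pow_pos p0 _).le
  have s1 : ∑ s, ∑ t, uL s * uR t * (α s * β t) ≤ K * ∑ s, ∑ t, e₁ s t * (α s * β t) := by
    refine le_of_tendsto_of_tendsto o0 (o1.const_mul K) (hK.mono fun j hj => ?_)
    beta_reduce
    rw [← mul_div_assoc]
    exact div_le_div_of_nonneg_right hj (pow_pos p0 _).le
  have s2 : ∑ s, ∑ t, e₁ s t * (α s * β t) ≠ 0 := fun h => by
    rw [h, mul_zero] at s1
    exact p3 (le_antisymm s1 s0)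
  have t5 := ((b1 e₁).sub (b2 e₂)).div o1 s2
  rw [e1, e2, mul_zero, sub_zero, mul_div_cancel_left₀ _ s2] at t5
  refine t5.congr fun j => ?_
  rw [Pi.div_apply, ← sub_div, div_div_div_cancel_right₀ (pow_pos p0 _).ne']

end Vale.Agent.P167Q
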