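import Vale.Agent.P167Q.Stm

/-! P167Q: only the loops round clusters that meet the box have a weight different from one. -/

open Finset Relation MeasureTheory
open scoped Classical

namespace Vale.Agent.P167Q

namespace FProdx

theorem const (hp : P_bas) {ω : Cf} {C : Set Sq} {R : ℕ} (h : ∀ x ∈ box R, x ∉ C) {x y : Sq}
    (hx : x ∈ box R) (hy : y ∈ box R) (hf : x ∈ fill ω C) : y ∈ fill ω C := by
  have k := hp.cnn R x hx y hy
  refine Or.inr ((hf.resolve_left (h x hx)).subset fun z hz => ReflTransGen.trans ?_ hz)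
  exact ReflTransGen.mono (fun u v huv => ⟨Or.inl huv.1, h v huv.2⟩) _ _ k

theorem zero (hp : P_bas) {ω : Cf} {C : Set Sq} {R : ℕ} {φ : Sq → ℝ} (h0 : ∑ x ∈ box R, φ x = 0)
    (h : ∀ x ∈ box R, x ∉ C) : ms φ R (fill ω C) = 0 := by
  by_cases k : ∃ x ∈ box R, x ∈ fill ω C
  · obtain ⟨x, hx, hf⟩ := k
    exact (sum_congr rfl fun y hy => if_pos (const hp h hx hy hf)).trans h0
  · exact sum_eq_zero fun y hy => if_neg fun hf => k ⟨y, hy, hf⟩

end FProdx

theorem fprod_pf (hp : P_bas) : F_prod := by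
  intro δ f φ R h0 hT ω
  have key : ∀ C ∈ loops ω, wt δ f ω C ≠ 1 → C ∈ (box R).image (clus ω) := by
    rintro C ⟨-, x, rfl⟩ hw
    by_contra hn
    refine hw ?_
    rw [wt, hT, FProdx.zero hp h0 fun y hy hc => hn (mem_image.2 ⟨y, hy, hp.cleq ω x y hc⟩),
      add_zero, Real.cos_pi_div_three]
    norm_num
  refine ⟨((box R).image (clus ω)).finite_toSet.subset fun C hC => key C hC.1 hC.2, ?_⟩
  rw [nest, finprod_mem_eq_prod_of_inter_mulSupport_eq _
    (t := ((box R).image (clus ω)).filter Set.Finite), prod_filter, nb]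
  · simp only [wt, hT]
  · ext C
    simp only [Set.mem_inter_iff, Function.mem_mulSupport, mem_coe, mem_filter]
    refine and_congr_left fun hw => ⟨fun hC => ⟨key C hC hw, hC.1⟩, fun hC => ⟨hC.2, ?_⟩⟩
    obtain ⟨x, -, hx⟩ := mem_image.1 hC.1
    exact ⟨x, hx.symm⟩

end Vale.Agent.P167Q
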