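import Vale.Agent.P167Q.HStm
import Vale.Agent.P145.RsAll

/-! P167Q: circuits in annuli have positive probability and occur infinitely often. -/

open Finset Filter Topology MeasureTheory
open scoped Classical BigOperators

namespace Vale.Agent.P167Q

open Vale.Agent.P152 (Vx Site v6 src)
open Vale.Agent.P145 (eo eo_symm)
open Vale.Agent.P153.RSW (Ev)
open Vale.Agent.P145.Rs (Hyp Sm sq mem_sq rc_fin)

namespace HCirx

theorem le_ev (he : H_ev) {S : Set Site} (hS : S.Finite) (A B : Set Site) :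
    Le (hS.toFinset ×ˢ (univ : Finset Bool)) (Ev e2 S A B) :=
  he.1 S A B _ fun _ hm => Finset.mem_product.2 ⟨hS.mem_toFinset.2 hm, Finset.mem_univ _⟩

theorem hyp (he : H_ev) (hs : H_sym) (hc : H_cr) {P : Set (Vx → Bool) → ℝ} (hP : PUs P) :
    Hyp e2 P (1 / 2) := by
  have key : ∀ g : Site → Site, Function.Injective g →
      ((∃ t : Site, g = fun v => (v.1 + t.1, v.2 + t.2)) ∨ (g = fun v => (-v.1, v.2)) ∨
        g = fun v => (v.2, v.1)) → ∀ S A B : Set Site, S.Finite →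
      P (Ev e2 (g ⁻¹' S) (g ⁻¹' A) (g ⁻¹' B)) = P (Ev e2 S A B) := by
    intro g hg h S A B hS
    rw [hP.loc _ _ (le_ev he (hS.preimage hg.injOn) _ _), hP.loc _ _ (le_ev he hS _ _)]
    exact hs g h S A B hS
  refine ⟨fun ω => eo_symm _, hP.nonneg, hP.univ, hP.add,
    fun A B hA hB => hP.fkg A B (he.2.1 A hA) (he.2.1 B hB),
    fun t => key _ (Sm.tr t).inj (Or.inl ⟨t, rfl⟩), key _ Sm.fl.inj (Or.inr (Or.inl rfl)),
    key _ Sm.sw.inj (Or.inr (Or.inr rfl)), fun n hn => ?_⟩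
  obtain ⟨k, rfl⟩ := Int.eq_ofNat_of_zero_le hn
  exact (hc k).trans (hP.loc _ _ (le_ev he (rc_fin 0 k 0 k) _ _)).ge

/-- all edges that start in a square -/
noncomputable def bo (r : ℤ) : Finset Vx :=
  (rc_fin (0 - r) (0 + r) (0 - r) (0 + r)).toFinset ×ˢ (univ : Finset Bool)

theorem mem_bo {r : ℤ} {m : Vx} : m ∈ bo r ↔ src m ∈ sq 0 r := by
  simp only [bo, Finset.mem_product, Set.Finite.mem_toFinset, Finset.mem_univ, and_true]
  rfl

theorem le_compl {ι : Type} {W : Finset ι} {A : Set (ι → Bool)} (h : Le W A) : Le W Aᶜ :=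
  fun ω ω' k => congrArg Not (h ω ω' k)

/-- the scales -/
def sc (n0 k : ℕ) : ℕ := (n0 + 72) * 4 ^ k

theorem sc_ge (n0 k : ℕ) : n0 + 72 ≤ sc n0 k :=
  Nat.le_mul_of_pos_right _ (by positivity)

theorem sc_lt (n0 : ℕ) {k M : ℕ} (h : k < M) : 3 * sc n0 k + 1 ≤ sc n0 M := by
  have h1 : 4 ^ (k + 1) ≤ 4 ^ M := Nat.pow_le_pow_right (by norm_num) h
  have h2 : (n0 + 72) * 4 ^ (k + 1) ≤ sc n0 M := Nat.mul_le_mul_left _ h1
  have h3 : (n0 + 72) * 4 ^ (k + 1) = 4 * sc n0 k := by rw [sc, pow_succ]; ring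
  have h4 := sc_ge n0 k
  omega

/-- no circuit at the first scales -/
def bad (n0 M : ℕ) : Set (Vx → Bool) := {ω | ∀ k < M, ω ∉ Ci (sc n0 k) (3 * sc n0 k)}

theorem le_bad (he : H_ev) (n0 M : ℕ) : Le (bo ((sc n0 M : ℤ) - 1)) (bad n0 M) := by
  intro ω ω' h
  refine propext (forall_congr' fun k => forall_congr' fun hk => not_congr (iff_of_eq ?_))
  refine he.2.2 _ _ _ (fun m hm _ => mem_bo.2 ?_) ω ω' h
  have := sc_lt n0 hk
  rw [mem_sq] at hm ⊢
  omega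

theorem bad_succ (n0 M : ℕ) :
    bad n0 (M + 1) = bad n0 M ∩ (Ci (sc n0 M) (3 * sc n0 M))ᶜ := by
  ext ω
  simp only [bad, Set.mem_ofPred_eq, Set.mem_inter_iff, Set.mem_compl_iff,
    Nat.forall_lt_succ_right]

theorem bad_le (hl : H_loc) (hf : H_fk) (he : H_ev) {c : ℝ} (hc1 : c ≤ 1)
    (hc : ∀ n : ℕ, 72 ≤ n → c ≤ (fair Vx).real (Ci n (3 * n))) (n0 M : ℕ) :
    (fair Vx).real (bad n0 M) ≤ (1 - c) ^ M := by
  induction M with
  | zero => rw [pow_zero]; exact measureReal_le_one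
  | succ M ih =>
    have hW : Le (bo ((3 * sc n0 M : ℕ) : ℤ) \ bo ((sc n0 M : ℤ) - 1))
        (Ci (sc n0 M) (3 * sc n0 M)) :=
      he.2.2 _ _ _ fun m h1 h2 => Finset.mem_sdiff.2 ⟨mem_bo.2 h1, fun k => h2 (mem_bo.1 k)⟩
    rw [bad_succ, (hf Vx _ _ _ _ (le_bad he n0 M) (le_compl hW)).2 Finset.disjoint_sdiff,
      probReal_compl_eq_one_sub ((hl Vx _).2 _ hW).1, pow_succ]
    have h1 := hc (sc n0 M) (le_trans (by omega) (sc_ge n0 M))
    exact mul_le_mul ih (by linarith) (sub_nonneg.2 measureReal_le_one)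
      (pow_nonneg (sub_nonneg.2 hc1) _)

end HCirx

open HCirx

theorem hcir_pf (hu : H_pu) (he : H_ev) (hs : H_sym) (hc : H_cr) : H_cir := by
  obtain ⟨P, hP⟩ := hu Vx
  have h := hyp he hs hc hP
  obtain ⟨c, hc0, hr⟩ := P145.Rs.rsw (1 / 2) 6 (by norm_num)
  refine ⟨c ^ 4, by positivity, fun n hn => ?_⟩
  have h1 := h.cir hc0.le (L := ((6 : ℕ) : ℤ) * n) (H := n) (n := (n : ℤ) - 1)
    (N := ((3 * n : ℕ) : ℤ)) (by omega) (by push_cast; omega) (by push_cast; omega)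
    (hr _ e2 P h n (by omega)) 0
  have hW : Le (bo ((3 * n : ℕ) : ℤ)) (Ci n (3 * n)) :=
    he.2.2 _ _ _ fun m h1 _ => mem_bo.2 h1
  exact h1.trans (hP.loc _ _ hW).le

theorem hio_pf (hl : H_loc) (hf : H_fk) (he : H_ev) (hc : H_cir) : H_io := by
  obtain ⟨c, hc0, hc⟩ := hc
  have hc1 : c ≤ 1 := (hc 72 le_rfl).trans measureReal_le_one
  refine ae_all_iff.2 fun n0 => ?_
  rw [ae_iff, ← measureReal_eq_zero_iff]
  refine le_antisymm ?_ measureReal_nonneg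
  refine ge_of_tendsto' (tendsto_pow_atTop_nhds_zero_of_lt_one (sub_nonneg.2 hc1)
    (sub_lt_self 1 hc0)) fun M => ?_
  refine le_trans (measureReal_mono ?_) (bad_le hl hf he hc1 hc n0 M)
  intro ω hω k _ hk
  have := sc_ge n0 k
  exact hω ⟨_, _, by omega, by omega, hk⟩

end Vale.Agent.P167Q
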