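import Vale.Agent.P167Q.HStm
import Vale.Agent.P145.RsEnc
import Vale.Agent.P145.PBox

/-! P167Q: circuits make the clusters finite. -/

open MeasureTheory
open scoped Classical

namespace Vale.Agent.P167Q

open Vale.Agent.P152 (Vx Site v6 fa fb dir)

namespace HDetx

/-- the white square of a plaquette -/
def tq (f : Site) : Sq := (f.1 + f.2 + 1, f.1 - f.2)

theorem tq_inj {f g : Site} (h : tq f = tq g) : f = g := by
  simp only [tq, Prod.mk.injEq] at h
  exact Prod.ext (by omega) (by omega)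

theorem tq_surj {x : Sq} (h : ¬Even (x.1 + x.2)) : ∃ f, tq f = x := by
  rw [Int.even_iff] at h
  refine ⟨((x.1 + x.2 - 1) / 2, (x.1 - x.2 - 1) / 2), Prod.ext ?_ ?_⟩ <;> simp only [tq] <;> omega

theorem tq_odd (f : Site) : ¬Even ((tq f).1 + (tq f).2) := by
  rw [Int.even_iff]
  simp only [tq]
  omega

theorem v6_bij : Function.Bijective v6 := by
  constructor
  · rintro ⟨⟨a, b⟩, s⟩ ⟨⟨c, d⟩, t⟩ h
    cases s <;> cases t <;> simp [v6] at h ⊢ <;> omega
  · rintro ⟨x, y⟩
    by_cases h : (x + y) % 2 = 0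
    · refine ⟨(((x + y - 2) / 2, (x - y) / 2), true), ?_⟩
      simp [v6]
      omega
    · refine ⟨(((x + y - 1) / 2, (x - y - 1) / 2), false), ?_⟩
      simp [v6]
      omega

theorem ed_black (v : Sq) (i : Bool) : Even ((ed v true i).1 + (ed v true i).2) := by
  unfold ed
  by_cases h : Even (v.1 + v.2) <;> cases i <;> simp [h] <;> rw [Int.even_iff] at * <;> omega

theorem ed_white (m : Vx) :
    ed (v6 m) false true = tq (fa m) ∧ ed (v6 m) false false = tq (fb m) := by
  obtain ⟨⟨a, b⟩, s⟩ := m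
  cases s
  · have h : ¬Even ((v6 ((a, b), false)).1 + (v6 ((a, b), false)).2) := by
      rw [Int.even_iff]
      simp [v6]
      omega
    unfold ed
    simp only [h, decide_false, if_true]
    simp [v6, tq, fa, fb, dir]
    omega
  · have h : Even ((v6 ((a, b), true)).1 + (v6 ((a, b), true)).2) := by
      rw [Int.even_iff]
      simp [v6]
      omega
    unfold ed
    simp only [h, decide_true]
    simp [v6, tq, fa, fb, dir]
    omega

theorem step {ω : Cf} {E : Finset Site} (hE : (P145.bd E : Set Vx) ⊆ {m | ω (v6 m) = true})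
    {f : Site} (hf : f ∈ E) {y : Sq} (h : Op ω (tq f) y) : ∃ g ∈ E, tq g = y := by
  obtain ⟨v, i, h1, h2⟩ := h
  obtain ⟨m, rfl⟩ := v6_bij.2 v
  cases k : ω (v6 m)
  · rw [k] at h1 h2
    have e : fa m ∈ E ↔ fb m ∈ E := by
      by_contra q
      have := hE (Finset.mem_coe.2 (P145.mem_bd.2 q))
      rw [Set.mem_ofPred_eq, k] at this
      exact Bool.false_ne_true this
    cases i
    · rw [(ed_white m).2] at h1
      exact ⟨fa m, e.2 (tq_inj h1 ▸ hf), ((ed_white m).1.symm.trans h2.symm)⟩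
    · rw [(ed_white m).1] at h1
      exact ⟨fb m, e.1 (tq_inj h1 ▸ hf), ((ed_white m).2.symm.trans h2.symm)⟩
  · rw [k] at h1
    exact absurd (h1 ▸ ed_black (v6 m) i) (tq_odd f)

theorem ed_shift (v : Sq) (b i : Bool) : ed (v - (1, 0)) (!b) i = ed v b i - (1, 0) := by
  obtain ⟨x, y⟩ := v
  have e : Even (x - 1 + y) ↔ ¬Even (x + y) := by
    rw [Int.even_iff, Int.even_iff]
    omega
  unfold ed
  by_cases h : Even (x + y) <;> cases b <;> cases i <;> simp [h, e]

theorem op_shift {ω : Cf} {x y : Sq} (h : Op ω x y) :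
    Op (fun v => xor true (ω (v + (1, 0)))) (x - (1, 0)) (y - (1, 0)) := by
  obtain ⟨v, i, h1, h2⟩ := h
  refine ⟨v - (1, 0), i, ?_, ?_⟩ <;> simp only [sub_add_cancel, Bool.true_xor, ed_shift]
  · rw [← h1]
  · rw [← h2]

theorem fin_shift {ω : Cf} {x : Sq}
    (h : (clus (fun v => xor true (ω (v + (1, 0)))) (x - (1, 0))).Finite) : (clus ω x).Finite := by
  refine (h.image fun y => y + (1, 0)).subset fun y hy => ⟨y - (1, 0), ?_, sub_add_cancel _ _⟩
  induction hy with
  | refl => exact Relation.ReflTransGen.refl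
  | tail _ k ih => exact Relation.ReflTransGen.tail ih (op_shift k)

end HDetx

theorem hdet_pf : H_det := by
  intro ω h x hx
  obtain ⟨f, rfl⟩ := HDetx.tq_surj hx
  obtain ⟨n, N, h1, h2, h3⟩ := h (f.1.natAbs + f.2.natAbs + 1)
  obtain ⟨E, e1, -, -, -, e2⟩ := P145.enc_cir P145.p_enc (O := {m | ω (v6 m) = true}) (z := 0) h2 h3
  have hf : f ∈ E := e1 (Finset.mem_coe.2 (P145.mem_sq'.2 (by
    simp only [Prod.fst_zero, Prod.snd_zero]
    omega)))
  refine (E.finite_toSet.image HDetx.tq).subset fun y hy => ?_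
  induction hy with
  | refl => exact ⟨f, hf, rfl⟩
  | tail _ k ih =>
    obtain ⟨g, hg, rfl⟩ := ih
    exact HDetx.step e2 hg k

theorem hfin_pf (hi : H_inv) (ho : H_io) (hd : H_det) : H_fin := by
  have h1 : ∀ᵐ ω ∂fair (ℤ × ℤ), ∀ x : Sq, ¬Even (x.1 + x.2) → (clus ω x).Finite := by
    filter_upwards [(hi _ _ (Equiv.ofBijective v6 HDetx.v6_bij) false).quasiMeasurePreserving.ae ho]
      with ω h
    refine hd ω ?_
    simpa only [Bool.false_xor, Equiv.ofBijective_apply] using h
  have h2 := (hi _ _ (Equiv.addRight ((1, 0) : ℤ × ℤ)) true).quasiMeasurePreserving.ae h1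
  rw [H_fin, perc_eq]
  filter_upwards [h1, h2] with ω a b x
  by_cases h : Even (x.1 + x.2)
  · refine HDetx.fin_shift (b (x - (1, 0)) ?_)
    rw [Int.even_iff] at h ⊢
    simp only [Prod.fst_sub, Prod.snd_sub]
    omega
  · exact a x h

end Vale.Agent.P167Q
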