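import Vale.Agent.P167Q.HStm
import Vale.Agent.P145.RiHex

/-! P167Q: locality of connection events, crossings of squares. -/

open MeasureTheory
open scoped Classical

namespace Vale.Agent.P167Q

open Vale.Agent.P152 (Vx Site src dir)
open Vale.Agent.P145 (eo du eo_mono r_hex)
open Vale.Agent.P153.RSW (Ev)

namespace HEvx

theorem imp {S A B : Set Site} {ω ω' : Vx → Bool} (h : ∀ m, src m ∈ S → ω m = ω' m)
    (k : ω ∈ Ev e2 S A B) : ω' ∈ Ev e2 S A B := by
  obtain ⟨a, ha, b, hb, hS, k⟩ := k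
  refine ⟨a, ha, b, hb, hS, Relation.ReflTransGen.mono (fun u v k => ?_) a b k⟩
  obtain ⟨m, hm, hj⟩ := k.2.1
  refine ⟨k.1, ⟨m, ?_, hj⟩, k.2.2⟩
  refine (h m ?_).symm.trans hm
  rcases hj with ⟨e, -⟩ | ⟨e, -⟩
  · exact e ▸ k.2.2.1
  · exact e ▸ k.2.2.2

theorem le_ev (S A B : Set Site) (W : Finset Vx) (hW : ∀ m, src m ∈ S → m ∈ W) :
    Le W (Ev e2 S A B) := fun _ _ h =>
  propext ⟨imp fun m hm => h m (hW m hm), imp fun m hm => (h m (hW m hm)).symm⟩

theorem le_inter {ι : Type} {W : Finset ι} {A B : Set (ι → Bool)} (hA : Le W A) (hB : Le W B) :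
    Le W (A ∩ B) := fun ω ω' h => congrArg₂ And (hA ω ω' h) (hB ω ω' h)

/-- the dual edge as a bijection -/
def duE : Vx ≃ Vx where
  toFun := du
  invFun m := (m.1 - dir (!m.2), !m.2)
  left_inv m := by simp [du]
  right_inv m := by simp [du]

end HEvx

open HEvx

theorem hev_pf : H_ev := by
  refine ⟨le_ev, fun A hA ω ω' h => hA ω ω' (eo_mono fun m hm => ?_), fun n N W hW => ?_⟩
  · exact Bool.le_iff_imp.1 (h m) hm
  · refine le_inter (le_inter (le_inter (le_ev _ _ _ _ fun m hm => ?_)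
      (le_ev _ _ _ _ fun m hm => ?_)) (le_ev _ _ _ _ fun m hm => ?_))
      (le_ev _ _ _ _ fun m hm => ?_)
    all_goals
      refine hW m ?_ ?_ <;>
      simp only [P145.Rs.mem_rc, P145.Rs.mem_sq, Prod.fst_zero, Prod.snd_zero] at hm ⊢ <;> omega

theorem hcr_pf (hi : H_inv) (hl : H_loc) (he : H_ev) (hs : H_sym) : H_cr := by
  intro n
  have hf := P145.Rs.rc_fin 0 n 0 n
  have mV : MeasurableSet (P145.Rs.VC e2 0 n 0 n) :=
    ((hl Vx (hf.toFinset ×ˢ Finset.univ)).2 _ (he.1 _ _ _ _ fun m hm =>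
      Finset.mem_product.2 ⟨hf.mem_toFinset.2 hm, Finset.mem_univ _⟩)).1
  have h1 := (hi Vx Vx duE true).measureReal_preimage mV.nullMeasurableSet
  have h2 := hs (fun v => (v.2, v.1)) (Or.inr (Or.inr rfl)) _ {v | v.1 = 0} {v | v.1 = n} hf
  have e : (fun v : Site => (v.2, v.1)) ⁻¹' P145.Rs.rc 0 n 0 n = P145.Rs.rc 0 n 0 n := by
    ext v
    simp only [Set.mem_preimage, P145.Rs.mem_rc]
    omega
  rw [e] at h2
  have h3 : (Set.univ : Set (Vx → Bool)) ⊆ P145.Rs.HC e2 0 n 0 n ∪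
      (fun (ω : Vx → Bool) (m : Vx) => xor true (ω (duE m))) ⁻¹' P145.Rs.VC e2 0 n 0 n := by
    intro ω _
    refine (r_hex {m | ω m = true} n).imp id fun k => ?_
    have e' : {m | du m ∉ {m | ω m = true}} = {m | xor true (ω (duE m)) = true} := by
      ext m
      simp [duE]
    rw [e'] at k
    exact k
  have h4 := (measureReal_mono (μ := fair Vx) h3).trans (measureReal_union_le _ _)
  rw [probReal_univ, h1] at h4
  have h5 : (fair Vx).real (P145.Rs.VC e2 0 n 0 n) = (fair Vx).real (P145.Rs.HC e2 0 n 0 n) := h2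
  linarith

end Vale.Agent.P167Q
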