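import Vale.Agent.P167Q.HStm

/-! P167Q: Harris inequality, independence and the finitely additive extension. -/

open Finset Filter Topology MeasureTheory
open scoped Classical BigOperators

namespace Vale.Agent.P167Q

namespace HFkx

theorem fkg_exp {E : Type} [Fintype E] [DecidableEq E] (f g : (E → Bool) → ℝ)
    (hf0 : ∀ η, 0 ≤ f η) (hg0 : ∀ η, 0 ≤ g η) (hf : Monotone f) (hg : Monotone g) :
    (𝔼 η, f η) * (𝔼 η, g η) ≤ 𝔼 η, f η * g η := by
  have h := fkg (μ := fun _ : E → Bool => (1 : ℝ)) (f := f) (g := g) (fun _ => zero_le_one)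
    hf0 hg0 hf hg (fun _ _ => le_rfl)
  simp only [one_mul, sum_const, card_univ, nsmul_eq_mul, mul_one] at h
  have hc : (0 : ℝ) < Fintype.card (E → Bool) := by exact_mod_cast Fintype.card_pos
  rw [Fintype.expect_eq_sum_div_card, Fintype.expect_eq_sum_div_card,
    Fintype.expect_eq_sum_div_card, div_mul_div_comm, div_le_div_iff₀ (by positivity) hc]
  nlinarith [mul_le_mul_of_nonneg_right h hc.le]

theorem le_mono {ι : Type} {V U : Finset ι} {A : Set (ι → Bool)} (h : Le V A) (hVU : V ⊆ U) :
    Le U A := fun ω ω' k => h ω ω' fun i hi => k i (hVU hi)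

theorem le_inter {ι : Type} {U : Finset ι} {A B : Set (ι → Bool)} (hA : Le U A) (hB : Le U B) :
    Le U (A ∩ B) := fun ω ω' k => by
  have h1 : (ω ∈ A) = (ω' ∈ A) := hA ω ω' k
  have h2 : (ω ∈ B) = (ω' ∈ B) := hB ω ω' k
  change (ω ∈ A ∧ ω ∈ B) = (ω' ∈ A ∧ ω' ∈ B)
  rw [h1, h2]

theorem xt_mono {ι : Type} (U : Finset ι) : Monotone (xt U) := by
  intro η η' h i
  unfold xt
  split_ifs with hi
  · exact h _
  · exact le_rfl

theorem ind_mono {ι : Type} (U : Finset ι) {A : Set (ι → Bool)} (hA : IsUpperSet A) :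
    Monotone fun η : U → Bool => if xt U η ∈ A then (1 : ℝ) else 0 := by
  intro η η' h
  dsimp only
  split_ifs with h1 h2
  · exact le_rfl
  · exact absurd (hA (xt_mono U h) h1) h2
  · exact zero_le_one
  · exact le_rfl

theorem ind_inter {α : Type} (A B : Set α) (x : α) (d : Decidable (x ∈ A ∩ B)) :
    (@ite ℝ (x ∈ A ∩ B) d 1 0) =
      (if x ∈ A then (1 : ℝ) else 0) * if x ∈ B then (1 : ℝ) else 0 := by
  by_cases h1 : x ∈ A <;> by_cases h2 : x ∈ B <;> simp [h1, h2]

/-- closing all coins outside `W` -/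
noncomputable def cut {ι : Type} (W : Finset ι) (ω : ι → Bool) : ι → Bool :=
  fun i => if i ∈ W then ω i else false

theorem cut_mono {ι : Type} (W : Finset ι) : Monotone (cut W) := by
  intro ω ω' h i
  unfold cut
  split_ifs with hi
  · exact h _
  · exact le_rfl

theorem le_cut {ι : Type} (W : Finset ι) (A : Set (ι → Bool)) : Le W (cut W ⁻¹' A) := by
  intro ω ω' k
  have h : cut W ω = cut W ω' := by
    funext i
    unfold cut
    split_ifs with hi
    · exact k i hi
    · rfl
  change (cut W ω ∈ A) = (cut W ω' ∈ A)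
  rw [h]

theorem cut_eq {ι : Type} {W W' : Finset ι} {A : Set (ι → Bool)} (h : Le W A) (hW : W ⊆ W') :
    cut W' ⁻¹' A = A := by
  ext ω
  have k : (cut W' ω ∈ A) = (ω ∈ A) := h _ _ fun i hi => by
    unfold cut
    rw [if_pos (hW hi)]
  exact k.to_iff

/-- an ultrafilter finer than the directed filter of finite sets -/
noncomputable def uf (ι : Type) : Ultrafilter (Finset ι) := Ultrafilter.of atTop

/-- the extension -/
noncomputable def PL {ι : Type} (A : Set (ι → Bool)) : ℝ :=
  limUnder (uf ι : Filter (Finset ι)) fun W => (fair ι).real (cut W ⁻¹' A)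

theorem lim {ι : Type} (A : Set (ι → Bool)) :
    Tendsto (fun W => (fair ι).real (cut W ⁻¹' A)) (uf ι) (𝓝 (PL A)) := by
  obtain ⟨x, -, hx⟩ := (isCompact_Icc (a := (0 : ℝ)) (b := 1)).ultrafilter_le_nhds
    ((uf ι).map fun W => (fair ι).real (cut W ⁻¹' A))
    (le_principal_iff.2 (mem_map.2 (Eventually.of_forall fun W =>
      ⟨measureReal_nonneg, measureReal_le_one⟩)))
  exact tendsto_nhds_limUnder ⟨x, hx⟩

end HFkx

open HFkx

theorem hfk_pf (h : H_loc) : H_fk := by
  intro ι V W A B hA hB
  have hA' : Le (V ∪ W) A := le_mono hA subset_union_left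
  have hB' : Le (V ∪ W) B := le_mono hB subset_union_right
  rw [((h ι (V ∪ W)).2 A hA').2, ((h ι (V ∪ W)).2 B hB').2,
    ((h ι (V ∪ W)).2 _ (le_inter hA' hB')).2]
  simp only [ind_inter]
  refine ⟨fun uA uB => ?_, fun hd => ?_⟩
  · refine fkg_exp _ _ (fun η => ?_) (fun η => ?_) (ind_mono _ uA) (ind_mono _ uB)
    · split_ifs
      · exact zero_le_one
      · exact le_rfl
    · split_ifs
      · exact zero_le_one
      · exact le_rfl
  · refine ind_pi (fun i : (V ∪ W : Finset ι) => i.1 ∈ V) _ _ (fun η η' k => ?_)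
      (fun η η' k => ?_)
    · have e : (xt (V ∪ W) η ∈ A) = (xt (V ∪ W) η' ∈ A) := hA _ _ fun i hi => by
        unfold xt
        rw [dif_pos (mem_union_left W hi), dif_pos (mem_union_left W hi)]
        exact k _ hi
      simp only [e]
    · have e : (xt (V ∪ W) η ∈ B) = (xt (V ∪ W) η' ∈ B) := hB _ _ fun i hi => by
        unfold xt
        rw [dif_pos (mem_union_right V hi), dif_pos (mem_union_right V hi)]
        exact k _ (disjoint_right.1 hd hi)
      simp only [e]

theorem hpu_pf (h : H_loc) (hf : H_fk) : H_pu := by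
  intro ι
  refine ⟨PL, fun A => ge_of_tendsto' (lim A) fun W => measureReal_nonneg, ?_,
    fun A B hAB => ?_, fun A B hA hB => ?_, fun W A hA => ?_⟩
  · refine tendsto_nhds_unique (lim _) (tendsto_const_nhds.congr fun W => ?_)
    simp
  · refine tendsto_nhds_unique (lim _) (((lim A).add (lim B)).congr fun W => ?_)
    rw [Set.preimage_union, measureReal_union (hAB.preimage _) ((h ι W).2 _ (le_cut W B)).1]
  · refine le_of_tendsto_of_tendsto' ((lim A).mul (lim B)) (lim _) fun W => ?_
    rw [Set.preimage_inter]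
    exact (hf ι W W _ _ (le_cut W A) (le_cut W B)).1 (hA.preimage (cut_mono W))
      (hB.preimage (cut_mono W))
  · refine tendsto_nhds_unique (lim _) (tendsto_const_nhds.congr' ?_)
    have k : ∀ᶠ W' in (uf ι : Filter (Finset ι)), W ≤ W' :=
      (Ultrafilter.of_le atTop) (eventually_ge_atTop W)
    exact k.mono fun W' hW => congrArg (fair ι).real (cut_eq hA hW).symm

end Vale.Agent.P167Q
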