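import Vale.Agent.P167Q.HStm

/-! P167Q: invariance and locality of independent fair coins. -/

open Finset Filter Topology MeasureTheory
open scoped Classical BigOperators

namespace Vale.Agent.P167Q

namespace HInvx

theorem coin_xor (b : Bool) : (PMF.uniformOfFintype Bool).toMeasure.map (xor b) =
    (PMF.uniformOfFintype Bool).toMeasure := by
  refine Measure.ext_of_singleton fun c => ?_
  rw [Measure.map_apply (measurable_of_finite _) (measurableSet_singleton _)]
  have : xor b ⁻¹' {c} = {xor b c} := by
    ext x
    cases b <;> cases c <;> cases x <;> simp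
  rw [this, PMF.toMeasure_apply_singleton _ _ (measurableSet_singleton _),
    PMF.toMeasure_apply_singleton _ _ (measurableSet_singleton _), PMF.uniformOfFintype_apply,
    PMF.uniformOfFintype_apply]

theorem fn {ι : Type} (W : Finset ι) (G : (ι → Bool) → ℝ) (hG : Lc W G) :
    Measurable G ∧ ∫ ω, G ω ∂fair ι = 𝔼 η : W → Bool, G (xt W η) := by
  have e : G = fun ω => G (xt W (W.restrict ω)) := by
    funext ω
    exact hG _ _ fun i hi => by simp [xt, hi]
  have m : Measurable fun η : W → Bool => G (xt W η) := measurable_of_finite _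
  refine ⟨by rw [e]; exact m.comp (Finset.measurable_restrict W), ?_⟩
  have e2 : ∫ ω, G (xt W (W.restrict ω)) ∂fair ι = _ :=
    integral_restrict_infinitePi (fun _ : ι => (PMF.uniformOfFintype Bool).toMeasure)
      (f := fun η : W → Bool => G (xt W η)) m.aestronglyMeasurable
  rw [show ∫ ω, G ω ∂fair ι = ∫ ω, G (xt W (W.restrict ω)) ∂fair ι by rw [← e], e2,
    integral_fintype (Integrable.of_finite), Fintype.expect_eq_sum_div_card, Finset.sum_div]
  refine Finset.sum_congr rfl fun η _ => ?_
  rw [Measure.real, Measure.pi_singleton]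
  simp only [PMF.toMeasure_apply_singleton _ _ (measurableSet_singleton _),
    PMF.uniformOfFintype_apply]
  simp [div_eq_inv_mul]

end HInvx

theorem hinv_pf : H_inv := by
  intro ι κ g b
  have m1 : Measurable fun (ω : κ → Bool) (i : ι) => ω (g i) := by fun_prop
  have m2 : Measurable fun (ω : ι → Bool) (i : ι) => xor b (ω i) :=
    measurable_pi_lambda _ fun i => (measurable_of_finite (xor b)).comp (measurable_pi_apply i)
  have h1 : MeasurePreserving (fun (ω : κ → Bool) (i : ι) => ω (g i)) (fair κ) (fair ι) := by
    refine ⟨m1, ?_⟩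
    have := Measure.infinitePi_map_piCongrLeft
      (fun _ : ι => (PMF.uniformOfFintype Bool).toMeasure) g.symm
    rw [fair, fair, ← this]
    congr 1
    funext ω i
    simp [MeasurableEquiv.coe_piCongrLeft, Equiv.piCongrLeft_apply_eq_cast]
  have h2 : MeasurePreserving (fun (ω : ι → Bool) (i : ι) => xor b (ω i)) (fair ι) (fair ι) := by
    refine ⟨m2, ?_⟩
    rw [fair, Measure.infinitePi_map_pi _ fun _ => measurable_of_finite (xor b)]
    simp only [HInvx.coin_xor]
  exact h2.comp h1

theorem hloc_pf : H_loc := by
  intro ι W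
  refine ⟨HInvx.fn W, fun A hA => ?_⟩
  obtain ⟨m, e⟩ := HInvx.fn W (fun ω => if ω ∈ A then (1 : ℝ) else 0) fun ω ω' h => by
    simp only [hA ω ω' h]
  have mA : MeasurableSet A := by
    have := m (measurableSet_singleton (1 : ℝ))
    rwa [show (fun ω => if ω ∈ A then (1 : ℝ) else 0) ⁻¹' {1} = A by ext ω; simp] at this
  refine ⟨mA, ?_⟩
  rw [← e, ← integral_indicator_one mA]
  exact integral_congr_ae (.of_forall fun ω => by simp [Set.indicator_apply])

end Vale.Agent.P167Q
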