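import Vale.Agent.P167Q.HStm

/-! P167Q: symmetry of crossing events under fair coins. -/

open MeasureTheory
open scoped Classical

namespace Vale.Agent.P167Q

open Vale.Agent.P152 (Vx Site src tgt dir)
open Vale.Agent.P145 (eo eo_adj)
open Vale.Agent.P153 (Conn)
open Vale.Agent.P153.RSW (Ev)

namespace HSymx

theorem fwd {g : Site → Site} {w w' : Vx → Bool} {S A B S' A' B' : Set Site}
    (h : ∀ a b, e2 w a b → e2 w' (g a) (g b)) (hS : ∀ a ∈ S, g a ∈ S') (hA : ∀ a ∈ A, g a ∈ A')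
    (hB : ∀ a ∈ B, g a ∈ B') (k : w ∈ Ev e2 S A B) : w' ∈ Ev e2 S' A' B' := by
  obtain ⟨a, ha, b, hb, hs, hc⟩ := k
  refine ⟨g a, hA a ha, g b, hB b hb, hS a hs, ?_⟩
  clear hb
  induction hc with
  | refl => exact Relation.ReflTransGen.refl
  | tail _ k ih =>
    exact ih.tail ⟨eo_adj (h _ _ k.2.1), h _ _ k.2.1, hS _ k.2.2.1, hS _ k.2.2.2⟩

theorem gen (hi : H_inv) (hl : H_loc) (he : H_ev) (g : Site ≃ Site) (ge : Vx ≃ Vx)
    (h : ∀ m a b, P145.Joi m (g a) (g b) ↔ P145.Joi (ge m) a b) (S A B : Set Site)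
    (hS : S.Finite) :
    (fair Vx).real (Ev e2 (g ⁻¹' S) (g ⁻¹' A) (g ⁻¹' B)) = (fair Vx).real (Ev e2 S A B) := by
  have k : ∀ (w : Vx → Bool) a b, e2 (fun m => xor false (w (ge m))) (g a) (g b) ↔ e2 w a b := by
    intro w a b
    simp only [Bool.false_xor]
    refine ⟨fun ⟨m, h1, h2⟩ => ⟨ge m, h1, (h m a b).1 h2⟩, fun ⟨m, h1, h2⟩ => ?_⟩
    obtain ⟨m, rfl⟩ := ge.surjective m
    exact ⟨m, h1, (h m a b).2 h2⟩
  have e : Ev e2 (g ⁻¹' S) (g ⁻¹' A) (g ⁻¹' B) =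
      (fun (w : Vx → Bool) m => xor false (w (ge m))) ⁻¹' Ev e2 S A B := by
    ext w
    refine ⟨fwd (g := g) (fun a b => (k w a b).2) (fun _ e => e) (fun _ e => e) fun _ e => e,
      fwd (g := g.symm) (fun a b e => (k w _ _).1 ?_) (fun _ e => by simpa using e)
        (fun _ e => by simpa using e) fun _ e => by simpa using e⟩
    rwa [g.apply_symm_apply, g.apply_symm_apply]
  have m := ((hl Vx (hS.toFinset ×ˢ Finset.univ)).2 _ (he.1 S A B _ fun m hm =>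
    Finset.mem_product.2 ⟨hS.mem_toFinset.2 hm, Finset.mem_univ _⟩)).1
  rw [e]
  exact (hi Vx Vx ge false).measureReal_preimage m.nullMeasurableSet

/-- reflection of the edges -/
def fl (m : Vx) : Vx := (if m.2 then (-m.1.1 - 1, m.1.2) else (-m.1.1, m.1.2), m.2)

theorem fl_inv : Function.Involutive fl := by
  rintro ⟨⟨x, y⟩, t⟩
  cases t <;> simp [fl]

/-- exchange of the coordinates of the edges -/
def sw (m : Vx) : Vx := ((m.1.2, m.1.1), !m.2)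

theorem sw_inv : Function.Involutive sw := by
  rintro ⟨⟨x, y⟩, t⟩
  simp [sw]

end HSymx

open HSymx in
theorem hsym_pf (hi : H_inv) (hl : H_loc) (he : H_ev) : H_sym := by
  rintro g (⟨t, rfl⟩ | rfl | rfl) S A B hS
  · refine gen hi hl he (Equiv.addRight t) ((Equiv.subRight t).prodCongr (Equiv.refl _)) ?_
      S A B hS
    rintro ⟨⟨x, y⟩, s⟩ ⟨a1, a2⟩ ⟨b1, b2⟩
    cases s <;> simp [P145.Joi, src, tgt, dir, Prod.ext_iff] <;> omega
  · refine gen hi hl he ((Equiv.neg ℤ).prodCongr (Equiv.refl _)) fl_inv.toPerm ?_ S A B hS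
    rintro ⟨⟨x, y⟩, s⟩ ⟨a1, a2⟩ ⟨b1, b2⟩
    cases s <;> simp [P145.Joi, fl, src, tgt, dir, Prod.ext_iff] <;> omega
  · refine gen hi hl he (Equiv.prodComm _ _) sw_inv.toPerm ?_ S A B hS
    rintro ⟨⟨x, y⟩, s⟩ ⟨a1, a2⟩ ⟨b1, b2⟩
    cases s <;> simp [P145.Joi, sw, src, tgt, dir, Prod.ext_iff] <;> omega

end Vale.Agent.P167Q
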