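import Vale.Agent.P167Q.Stm

/-! P167Q: the ratio of the cylinder partition functions converges. -/

open Finset Relation Filter Topology MeasureTheory
open scoped Classical BigOperators

namespace Vale.Agent.P167Q

open Vale.Agent.P152

namespace LChx

theorem e3 : 2 * Real.cos (Real.pi / 3 / 2) = Real.sqrt 3 := by
  rw [show Real.pi / 3 / 2 = Real.pi / 6 by ring, Real.cos_pi_div_six]
  ring

theorem den (ho : C_out) (ha : C_arr) (ht : C_th) {l n : ℕ} (a : ℕ) (hn : Even n) (h0 : 0 < n) :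
    chn (tm (Real.sqrt 3) l) (fun s t => uL s * uR t * Real.cos (Real.pi / 3 * th s t)) n a 1 =
      ∑ ω, (2 : ℝ) ^ (cs l n).N ω := by
  have o := ho l n hn h0
  have b := o.bkw (Real.pi / 3) 0
  rw [e3] at b
  rw [ha l n hn h0, ← sum_congr rfl fun ω _ => o.ovl.1 ω, ← b]
  refine sum_congr rfl fun h hh => ?_
  rw [(ht l n hn h0).1 h ((o.bas.mHs h).1 hh)]
  simp

theorem bnd (ho : C_out) (ha : C_arr) (ht : C_th) {l n : ℕ} (a : ℕ) (hn : Even n) (h0 : 0 < n) :
    chn (tm (Real.sqrt 3) l) (fun s t => uL s * uR t) n a 1 ≤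
      2 ^ (4 * l + 4) * ∑ ω, (2 : ℝ) ^ (cs l n).N ω := by
  have o := ho l n hn h0
  obtain ⟨B, b1, b2, b3⟩ := (ht l n hn h0).2
  have e := ha l n hn h0 (Real.sqrt 3) a (fun _ _ => 1) 1
  simp only [mul_one, Pi.one_apply] at e
  rw [e]
  exact (o.ovl.2 B b2 b3).trans (mul_le_mul_of_nonneg_right (pow_le_pow_right₀ one_le_two b1)
    (sum_nonneg fun _ _ => by positivity))

theorem num (ho : C_out) (ha : C_arr) (ht : C_th) (hh : C_ht) {l n a R : ℕ} (hn : Even n)
    (h1 : R + 1 ≤ a) (h2 : a + R + 1 ≤ n) {φ : Sq → ℝ} (hφ : ∑ x ∈ box R, φ x = 0) :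
    chn (tm (Real.sqrt 3) l) (fun s t => uL s * uR t * Real.cos (Real.pi / 3 * th s t)) n a
        ((fun o => Real.cos (XH φ R o)) ∘ ori) -
      chn (tm (Real.sqrt 3) l) (fun s t => uL s * uR t * Real.sin (Real.pi / 3 * th s t)) n a
        ((fun o => Real.sin (XH φ R o)) ∘ ori) =
      ∑ ω, (cs l n).Zw (Real.pi / 3) (push l n a φ R) ω := by
  have h0 : 0 < n := by omega
  have o := ho l n hn h0
  have b := o.bkw (Real.pi / 3) (push l n a φ R)
  rw [e3] at b
  rw [ha l n hn h0, ha l n hn h0, ← b, ← sum_sub_distrib]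
  refine sum_congr rfl fun h hh' => ?_
  have ad := (o.bas.mHs h).1 hh'
  rw [(ht l n hn h0).1 h ad, ← hh l n a R h1 h2 φ hφ h ad, Real.cos_add]
  simp only [Function.comp_apply]
  ring

end LChx

theorem lch_pf (ho : C_out) (ha : C_arr) (ht : C_th) (hh : C_ht) (hd : D_ch) (hx : X_loc) :
    L_ch := by
  intro l R φ hφ m hm
  obtain ⟨x1, x2⟩ := hx φ R
  have loc : ∀ g : ℝ → ℝ, IsLocal fun o => g (XH φ R o) := fun g => by
    obtain ⟨S, hS⟩ := x1
    exact ⟨S, fun o o' h => congrArg g (hS o o' h)⟩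
  have key := hd (Real.sqrt 3) l _ (fun o => Real.sin (XH φ R o)) (by positivity) (loc Real.cos)
    (loc Real.sin) (fun o => by rw [x2, Real.sin_neg]) m hm
    (fun s t => uL s * uR t * Real.cos (Real.pi / 3 * th s t))
    (fun s t => uL s * uR t * Real.sin (Real.pi / 3 * th s t)) (2 ^ (4 * l + 4)) (by
      filter_upwards [eventually_ge_atTop 1] with j hj
      rw [LChx.den ho ha ht _ ⟨_, rfl⟩ (by omega)]
      exact LChx.bnd ho ha ht _ ⟨_, rfl⟩ (by omega))
  refine key.congr' ?_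
  filter_upwards [eventually_ge_atTop (R + 1)] with j hj
  rw [LChx.den ho ha ht _ ⟨_, rfl⟩ (by omega),
    LChx.num ho ha ht hh ⟨_, rfl⟩ (by omega) (by omega) hφ, rat, expect_eq_sum_div_card,
    expect_eq_sum_div_card, div_div_div_cancel_right₀]
  exact Nat.cast_ne_zero.2 (card_pos.2 univ_nonempty).ne'

end Vale.Agent.P167Q
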