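import Vale.Agent.P167Q.Stm

open Finset Filter Topology MeasureTheory
open scoped Classical

namespace Vale.Agent.P167Q

open Vale.Agent.P152

namespace LLatx

theorem fit_ev (l : ℕ) (hl : 2 ≤ l) : ∀ᶠ j : ℕ in atTop, Fit l (2 * j + 2 * j) (2 * j) (l - 2) := by
  filter_upwards [eventually_ge_atTop l] with j hj
  refine ⟨⟨2 * j, rfl⟩, ⟨j, by ring⟩, by omega, by omega, by omega⟩

end LLatx

theorem llat_pf (h1 : L_ch) (h2 : L_one) (h3 : P_lim) (hx : X_loc) : L_lat := by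
  intro P hP φ R hφ
  have hF : IsLocal fun o => Real.cos (XH φ R o) := by
    obtain ⟨S, hS⟩ := (hx φ R).1
    exact ⟨S, fun o o' h => congrArg Real.cos (hS o o' h)⟩
  obtain ⟨a, ha, hlim⟩ := hP.2 _ hF
  set m : ℝ := ∫ o, Real.cos (XH φ R o) ∂P with hm
  have step1 : ∀ K l : ℕ, R ≤ K → K + 4 ≤ l →
      |a l - ∫ ω, GG φ R K ω ∂perc| ≤ 2 ^ (box R).card *
        (∫ ω, ai R K ω ∂perc +
          64 * 2 ^ (box (K + 2)).card * ∫ ω, ai (K + 2) (l - 2) ω ∂perc) := by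
    intro K l hK hl
    have t1 := h1 l R φ hφ (a l) (ha l)
    have t2 := (t1.sub_const (∫ ω, GG φ R K ω ∂perc)).abs
    refine le_of_tendsto t2 ?_
    filter_upwards [LLatx.fit_ev l (by omega)] with j hj
    exact h2 l _ _ R K (l - 2) φ hφ hj hK (by omega)
  have step2 : ∀ K : ℕ, R ≤ K →
      |m - ∫ ω, GG φ R K ω ∂perc| ≤ 2 ^ (box R).card * ∫ ω, ai R K ω ∂perc := by
    intro K hK
    have t1 := (hlim.sub_const (∫ ω, GG φ R K ω ∂perc)).abs
    have t2 : Tendsto (fun l : ℕ => ∫ ω, ai (K + 2) (l - 2) ω ∂perc) atTop (𝓝 0) :=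
      (h3 φ (K + 2)).2.comp (tendsto_sub_atTop_nat 2)
    have t3 := ((t2.const_mul ((64 : ℝ) * 2 ^ (box (K + 2)).card)).const_add
      (∫ ω, ai R K ω ∂perc)).const_mul ((2 : ℝ) ^ (box R).card)
    rw [mul_zero, add_zero] at t3
    refine le_of_tendsto_of_tendsto t1 t3 ?_
    filter_upwards [eventually_ge_atTop (K + 4)] with l hl
    exact step1 K l hK hl
  have t1 := (((h3 φ R).1).const_sub m).abs
  have t2 := ((h3 φ R).2).const_mul ((2 : ℝ) ^ (box R).card)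
  rw [mul_zero] at t2
  have t3 : |m - ∫ ω, nb φ R ω ∂perc| ≤ 0 := by
    refine le_of_tendsto_of_tendsto t1 t2 ?_
    filter_upwards [eventually_ge_atTop R] with K hK
    exact step2 K hK
  exact sub_eq_zero.mp (abs_nonpos_iff.mp t3)

end Vale.Agent.P167Q
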