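import Vale.Agent.P167Q.Stm

/-! P167Q: comparison of the ratio of partition functions with the local observable. -/

open Finset Relation Filter Topology MeasureTheory
open scoped Classical BigOperators

namespace Vale.Agent.P167Q

open Vale.Agent.P152

namespace LOnex

theorem num {P Gw Aw G A Z Y B β : ℝ} (hZ : 0 < Z) (hβ : 0 ≤ β) (h1 : |P - Gw| ≤ β * Aw)
    (h2 : |Gw - G * Z| ≤ 2 * β * Y) (h3 : |Aw - A * Z| ≤ 2 * 1 * Y) (h4 : Y ≤ B * Z) :
    |P / Z - G| ≤ β * (A + 4 * B) := by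
  have e : P / Z - G = (P - G * Z) / Z := by field_simp
  rw [e, abs_div, abs_of_pos hZ, div_le_iff₀ hZ]
  have h5 := abs_sub_le P Gw (G * Z)
  have h6 : Aw ≤ A * Z + 2 * Y := by linarith [le_abs_self (Aw - A * Z)]
  have h7 := mul_le_mul_of_nonneg_left h6 hβ
  have h8 := mul_le_mul_of_nonneg_left h4 hβ
  nlinarith

theorem fit_mono {l n a K K' : ℕ} (h : Fit l n a K') (hK : K ≤ K') : Fit l n a K :=
  ⟨h.1, h.2.1, by have := h.2.2.1; omega, by have := h.2.2.2.1; omega,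
    by have := h.2.2.2.2; omega⟩

theorem loc (hp : P_bas) {l n a K : ℕ} (hL : Lift l n a K) {G : Cf → ℝ} (hG : Dep (K + 1) G)
    (ω ω' : EC l n → Bool)
    (h : ∀ v, (∀ b i, (cs l n).e v b i ∈ im l n a (K + 2)) → ω v = ω' v) :
    G (pb l n a ω) = G (pb l n a ω') := by
  refine hG _ _ fun v hv => ?_
  obtain ⟨h0, h1⟩ := hL.vt v hv
  simp only [pb, dif_pos h0]
  refine h _ fun b i => ?_
  rw [h1]
  exact mem_image_of_mem _ ((hp.edb (K + 1) v b i).1 hv)

theorem abs_ex {ι : Type} [Fintype ι] (f g h : ι → ℝ) (β : ℝ) (H : ∀ ω, |f ω - g ω| ≤ β * h ω) :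
    |𝔼 ω, f ω - 𝔼 ω, g ω| ≤ β * 𝔼 ω, h ω := by
  rw [← expect_sub_distrib, mul_expect]
  exact (abs_expect_le _ _).trans (expect_le_expect fun ω _ => H ω)

end LOnex

open LOnex in
theorem lone_pf (ho : C_out) (hl : C_lift) (he : C_ext) (hc : C_cmp) (hp : P_bas) (h1 : P_loc)
    (h2 : M_avg) : L_one := by
  intro l n a R K K' φ hφ hF hR hK
  have hFK : Fit l n a K := fit_mono hF (by omega)
  have hO := ho l n hF.1 (by have := hF.2.2.2.2; omega)
  have hL := hl l n a K hFK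
  obtain ⟨d1, d2, d3⟩ := h1 φ R K hR
  obtain ⟨-, d4, -⟩ := h1 φ (K + 2) K' hK
  have hβ : (0 : ℝ) ≤ 2 ^ (box R).card := by positivity
  have t1 := hO.tv (im l n a (K + 2)) (fun ω => GG φ R K (pb l n a ω)) (2 ^ (box R).card)
    (fun ω => by
      unfold GG
      split_ifs
      · exact d3 _
      · simp) (loc hp hL d1)
  have t2 := hO.tv (im l n a (K + 2)) (fun ω => ai R K (pb l n a ω)) 1
    (fun ω => by
      unfold ai
      split_ifs <;> simp) (loc hp hL d2)
  have t3 := hO.stop (im l n a (K + 2)) ((he l n a K' hF).2 (K + 2) (by omega))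
  rw [h2.2 l n a K hFK _ d1] at t1
  rw [h2.2 l n a K hFK _ d2] at t2
  have hZ : 0 < 𝔼 ω, (2 : ℝ) ^ (cs l n).N ω := expect_pos (fun ω _ => by positivity) univ_nonempty
  have t0 := abs_ex (fun ω => (cs l n).Zw (Real.pi / 3) (push l n a φ R) ω)
    (fun ω => GG φ R K (pb l n a ω) * 2 ^ (cs l n).N ω)
    (fun ω => ai R K (pb l n a ω) * 2 ^ (cs l n).N ω) (2 ^ (box R).card) fun ω => by
      obtain ⟨c1, c2⟩ := (hc l n a R K hFK hR ω).2 φ hφ
      unfold GG ai
      by_cases h : NoArm R K (pb l n a ω)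
      · rw [if_pos h, if_pos h, c2 h, mul_comm]
        simp
      · rw [if_neg h, if_neg h, zero_mul, sub_zero, one_mul]
        exact c1
  have t4 : (𝔼 ω, if (cs l n).Yev (im l n a (K + 2)) ω then (1 : ℝ) else 0) ≤
      ∫ ω, ai (K + 2) K' ω ∂perc := by
    rw [← h2.2 l n a K' hF _ d4]
    refine expect_le_expect fun ω _ => ?_
    unfold ai
    by_cases h : NoArm (K + 2) K' (pb l n a ω)
    · rw [if_pos h, if_neg ((hc l n a (K + 2) K' hF hK ω).1 h)]
    · rw [if_neg h]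
      split_ifs <;> simp
  have t5 : (0 : ℝ) ≤ 𝔼 ω, if (cs l n).Yev (im l n a (K + 2)) ω then (1 : ℝ) else 0 :=
    expect_nonneg fun ω _ => by split_ifs <;> simp
  have t6 : (2 : ℝ) ^ (im l n a (K + 2)).card ≤ 2 ^ (box (K + 2)).card :=
    pow_le_pow_right₀ (by norm_num) card_image_le
  have t7 : 16 * 2 ^ (im l n a (K + 2)).card *
      (𝔼 ω, if (cs l n).Yev (im l n a (K + 2)) ω then (1 : ℝ) else 0) ≤
      16 * 2 ^ (box (K + 2)).card * ∫ ω, ai (K + 2) K' ω ∂perc :=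
    mul_le_mul (by linarith) t4 t5 (by positivity)
  refine (num hZ hβ t0 t1 t2 (t3.trans (mul_le_mul_of_nonneg_right t7 hZ.le))).trans (le_of_eq ?_)
  ring

end Vale.Agent.P167Q
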