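import Vale.Agent.P167Q.HStm

/-! P167Q: finite averages on the cylinder are integrals in the plane. -/

open Finset Filter Topology MeasureTheory
open scoped Classical BigOperators

namespace Vale.Agent.P167Q

open Vale.Agent.P152

namespace MAvgx

theorem exp_comp {A B : Type} {iA : Fintype (A → Bool)} {iB : Fintype (B → Bool)} {j : A → B}
    (hj : Function.Injective j) (F : (A → Bool) → ℝ) :
    𝔼 w : B → Bool, F (w ∘ j) = 𝔼 η : A → Bool, F η := by
  let m : (B → Bool) × (A → Bool) → (B → Bool) × (A → Bool) := fun p =>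
    (Function.extend j p.2 p.1, p.1 ∘ j)
  have hm : Function.Involutive m := fun p => by
    refine Prod.ext (funext fun b => ?_) (funext fun a => hj.extend_apply _ _ a)
    by_cases h : ∃ a, j a = b
    · obtain ⟨a, rfl⟩ := h
      exact hj.extend_apply _ _ a
    · exact (Function.extend_apply' _ _ b h).trans (Function.extend_apply' _ _ b h)
  have h1 : 𝔼 w : B → Bool, F (w ∘ j) = 𝔼 p : (B → Bool) × (A → Bool), F (p.1 ∘ j) := by
    rw [← univ_product_univ, expect_product]
    simp
  have h2 : 𝔼 η : A → Bool, F η = 𝔼 p : (B → Bool) × (A → Bool), F p.2 := by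
    rw [← univ_product_univ, expect_product]
    simp
  rw [h1, h2]
  exact Fintype.expect_equiv hm.toPerm _ _ fun p => rfl

theorem box_mono {K : ℕ} {x : Sq} (h : x ∈ box (K + 1)) : x ∈ box (K + 2) := by
  rw [mem_box] at h ⊢
  push_cast at h ⊢
  omega

end MAvgx

theorem mavg_pf (h : H_loc) (hl : C_lift) : M_avg := by
  refine ⟨fun K G hG => ((h _ (box K)).1 G hG).1, fun l n a K hF G hG => ?_⟩
  have L := hl l n a K hF
  let j : box (K + 1) → EC l n := fun v => ⟨io l a v.1, (L.vt v.1 v.2).choose⟩
  have hj : Function.Injective j := fun v v' e => by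
    have e1 : io l a v.1 = io l a v'.1 := congrArg Subtype.val e
    refine Subtype.ext (L.inj _ v.2 _ (MAvgx.box_mono v'.2) ?_)
    unfold em
    rw [e1]
  rw [perc_eq, ((h _ (box (K + 1))).1 G hG).2,
    ← MAvgx.exp_comp hj fun η => G (xt (box (K + 1)) η)]
  refine expect_congr rfl fun w _ => hG _ _ fun v hv => ?_
  unfold pb xt
  rw [dif_pos hv, dif_pos (L.vt v hv).choose]
  rfl

end Vale.Agent.P167Q
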