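import Vale.Agent.P167Q.Stm

/-! P167Q: elementary facts in the plane. -/

open Finset Relation
open scoped Classical

namespace Vale.Agent.P167Q

namespace PBasx

theorem nb_iff {x y : Sq} : Nb x y ↔ (x.1 - y.1).natAbs + (x.2 - y.2).natAbs = 1 := by
  simp only [Nb, Int.abs_eq_natAbs]
  omega

theorem ed_near (v : Sq) (b i : Bool) : v.1 - 1 ≤ (ed v b i).1 ∧ (ed v b i).1 ≤ v.1 ∧
    v.2 - 1 ≤ (ed v b i).2 ∧ (ed v b i).2 ≤ v.2 := by
  unfold ed
  split_ifs <;> refine ⟨?_, ?_, ?_, ?_⟩ <;> simp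

theorem ops (ω : Cf) (x y : Sq) (h : Op ω x y) : Op ω y x := by
  obtain ⟨v, i, h1, h2⟩ := h
  exact ⟨v, !i, h2, by rw [Bool.not_not]; exact h1⟩

theorem rts (ω : Cf) {x y : Sq} (h : ReflTransGen (Op ω) x y) : ReflTransGen (Op ω) y x := by
  induction h with
  | refl => exact .refl
  | tail _ h2 ih => exact .head (ops ω _ _ h2) ih

theorem mono (R K : ℕ) (h : R ≤ K) : box R ⊆ box K := fun x hx => by
  rw [mem_box] at hx ⊢
  omega

theorem walk (R : ℕ) (y : Sq) (hy : y ∈ box R) (m : ℕ) : ∀ x ∈ box R,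
    (x.1 - y.1).natAbs + (x.2 - y.2).natAbs = m →
    ReflTransGen (fun u v => Nb u v ∧ v ∈ box R) x y := by
  induction m with
  | zero =>
    intro x _ h
    rw [show x = y from Prod.ext (by omega) (by omega)]
  | succ m ih =>
    intro x hx h
    have key : ∃ z : Sq, Nb x z ∧ z ∈ box R ∧ (z.1 - y.1).natAbs + (z.2 - y.2).natAbs = m := by
      simp only [nb_iff, mem_box] at hx hy ⊢
      rcases lt_trichotomy x.1 y.1 with h1 | h1 | h1
      · exact ⟨(x.1 + 1, x.2), by dsimp only; omega⟩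
      · rcases lt_or_ge x.2 y.2 with h2 | h2
        · exact ⟨(x.1, x.2 + 1), by dsimp only; omega⟩
        · exact ⟨(x.1, x.2 - 1), by dsimp only; omega⟩
      · exact ⟨(x.1 - 1, x.2), by dsimp only; omega⟩
    obtain ⟨z, h1, h2, h3⟩ := key
    exact .head ⟨h1, h2⟩ (ih z h2 h3)

theorem fin (T : Set Sq) (hT : T.Finite) : ∃ K, T ⊆ box K := by
  obtain ⟨K, hK⟩ := (hT.image fun x : Sq => x.1.natAbs + x.2.natAbs).bddAbove
  refine ⟨K, fun x hx => ?_⟩
  have h : x.1.natAbs + x.2.natAbs ≤ K := hK ⟨x, hx, rfl⟩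
  rw [mem_coe, mem_box]
  omega

theorem away (K : ℕ) (z : Sq) (hz : z ∉ box K) : ∃ z', Nb z z' ∧ z' ∉ box (K + 1) := by
  simp only [nb_iff, mem_box] at hz ⊢
  by_cases h1 : z.1 < -(K : ℤ)
  · exact ⟨(z.1 - 1, z.2), by dsimp only; omega⟩
  by_cases h2 : (K : ℤ) < z.1
  · exact ⟨(z.1 + 1, z.2), by dsimp only; omega⟩
  by_cases h3 : z.2 < -(K : ℤ)
  · exact ⟨(z.1, z.2 - 1), by dsimp only; omega⟩
  · exact ⟨(z.1, z.2 + 1), by dsimp only; omega⟩

theorem fil (ω : Cf) (C : Set Sq) (K : ℕ) (x : Sq) (hC : C ⊆ box K) :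
    x ∈ fill ω C ↔ x ∈ C ∨ ¬Esc ω C K x := by
  refine or_congr_right ⟨fun hf he => ?_, fun he => ?_⟩
  · obtain ⟨y, hy, hp⟩ := he
    obtain ⟨K', hK'⟩ := fin _ hf
    have key : ∀ m : ℕ, ∃ z, z ∉ box (K + m) ∧
        ReflTransGen (fun u v => (Nb u v ∨ Op ω u v) ∧ v ∉ C) x z := by
      intro m
      induction m with
      | zero => exact ⟨y, hy, ReflTransGen.mono (fun u v h => ⟨h.1, h.2.1⟩) _ _ hp⟩
      | succ m ih =>
        obtain ⟨z, h1, h2⟩ := ih
        obtain ⟨z', h3, h4⟩ := away _ z h1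
        exact ⟨z', h4, h2.tail ⟨.inl h3, fun h => h4 (mono K _ (by omega) (hC h))⟩⟩
    obtain ⟨z, h1, h2⟩ := key K'
    exact h1 (mono K' _ (by omega) (hK' h2))
  · refine (box K).finite_toSet.subset fun y hy => ?_
    have key : ReflTransGen (fun u v => (Nb u v ∨ Op ω u v) ∧ v ∉ C ∧ u ∈ box K) x y := by
      induction hy with
      | refl => exact .refl
      | tail _ h2 ih => exact ih.tail ⟨h2.1, h2.2, by_contra fun h => he ⟨_, h, ih⟩⟩
    exact by_contra fun h => he ⟨y, h, key⟩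

end PBasx

open PBasx

theorem pbas_pf : P_bas where
  nbs x y h := by
    rw [nb_iff] at h ⊢
    omega
  ops := ops
  self _ _ := ReflTransGen.refl
  cleq ω x y h := Set.ext fun _ => ⟨fun h' => ReflTransGen.trans h h',
    fun h' => (rts ω h).trans h'⟩
  nbb K x y h hx := by
    rw [nb_iff] at h
    rw [mem_box] at hx ⊢
    omega
  opb K ω x y h hx := by
    obtain ⟨v, i, rfl, rfl⟩ := h
    have h1 := ed_near v (ω v) i
    have h2 := ed_near v (ω v) (!i)
    rw [mem_box] at hx ⊢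
    omega
  edb K v b i := by
    have h1 := ed_near v b i
    simp only [mem_box]
    omega
  mono := mono
  cnn R x hx y hy := walk R y hy _ x hx rfl
  fin := fin
  fil := fil

end Vale.Agent.P167Q
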