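import Vale.Agent.P167Q.Stm

open Finset Relation Filter Topology MeasureTheory
open scoped Classical

namespace Vale.Agent.P167Q

namespace PLocx

lemma op_congr (hp : P_bas) {K : ℕ} {ω ω' : Cf} (h : ∀ v ∈ box (K + 1), ω v = ω' v)
    {u y : Sq} (hu : u ∈ box K) (ho : Op ω u y) : Op ω' u y := by
  obtain ⟨v, i, h1, h2⟩ := ho
  have hv : v ∈ box (K + 1) := (hp.edb K v (ω v) i).2 (h1 ▸ hu)
  rw [h v hv] at h1 h2
  exact ⟨v, i, h1, h2⟩

lemma clus_congr (hp : P_bas) {K : ℕ} {ω ω' : Cf} (h : ∀ v ∈ box (K + 1), ω v = ω' v)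
    {x : Sq} (hx : clus ω x ⊆ box K) : clus ω' x = clus ω x := by
  have h' : ∀ v ∈ box (K + 1), ω' v = ω v := fun v hv => (h v hv).symm
  ext y
  constructor
  · intro hy
    have hy' : ReflTransGen (Op ω') x y := hy
    clear hy
    induction hy' with
    | refl => exact hp.self ω x
    | tail _ hbc ih =>
      have hb := hx ih
      exact ReflTransGen.tail ih (op_congr hp h' (Finset.mem_coe.mp hb) hbc)
  · intro hy
    have hy' : ReflTransGen (Op ω) x y := hy
    clear hy
    induction hy' with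
    | refl => exact hp.self ω' x
    | tail hab hbc ih =>
      have hb := hx (show _ ∈ clus ω x from hab)
      exact ReflTransGen.tail ih (op_congr hp h (Finset.mem_coe.mp hb) hbc)

lemma noArm_congr (hp : P_bas) {R K : ℕ} {ω ω' : Cf} (h : ∀ v ∈ box (K + 1), ω v = ω' v)
    (hn : NoArm R K ω) : NoArm R K ω' := by
  intro x hx
  rw [clus_congr hp h (hn x hx)]
  exact hn x hx

lemma esc_congr (hp : P_bas) {K : ℕ} {ω ω' : Cf} (h : ∀ v ∈ box (K + 1), ω v = ω' v)
    {C : Set Sq} {x : Sq} (he : Esc ω C K x) : Esc ω' C K x := by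
  obtain ⟨y, hy, hr⟩ := he
  refine ⟨y, hy, ReflTransGen.mono ?_ x y hr⟩
  rintro u v ⟨h1, h2, h3⟩
  exact ⟨h1.imp id (op_congr hp h h3), h2, h3⟩

lemma fill_congr (hp : P_bas) {K : ℕ} {ω ω' : Cf} (h : ∀ v ∈ box (K + 1), ω v = ω' v)
    {C : Set Sq} (hC : C ⊆ box K) : fill ω C = fill ω' C := by
  have h' : ∀ v ∈ box (K + 1), ω' v = ω v := fun v hv => (h v hv).symm
  ext x
  rw [hp.fil ω C K x hC, hp.fil ω' C K x hC]
  have : Esc ω C K x ↔ Esc ω' C K x := ⟨esc_congr hp h, esc_congr hp h'⟩
  rw [this]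

lemma nb_congr (hp : P_bas) (φ : Sq → ℝ) {R K : ℕ} {ω ω' : Cf}
    (h : ∀ v ∈ box (K + 1), ω v = ω' v) (hn : NoArm R K ω) : nb φ R ω = nb φ R ω' := by
  unfold nb
  have e : (box R).image (clus ω) = (box R).image (clus ω') :=
    Finset.image_congr fun x hx => (clus_congr hp h (hn x (Finset.mem_coe.mp hx))).symm
  rw [← e]
  refine Finset.prod_congr rfl fun C hC => ?_
  obtain ⟨x, hx, rfl⟩ := Finset.mem_image.mp hC
  rw [fill_congr hp h (hn x hx)]

lemma nb_le (φ : Sq → ℝ) (R : ℕ) (ω : Cf) : |nb φ R ω| ≤ 2 ^ (box R).card := by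
  unfold nb
  rw [Finset.abs_prod]
  calc _ ≤ ∏ _C ∈ (box R).image (clus ω), (2 : ℝ) := by
        refine Finset.prod_le_prod (fun _ _ => abs_nonneg _) fun C _ => ?_
        split_ifs
        · rw [abs_mul, abs_two]
          have := Real.abs_cos_le_one (Real.pi / 3 + ms φ R (fill ω C))
          linarith
        · norm_num
    _ = 2 ^ ((box R).image (clus ω)).card := Finset.prod_const _
    _ ≤ 2 ^ (box R).card := pow_le_pow_right₀ (by norm_num) Finset.card_image_le

lemma ev_noArm (hp : P_bas) (R : ℕ) {ω : Cf} (hω : ∀ x, (clus ω x).Finite) :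
    ∀ᶠ K in atTop, NoArm R K ω := by
  have hf : (⋃ x ∈ (box R : Set Sq), clus ω x).Finite :=
    (box R).finite_toSet.biUnion fun x _ => hω x
  obtain ⟨K₀, hK⟩ := hp.fin _ hf
  filter_upwards [eventually_ge_atTop K₀] with K hKK
  intro x hx y hy
  have h1 : y ∈ (box K₀ : Set Sq) := hK (Set.mem_biUnion (Finset.mem_coe.mpr hx) hy)
  exact Finset.mem_coe.mpr (hp.mono K₀ K hKK (Finset.mem_coe.mp h1))

end PLocx

open PLocx in
theorem ploc_pf (hp : P_bas) : P_loc := by
  intro φ R K _
  refine ⟨fun ω ω' h => ?_, fun ω ω' h => ?_, fun ω => nb_le φ R ω⟩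
  · have h' : ∀ v ∈ box (K + 1), ω' v = ω v := fun v hv => (h v hv).symm
    unfold GG
    by_cases hn : NoArm R K ω
    · rw [if_pos hn, if_pos (noArm_congr hp h hn), nb_congr hp φ h hn]
    · rw [if_neg hn, if_neg fun hn' => hn (noArm_congr hp h' hn')]
  · have h' : ∀ v ∈ box (K + 1), ω' v = ω v := fun v hv => (h v hv).symm
    unfold ai
    by_cases hn : NoArm R K ω
    · rw [if_pos hn, if_pos (noArm_congr hp h hn)]
    · rw [if_neg hn, if_neg fun hn' => hn (noArm_congr hp h' hn')]

open PLocx in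
theorem plim_pf (hp : P_bas) (h1 : P_loc) (h2 : M_avg) (h3 : H_fin) : P_lim := by
  intro φ R
  have : IsProbabilityMeasure perc := by
    unfold perc
    infer_instance
  constructor
  · refine tendsto_integral_filter_of_dominated_convergence (fun _ => (2 : ℝ) ^ (box R).card)
      ?_ ?_ (integrable_const _) ?_
    · filter_upwards [eventually_ge_atTop R] with K hK
      exact (h2.1 _ _ (h1 φ R K hK).1).aestronglyMeasurable
    · refine Eventually.of_forall fun K => Eventually.of_forall fun ω => ?_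
      rw [Real.norm_eq_abs]
      unfold GG
      split_ifs
      · exact nb_le φ R ω
      · rw [abs_zero]
        positivity
    · filter_upwards [h3] with ω hω
      refine tendsto_const_nhds.congr' ?_
      filter_upwards [ev_noArm hp R hω] with K hK
      unfold GG
      rw [if_pos hK]
  · have key : Tendsto (fun K => ∫ ω, ai R K ω ∂perc) atTop (𝓝 (∫ _ω, (0 : ℝ) ∂perc)) := by
      refine tendsto_integral_filter_of_dominated_convergence (fun _ => (1 : ℝ))
        ?_ ?_ (integrable_const _) ?_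
      · filter_upwards [eventually_ge_atTop R] with K hK
        exact (h2.1 _ _ (h1 φ R K hK).2.1).aestronglyMeasurable
      · refine Eventually.of_forall fun K => Eventually.of_forall fun ω => ?_
        unfold ai
        split_ifs <;> simp
      · filter_upwards [h3] with ω hω
        refine tendsto_const_nhds.congr' ?_
        filter_upwards [ev_noArm hp R hω] with K hK
        unfold ai
        rw [if_pos hK]
    simpa using key

end Vale.Agent.P167Q
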