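import Vale.Agent.P167Q.ABas
import Vale.Agent.P167Q.ABas2
import Vale.Agent.P167Q.ATree
import Vale.Agent.P167Q.AEu
import Vale.Agent.P167Q.AEul
import Vale.Agent.P167Q.ABij
import Vale.Agent.P167Q.ABkw
import Vale.Agent.P167Q.AOvl
import Vale.Agent.P167Q.AFour
import Vale.Agent.P167Q.AStop
import Vale.Agent.P167Q.ATv
import Vale.Agent.P167Q.CCol
import Vale.Agent.P167Q.CEx
import Vale.Agent.P167Q.CLink
import Vale.Agent.P167Q.CBd
import Vale.Agent.P167Q.CArr1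
import Vale.Agent.P167Q.CArr2
import Vale.Agent.P167Q.CArr
import Vale.Agent.P167Q.CDeg
import Vale.Agent.P167Q.CHt
import Vale.Agent.P167Q.CLift
import Vale.Agent.P167Q.CExt
import Vale.Agent.P167Q.CCl
import Vale.Agent.P167Q.CCmp
import Vale.Agent.P167Q.PBas
import Vale.Agent.P167Q.PLoc
import Vale.Agent.P167Q.MAvg
import Vale.Agent.P167Q.DCh
import Vale.Agent.P167Q.LCh
import Vale.Agent.P167Q.LOne
import Vale.Agent.P167Q.LLat
import Vale.Agent.P167Q.FInt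
import Vale.Agent.P167Q.FProd
import Vale.Agent.P167Q.FGau
import Vale.Agent.P167Q.HInv
import Vale.Agent.P167Q.HFk
import Vale.Agent.P167Q.HEv
import Vale.Agent.P167Q.HSym
import Vale.Agent.P167Q.HCir
import Vale.Agent.P167Q.HDet

/-! P167Q: assembly. -/

namespace Vale.Agent.P167Q

theorem cout_pf : C_out := fun l n h1 h2 => by
  obtain ⟨a1, a2, a3⟩ := ccol_pf l n h1 h2
  have hp : (cs l n).Pl := ⟨a1, a2, cex_pf l n h1 h2, clink_pf l n h1 h2, cbd_pf l n h1 h2, a3⟩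
  have hb := bas_of _ a1 a2
  have b2 := bas2_of _ hb a2
  have ht := tree_of _ hp hb
  have hk := bkw_of _ hb (eul_of _ hp hb (eu_of _ hp hb)) (bij_of _ hp hb b2 ht (par_of _ hb b2 ht))
  exact ⟨hb, hk, ovl_of _ hb hk, bnd_of _ hb, stop_of _ hb b2 (four_of _ a1 hb b2), tv_of _ hb b2⟩

theorem hfin : H_fin :=
  have hf := hfk_pf hloc_pf
  have hs := hsym_pf hinv_pf hloc_pf hev_pf
  hfin_pf hinv_pf (hio_pf hloc_pf hf hev_pf
    (hcir_pf (hpu_pf hloc_pf hf) hev_pf hs (hcr_pf hinv_pf hloc_pf hev_pf hs))) hdet_pf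

theorem llat : L_lat :=
  have he := cext_pf clift_pf pbas_pf
  have h1 := ploc_pf pbas_pf
  have h2 := mavg_pf hloc_pf clift_pf
  llat_pf (lch_pf cout_pf (carr_pf cout_pf (carr1_pf ccol_pf) carr2_pf) cth_pf cht_pf dch_pf xloc_pf)
    (lone_pf cout_pf clift_pf he
      (ccmp_pf cout_pf clift_pf he (ccl_pf cout_pf clift_pf he pbas_pf) pbas_pf) pbas_pf h1 h2)
    (plim_pf pbas_pf h1 h2 hfin) xloc_pf

theorem goal_main (hG : ∃ P : MeasureTheory.Measure P152.Ori, P152.IsLimit (Real.sqrt 3) P ∧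
    ∃ σ : ℝ, σ ^ 2 = 1 / Real.arcsin (Real.sqrt 3 / 2) ∧ P152.ConvGFF P σ) : Goal :=
  goal_of hG hfin llat fint_pf (fprod_pf pbas_pf) fgau_pf

end Vale.Agent.P167Q
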