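import Vale.Agent.P152.Value
import Vale.Agent.P167Q.Main

/-! P167Q: the nesting law, unconditionally. -/

namespace Vale.Agent.P167Q

open Vale.Agent.P152

theorem goal_pf : Goal := by
  have h1 : 1 < Real.sqrt 3 := Real.lt_sqrt_of_sq_lt (by norm_num)
  have h2 : Real.sqrt 3 ≤ 2 := Real.sqrt_le_iff.2 (by norm_num)
  obtain ⟨P, hP, K, h0, hK, hG⟩ := main_all h1 h2
  exact goal_main ⟨P, hP, _, (Real.sq_sqrt h0.le).trans (k_value h1 h2 hK), hG⟩

end Vale.Agent.P167Q
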