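import Vale.Agent.P167Q.YStm

/-! P167Q: basic facts on the nesting number and on the arm events. -/

open Finset Relation Filter Topology MeasureTheory
open scoped Classical

namespace Vale.Agent.P167Q

namespace Y0x

theorem mb {n : ℕ} {y : Sq} : y ∈ box n ↔ max |y.1| |y.2| ≤ (n : ℤ) := by
  rw [mem_box, max_le_iff, abs_le, abs_le, and_assoc]

theorem z0 (n : ℕ) : (0 : Sq) ∈ box n := mem_box.2 (by simp)

theorem b0 {x : Sq} (hx : x ∈ box 0) : x = 0 := by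
  have := mem_box.1 hx
  exact Prod.ext (by simp only [Prod.fst_zero]; omega) (by simp only [Prod.snd_zero]; omega)

theorem ba0 {k : ℕ} {ω : Cf} : ω ∈ BA true 0 k ↔ ¬clus ω 0 ⊆ box k :=
  ⟨fun ⟨_, hx, _, h⟩ => b0 hx ▸ h, fun h => ⟨0, z0 0, by simp, h⟩⟩

theorem eq (h : Al) (n : ℕ) (ω : Cf) : nestN n ω = nN n ω := by
  unfold nestN nN
  rw [← Set.ncard_coe_finset]
  congr 1
  ext C
  rw [mem_coe, mem_filter]
  constructor
  · rintro ⟨⟨-, x, rfl⟩, h1, h2⟩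
    exact ⟨mem_image.2 ⟨x, mb.2 (h1 x (h.base.bas.self ω x)), rfl⟩,
      fun y hy => mem_coe.2 (mb.2 (h1 y hy)), h2⟩
  · rintro ⟨h1, h2, h3⟩
    obtain ⟨x, -, rfl⟩ := mem_image.1 h1
    exact ⟨⟨(box n).finite_toSet.subset h2, x, rfl⟩, fun y hy => mb.1 (mem_coe.1 (h2 hy)), h3⟩

theorem sub (h : Al) (n : ℕ) (ω ω' : Cf) (e : ∀ i ∈ box (n + 1), ω i = ω' i) :
    ((cls ω (box n)).filter fun C : Set Sq => C ⊆ box n ∧ (0 : Sq) ∈ fill ω C) ⊆
      ((cls ω' (box n)).filter fun C : Set Sq => C ⊆ box n ∧ (0 : Sq) ∈ fill ω' C) := by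
  intro C hC
  rw [mem_filter] at hC ⊢
  obtain ⟨h1, h2, h3⟩ := hC
  obtain ⟨y, hy, rfl⟩ := mem_image.1 h1
  have hl := h.geo.loc ω ω' y fun v c i hv =>
    e v ((h.base.bas.edb n v c i).2 (mem_coe.1 (h2 hv)))
  exact ⟨mem_image.2 ⟨y, hy, hl.1⟩, h2, hl.2.symm ▸ h3⟩

theorem zero (h : Al) (n : ℕ) (ω : Cf) : nN n ω = 0 ↔ ω ∈ BA true 0 n := by
  rw [ba0, nN, card_eq_zero, filter_eq_empty_iff]
  refine ⟨fun k c => k (mem_image.2 ⟨0, z0 n, rfl⟩) ⟨c, Or.inl (h.base.bas.self ω 0)⟩,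
    fun k C hC c => k fun y hy => ?_⟩
  obtain ⟨z, -, rfl⟩ := mem_image.1 hC
  obtain ⟨⟨a, a1, a2⟩, ⟨b, b1, b2⟩, ⟨d, d1, d2⟩, e, e1, e2⟩ :=
    h.geo.bd ω _ y (h.geo.sub ω z 0 c.2 hy)
  have := mem_box.1 (mem_coe.1 (c.1 a1))
  have := mem_box.1 (mem_coe.1 (c.1 b1))
  have := mem_box.1 (mem_coe.1 (c.1 d1))
  have := mem_box.1 (mem_coe.1 (c.1 e1))
  exact mem_coe.2 (mem_box.2 (by omega))

theorem tr {x y : Sq} {k : ℕ} : y + x ∈ bz x k ↔ y ∈ box k := by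
  rw [mem_bz, mem_box, Prod.fst_add, Prod.snd_add]
  omega

theorem pre (h : Al) (x : Sq) (k : ℕ) : Ax x k = sh x ⁻¹' BA true 0 k := by
  ext ω
  rw [Set.mem_preimage, ba0]
  refine not_congr ⟨fun c y hy => ?_, fun c y hy => ?_⟩
  · rw [h.sh.cl, zero_add] at hy
    exact mem_coe.2 (tr.1 (mem_coe.1 (c hy)))
  · have : y - x ∈ clus (sh x ω) 0 := by rwa [h.sh.cl, zero_add, sub_add_cancel]
    have := (tr (x := x)).2 (mem_coe.1 (c this))
    rw [sub_add_cancel] at this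
    exact mem_coe.2 this

theorem pol (h : Al) (ε : ℝ) (hε : 0 < ε) : ∃ C : ℝ, 1 ≤ C ∧ ∀ k : ℕ, 1 ≤ k →
    (k : ℝ) ^ (-(5 / 48 + ε)) ≤ C * pc true 0 k ∧
      pc true 0 k ≤ C * (k : ℝ) ^ (-(5 / 48 - ε)) := by
  obtain ⟨k0, hk⟩ := eventually_atTop.1 ((h.eup ε hε).and (h.elo ε hε))
  have p0 := h.rsw.2 k0
  have i0 : 0 ≤ (pc true 0 k0)⁻¹ := (inv_pos.2 p0).le
  have n0 : (0 : ℝ) ≤ k0 := Nat.cast_nonneg _
  refine ⟨1 + (pc true 0 k0)⁻¹ + k0, by linarith, fun k h1 => ?_⟩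
  have k1 : (1 : ℝ) ≤ k := Nat.one_le_cast.2 h1
  have kp : (0 : ℝ) < k := by linarith
  have pk := h.rsw.2 k
  have rp := Real.rpow_pos_of_pos kp (-(5 / 48 - ε))
  rcases le_or_gt k0 k with c | c
  · obtain ⟨u, l⟩ := hk k c
    rw [← neg_mul, mul_comm, ← Real.rpow_def_of_pos kp] at u l
    exact ⟨l.trans (le_mul_of_one_le_left pk.le (by linarith)),
      u.trans (le_mul_of_one_le_left rp.le (by linarith))⟩
  · have m := h.sub.mc true 0 0 k0 k le_rfl c.le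
    have : IsProbabilityMeasure perc := by unfold perc; infer_instance
    have q1 : pc true 0 k ≤ 1 := measureReal_le_one
    have q2 : (k : ℝ) ≤ k0 := Nat.cast_le.2 c.le
    constructor
    · refine (Real.rpow_le_one_of_one_le_of_nonpos k1 (by linarith)).trans ?_
      exact (inv_mul_cancel₀ p0.ne').symm.trans_le
        (mul_le_mul (by linarith) m p0.le (by linarith))
    · have q3 := Real.rpow_le_rpow_of_exponent_le k1 (show (-1 : ℝ) ≤ -(5 / 48 - ε) by linarith)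
      rw [Real.rpow_neg_one] at q3
      exact q1.trans ((mul_inv_cancel₀ kp.ne').symm.trans_le
        (mul_le_mul (by linarith) q3 (inv_pos.2 kp).le (by linarith)))

end Y0x

open Y0x in
theorem y0_pf (h : Al) : Y_0 where
  eq := Y0x.eq h
  loc := fun n ω ω' e => by
    unfold nN
    rw [Subset.antisymm (Y0x.sub h n ω ω' e) (Y0x.sub h n ω' ω fun i hi => (e i hi).symm)]
  zero := Y0x.zero h
  ax := fun x k => by
    rw [pre h]
    refine ⟨fun ω ω' e => h.dep.ba true 0 k _ _ fun v hv => ?_,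
      (h.sh.mp x).measureReal_preimage
        ((h.base.loc _ _).2 _ (h.dep.ba true 0 k)).1.nullMeasurableSet,
      fun hx => (h.dep.up 0 k).preimage fun ω ω' e v => ?_⟩
    · unfold sh
      rw [e _ (tr.2 hv)]
    · unfold sh
      rw [decide_eq_false (Int.not_odd_iff_even.2 hx), Bool.false_xor, Bool.false_xor]
      exact e _
  p0 := fun k => by
    unfold pa pc
    congr 1
    ext ω
    rw [ba0]
    exact not_congr ⟨fun c => c 0 (z0 0), fun c x hx => (b0 hx).symm ▸ c⟩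
  pol := Y0x.pol h

end Vale.Agent.P167Q
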