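import Vale.Agent.P167Q.YStm

open Finset Relation Filter Topology MeasureTheory
open scoped Classical BigOperators

namespace Vale.Agent.P167Q

namespace YGax

lemma gen (f : ℕ → ℝ) (g : ℝ)
    (hu : ∀ ε : ℝ, 0 < ε → ∀ᶠ n : ℕ in atTop, f n ≤ Real.exp ((g + ε) * Real.log n))
    (hl : ∀ ε : ℝ, 0 < ε → ∀ᶠ n : ℕ in atTop, Real.exp ((g - ε) * Real.log n) ≤ f n) :
    Tendsto (fun n : ℕ => Real.log (f n) / Real.log n) atTop (𝓝 g) := by
  refine Metric.tendsto_nhds.2 fun ε hε => ?_
  filter_upwards [hu (ε / 2) (half_pos hε), hl (ε / 2) (half_pos hε), eventually_gt_atTop 1]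
    with n h1 h2 hn
  have hlog : 0 < Real.log n := Real.log_pos (by exact_mod_cast hn)
  have hp : 0 < f n := (Real.exp_pos _).trans_le h2
  have k1 : Real.log (f n) ≤ (g + ε / 2) * Real.log n := (Real.log_le_iff_le_exp hp).2 h1
  have k2 : (g - ε / 2) * Real.log n ≤ Real.log (f n) := (Real.le_log_iff_exp_le hp).2 h2
  rw [Real.dist_eq, abs_lt]
  have k3 : Real.log (f n) / Real.log n ≤ g + ε / 2 := (div_le_iff₀ hlog).2 k1
  have k4 : g - ε / 2 ≤ Real.log (f n) / Real.log n := (le_div_iff₀ hlog).2 k2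
  constructor <;> linarith

end YGax

theorem goalA_pf (h : Al) (hy : Y_0) (hu : S_tup) (hl : S_tlo) : GoalA := by
  intro x h0 h1
  simp only [hy.eq]
  rcases h1.lt_or_eq with h2 | h2
  · exact YGax.gen (fun n => ex fun ω => (2 * Real.cos x) ^ nN n ω) (gx x) (hu x h0 h2)
      (hl x h0 h2)
  · subst h2
    have e1 : (1 : ℝ) / 12 - 3 * (Real.pi / 2) ^ 2 / (4 * Real.pi ^ 2) = -(5 / 48) := by
      have := Real.pi_pos
      field_simp
      norm_num
    have e2 : ∀ n : ℕ, ∫ ω, (2 * Real.cos (Real.pi / 2)) ^ nN n ω ∂perc = pc true 0 n := by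
      intro n
      have hm : MeasurableSet (BA true 0 n) :=
        ((h.base.loc Sq (box (n + 1))).2 _ (h.dep.ba true 0 n)).1
      have e3 : (fun ω => (2 * Real.cos (Real.pi / 2)) ^ nN n ω) =
          (BA true 0 n).indicator (fun _ => (1 : ℝ)) := by
        funext ω
        rw [Real.cos_pi_div_two, mul_zero]
        by_cases hω : ω ∈ BA true 0 n
        · rw [Set.indicator_of_mem hω, (hy.zero n ω).2 hω, pow_zero]
        · rw [Set.indicator_of_notMem hω, zero_pow fun h3 => hω ((hy.zero n ω).1 h3)]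
      rw [e3, integral_indicator_const _ hm, smul_eq_mul, mul_one]
      rfl
    simp only [e2, e1]
    refine YGax.gen (fun n => pc true 0 n) (-(5 / 48)) (fun ε hε => ?_) (fun ε hε => ?_)
    · filter_upwards [h.eup ε hε] with n hn
      refine hn.trans (le_of_eq (congrArg Real.exp ?_))
      ring
    · filter_upwards [h.elo ε hε] with n hn
      refine (le_of_eq (congrArg Real.exp ?_)).trans hn
      ring

end Vale.Agent.P167Q
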