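import Vale.Agent.P167Q.YStm

open Finset Filter Topology MeasureTheory
open scoped Classical

namespace Vale.Agent.P167Q

namespace YGbx

theorem prob : IsProbabilityMeasure perc := by
  rw [perc_eq]
  exact fair_prob _

theorem jen (N : Cf → ℕ) (w : ℝ) (hw : 0 < w) (h1 : Integrable (fun ω => (N ω : ℝ)) perc)
    (h2 : Integrable (fun ω => w ^ N ω) perc) :
    Real.log w * ∫ ω, (N ω : ℝ) ∂perc ≤ Real.log (∫ ω, w ^ N ω ∂perc) := by
  haveI := prob
  generalize hc : Real.log w * ∫ ω, (N ω : ℝ) ∂perc = c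
  have h3 : Real.exp c ≤ ∫ ω, w ^ N ω ∂perc := by
    have h4 : ∫ ω, Real.exp c * (Real.log w * (N ω : ℝ) + (1 - c)) ∂perc = Real.exp c := by
      rw [integral_const_mul, integral_add (h1.const_mul _) (integrable_const _),
        integral_const_mul, hc]
      simp
    rw [← h4]
    refine integral_mono (((h1.const_mul _).add (integrable_const _)).const_mul _) h2 fun ω => ?_
    have h5 : w ^ N ω = Real.exp c * Real.exp (Real.log w * (N ω : ℝ) - c) := by
      rw [← Real.exp_add, add_sub_cancel, Real.exp_mul, Real.exp_log hw, Real.rpow_natCast]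
    have h6 := Real.add_one_le_exp (Real.log w * (N ω : ℝ) - c)
    show Real.exp c * (Real.log w * (N ω : ℝ) + (1 - c)) ≤ w ^ N ω
    rw [h5]
    exact mul_le_mul_of_nonneg_left (by linarith) (Real.exp_pos _).le
  exact (Real.le_log_iff_exp_le ((Real.exp_pos c).trans_le h3)).mpr h3

theorem ana (b : ℕ → ℝ) (c : ℝ → ℕ → ℝ) (G s : ℝ → ℝ) (G' s' x₀ : ℝ) (U : Set ℝ) (hU : U ∈ 𝓝 x₀)
    (hG : HasDerivAt G G' x₀) (hs : HasDerivAt s s' x₀) (G0 : G x₀ = 0) (s0 : s x₀ = 0)
    (hs' : s' < 0) (hc : ∀ x ∈ U, Tendsto (c x) atTop (𝓝 (G x)))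
    (hb : ∀ x ∈ U, ∀ᶠ n in atTop, s x * b n ≤ c x n) : Tendsto b atTop (𝓝 (G' / s')) := by
  have t1 := hasDerivAt_iff_tendsto_slope.mp hG
  have t2 := hasDerivAt_iff_tendsto_slope.mp hs
  have t3 : Tendsto (fun x => G x / s x) (𝓝[≠] x₀) (𝓝 (G' / s')) := by
    refine (t1.div t2 hs'.ne).congr' ?_
    filter_upwards [self_mem_nhdsWithin] with x hx
    have hx' : x - x₀ ≠ 0 := sub_ne_zero.mpr hx
    simp only [Pi.div_apply, slope_def_field, G0, s0, sub_zero]
    exact div_div_div_cancel_right₀ hx' _ _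
  have t4 : ∀ᶠ x in 𝓝[≠] x₀, s x / (x - x₀) < 0 := by
    filter_upwards [t2.eventually (gt_mem_nhds hs')] with x hx
    simpa only [slope_def_field, s0, sub_zero] using hx
  have t5 : ∀ᶠ x in 𝓝[≠] x₀, x ∈ U := mem_nhdsWithin_of_mem_nhds hU
  refine tendsto_order.mpr ⟨fun y hy => ?_, fun y hy => ?_⟩
  · have e := ((t3.eventually (lt_mem_nhds hy)).and (t4.and t5)).filter_mono (nhdsGT_le_nhdsNE x₀)
    obtain ⟨x, ⟨e1, e2, e3⟩, e4⟩ := (e.and self_mem_nhdsWithin).exists
    have hx : 0 < x - x₀ := sub_pos.mpr e4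
    have hsx : s x < 0 := by
      by_contra hn
      exact absurd e2 (not_lt.mpr (div_nonneg (not_lt.mp hn) hx.le))
    have e5 : G x < y * s x := (lt_div_iff_of_neg hsx).mp e1
    filter_upwards [(hc x e3).eventually (gt_mem_nhds e5), hb x e3] with n n1 n2
    by_contra hn
    have := mul_le_mul_of_nonpos_left (not_lt.mp hn) hsx.le
    linarith
  · have e := ((t3.eventually (gt_mem_nhds hy)).and (t4.and t5)).filter_mono (nhdsLT_le_nhdsNE x₀)
    obtain ⟨x, ⟨e1, e2, e3⟩, e4⟩ := (e.and self_mem_nhdsWithin).exists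
    have hx : x - x₀ < 0 := sub_neg.mpr e4
    have hsx : 0 < s x := by
      by_contra hn
      exact absurd e2 (not_lt.mpr (div_nonneg_of_nonpos (not_lt.mp hn) hx.le))
    have e5 : G x < y * s x := (div_lt_iff₀ hsx).mp e1
    filter_upwards [(hc x e3).eventually (gt_mem_nhds e5), hb x e3] with n n1 n2
    by_contra hn
    have := mul_le_mul_of_nonneg_left (not_lt.mp hn) hsx.le
    linarith

end YGbx

open YGbx in
theorem goalB_pf (h : Al) (hy : Y_0) (ha : GoalA) : GoalB := by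
  have hpi := Real.pi_pos
  have hint : ∀ (n : ℕ) (F : ℕ → ℝ), Integrable (fun ω => F (nestN n ω)) perc := fun n F => by
    refine h.bd.int _ (h.bd.loc (box (n + 1)) _ fun ω ω' hω => ?_)
    show F (nestN n ω) = F (nestN n ω')
    rw [hy.eq, hy.eq, hy.loc n ω ω' hω]
  have hG : HasDerivAt (fun x : ℝ => 1 / 12 - 3 * x ^ 2 / (4 * Real.pi ^ 2))
      (-(3 * (2 * (Real.pi / 3)) / (4 * Real.pi ^ 2))) (Real.pi / 3) := by
    have := (((hasDerivAt_pow 2 (Real.pi / 3)).const_mul 3).div_const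
      (4 * Real.pi ^ 2)).const_sub (1 / 12)
    simpa using this
  have hs : HasDerivAt (fun x : ℝ => Real.log (2 * Real.cos x)) (-Real.sqrt 3) (Real.pi / 3) := by
    have := ((Real.hasDerivAt_cos (Real.pi / 3)).const_mul 2).log (by
      rw [Real.cos_pi_div_three]; norm_num)
    rw [Real.cos_pi_div_three, Real.sin_pi_div_three] at this
    refine this.congr_deriv ?_
    ring
  have h3 : 0 < Real.sqrt 3 := Real.sqrt_pos.mpr (by norm_num)
  have key := ana (fun n : ℕ => (∫ ω, (nestN n ω : ℝ) ∂perc) / Real.log n)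
    (fun x n => Real.log (∫ ω, (2 * Real.cos x) ^ nestN n ω ∂perc) / Real.log n) _ _ _ _ _
    (Set.Ioo 0 (Real.pi / 2)) (Ioo_mem_nhds (by linarith) (by linarith)) hG hs
    (by field_simp; ring) (by rw [Real.cos_pi_div_three]; norm_num) (by linarith)
    (fun x hx => ha x hx.1.le hx.2.le) (fun x hx => Eventually.of_forall fun n => by
      have hw : 0 < 2 * Real.cos x := by
        have := Real.cos_pos_of_mem_Ioo (x := x) ⟨by linarith [hx.1], hx.2⟩
        linarith
      have := jen (nestN n) _ hw (hint n fun k => (k : ℝ)) (hint n fun k => (2 * Real.cos x) ^ k)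
      rw [← mul_div_assoc]
      exact div_le_div_of_nonneg_right this (Real.log_natCast_nonneg n))
  have e : -(3 * (2 * (Real.pi / 3)) / (4 * Real.pi ^ 2)) / -Real.sqrt 3 =
      1 / (2 * Real.sqrt 3 * Real.pi) := by
    field_simp
    ring
  rw [e] at key
  exact key

end Vale.Agent.P167Q
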