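import Vale.Agent.P167Q.YStm

/-! P167Q: the two point exponent. -/

open Finset Relation Filter Topology MeasureTheory
open scoped Classical BigOperators

namespace Vale.Agent.P167Q

namespace YGcx

theorem cast_nr (x : Sq) : ((max |x.1| |x.2| : ℤ) : ℝ) = (nr x : ℝ) := by
  have : (max |x.1| |x.2| : ℤ) = (nr x : ℤ) := by
    simp only [nr, Nat.cast_max, Int.natCast_natAbs]
  rw [this, Int.cast_natCast]

theorem nr_top : Tendsto nr cofinite atTop := by
  refine tendsto_atTop.2 fun K => ?_
  rw [eventually_cofinite]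
  refine (box K).finite_toSet.subset fun x hx => ?_
  have h : nr x < K := not_le.1 hx
  rw [mem_coe, mem_box]
  unfold nr at h
  omega

theorem bds {C t r a ε : ℝ} (hC : 1 ≤ C) (hr : 1 < r) (h1 : t ≤ C * r ^ (-(a - ε)))
    (h2 : r ^ (-(a + ε)) ≤ C * t) :
    |Real.log t / Real.log r - -a| ≤ ε + Real.log C / Real.log r := by
  have r0 : 0 < r := by linarith
  have C0 : 0 < C := by linarith
  have L0 : 0 < Real.log r := Real.log_pos hr
  have t0 : 0 < t := (mul_pos_iff_of_pos_left C0).1 ((Real.rpow_pos_of_pos r0 _).trans_le h2)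
  have e1 := Real.log_le_log t0 h1
  have e2 := Real.log_le_log (Real.rpow_pos_of_pos r0 _) h2
  rw [Real.log_mul C0.ne' (Real.rpow_pos_of_pos r0 _).ne', Real.log_rpow r0] at e1
  rw [Real.log_mul C0.ne' t0.ne', Real.log_rpow r0] at e2
  have k1 : Real.log t / Real.log r ≤ Real.log C / Real.log r - (a - ε) := by
    rw [div_le_iff₀ L0, sub_mul, div_mul_cancel₀ _ L0.ne']
    linarith
  have k2 : -(a + ε) - Real.log C / Real.log r ≤ Real.log t / Real.log r := by
    rw [le_div_iff₀ L0, sub_mul, div_mul_cancel₀ _ L0.ne']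
    linarith
  rw [abs_le]
  constructor <;> linarith

end YGcx

theorem goalC_pf (hp : T_pol) : GoalC := by
  refine Metric.tendsto_nhds.2 fun ε hε => ?_
  obtain ⟨C, hC, h⟩ := hp (ε / 2) (by linarith)
  have t1 : Tendsto (fun x : Sq => (nr x : ℝ)) cofinite atTop :=
    tendsto_natCast_atTop_atTop.comp YGcx.nr_top
  have t2 : Tendsto (fun x : Sq => Real.log C / Real.log (nr x : ℝ)) cofinite (𝓝 0) :=
    (Real.tendsto_log_atTop.comp t1).const_div_atTop _
  rw [eventually_inf_principal]
  filter_upwards [t2.eventually (gt_mem_nhds (by linarith : (0 : ℝ) < ε / 2)),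
    YGcx.nr_top.eventually_ge_atTop 2] with x h1 h2 he
  obtain ⟨a1, a2⟩ := h x (by omega)
  have r1 : (1 : ℝ) < nr x := by exact_mod_cast h2
  have := YGcx.bds hC r1 a1 (a2 he)
  rw [YGcx.cast_nr, Real.dist_eq]
  exact lt_of_le_of_lt this (by linarith)

end Vale.Agent.P167Q
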