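import Vale.Agent.P167Q.YStm

/-! P167Q: Hoelder inequality and independence for the generating functions. -/

open Finset MeasureTheory
open scoped Classical

namespace Vale.Agent.P167Q

namespace YHolx

theorem pos {X : Cf → ℝ} (h0 : ∀ ω, 0 < X ω) (hi : Integrable X perc) : 0 < ex X := by
  have pm : IsProbabilityMeasure perc := fair_prob (ℤ × ℤ)
  refine (integral_pos_iff_support_of_nonneg (fun ω => (h0 ω).le) hi).2 ?_
  rw [Set.eq_univ_of_forall (s := Function.support X) fun ω => (h0 ω).ne', measure_univ]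
  exact one_pos

theorem hol {X Y : Cf → ℝ} {s : ℝ} (s0 : 0 < s) (s1 : s < 1) (x0 : ∀ ω, 0 < X ω)
    (y0 : ∀ ω, 0 < Y ω) (hX : Integrable X perc) (hY : Integrable Y perc) :
    (ex fun ω => X ω ^ (1 - s) * Y ω ^ s) ≤ ex X ^ (1 - s) * ex Y ^ s := by
  have a0 := pos x0 hX
  have b0 := pos y0 hY
  have a1 := Real.rpow_pos_of_pos a0 (1 - s)
  have b1 := Real.rpow_pos_of_pos b0 s
  have i1 := (hX.div_const (ex X)).const_mul (1 - s)
  have i2 := (hY.div_const (ex Y)).const_mul s
  refine (integral_mono_of_nonneg (ae_of_all _ fun ω => (mul_pos (Real.rpow_pos_of_pos (x0 ω) _)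
    (Real.rpow_pos_of_pos (y0 ω) _)).le) ((i1.add i2).const_mul (ex X ^ (1 - s) * ex Y ^ s))
    (ae_of_all _ fun ω => ?_)).trans_eq ?_
  · have k := Real.geom_mean_le_arith_mean2_weighted (sub_pos.2 s1).le s0.le
      (div_pos (x0 ω) a0).le (div_pos (y0 ω) b0).le (sub_add_cancel 1 s)
    rw [Real.div_rpow (x0 ω).le a0.le, Real.div_rpow (y0 ω).le b0.le, div_mul_div_comm,
      div_le_iff₀' (mul_pos a1 b1)] at k
    exact k
  · rw [integral_const_mul, integral_add' i1 i2, integral_const_mul, integral_const_mul,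
      integral_div, integral_div]
    have e1 : (∫ ω, X ω ∂perc) / ex X = 1 := div_self a0.ne'
    have e2 : (∫ ω, Y ω ∂perc) / ex Y = 1 := div_self b0.ne'
    rw [e1, e2]
    ring

end YHolx

theorem shol_pf (h : Al) : S_hol := by
  refine ⟨fun u v s J m hu hv s0 s1 => ?_, fun u J m t hm => ?_⟩
  · refine le_trans (le_of_eq ?_) (YHolx.hol (X := fun ω => u ^ N1 J m ω)
      (Y := fun ω => v ^ N1 J m ω) s0 s1 (fun ω => pow_pos hu _) (fun ω => pow_pos hv _)
      (h.bd.int _ (h.bd.mid _ _ fun n => u ^ n)) (h.bd.int _ (h.bd.mid _ _ fun n => v ^ n)))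
    refine congrArg ex (funext fun ω => ?_)
    rw [mul_pow, Real.rpow_pow_comm hu.le, Real.rpow_pow_comm hv.le]
  · have d : ∀ i i' : ℕ, i < i' → Disjoint
        (box (2 ^ (J + i * m + m) - 1 + 1) \ box (3 * 2 ^ (J + i * m) - 1))
        (box (2 ^ (J + i' * m + m) - 1 + 1) \ box (3 * 2 ^ (J + i' * m) - 1)) := fun i i' hi => by
      refine disjoint_left.2 fun x h1 h2 => (mem_sdiff.1 h2).2
        (h.base.bas.mono _ _ ?_ (mem_sdiff.1 h1).1)
      have a : 2 ^ (J + i * m + m) ≤ 2 ^ (J + i' * m) := Nat.pow_le_pow_right two_pos (by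
        have := Nat.mul_le_mul_right m (Nat.succ_le_of_lt hi)
        rw [Nat.succ_mul] at this
        omega)
      have b : 0 < 2 ^ (J + i * m + m) := by positivity
      omega
    simp only [MM, ← prod_pow_eq_pow_sum]
    refine h.ind ℕ (range t)
      (fun i => box (2 ^ (J + i * m + m) - 1 + 1) \ box (3 * 2 ^ (J + i * m) - 1))
      (fun i ω => u ^ N1 (J + i * m) m ω) (fun i _ ω ω' e => ?_) fun i _ j _ hij => ?_
    · have b : 0 < 2 ^ (J + i * m) := by positivity
      exact congrArg (u ^ ·) (h.dep.mid _ _ (by omega) ω ω' e)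
    · rcases lt_or_gt_of_ne hij with a | a
      · exact d i j a
      · exact (d j i a).symm

end Vale.Agent.P167Q
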