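import Vale.Agent.P167Q.YStm

open Filter Topology
open scoped Classical

namespace Vale.Agent.P167Q

namespace YLox

theorem exx {x ε : ℝ} (hx : x < Real.pi / 2) (hε : 0 < ε) :
    ∃ y, x < y ∧ y < Real.pi / 2 ∧ gx x * Real.log 2 - ε ≤ gx y * Real.log 2 := by
  have hc : ContinuousAt (fun y => gx y * Real.log 2) x := by unfold gx; fun_prop
  have h1 : ∀ᶠ y in 𝓝 x, gx x * Real.log 2 - ε < gx y * Real.log 2 :=
    continuousAt_const.eventually_lt hc (by linarith)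
  obtain ⟨y, h2, h3, h4⟩ := (eventually_mem_nhdsWithin.and
    (((eventually_lt_nhds hx).and h1).filter_mono (nhdsWithin_le_nhds (s := Set.Ioi x)))).exists
  exact ⟨y, h2, h3, h4.le⟩

theorem exp' {u w a ε : ℝ} (hu : 0 < u) (hw : u < w) (hε : 0 < ε) :
    ∃ p > 1, u ^ p ≤ w ^ (1 / p) ∧ a - ε ≤ p * p * a := by
  have c1 : ContinuousAt (fun p : ℝ => u ^ p) 1 := Real.continuousAt_const_rpow hu.ne'
  have c2 : ContinuousAt (fun p : ℝ => w ^ (1 / p)) 1 :=
    (Real.continuousAt_const_rpow (hu.trans hw).ne').comp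
      (continuousAt_const.div continuousAt_id one_ne_zero)
  have h1 : ∀ᶠ p in 𝓝 (1 : ℝ), u ^ p < w ^ (1 / p) := c1.eventually_lt c2 (by simpa using hw)
  have h2 : ∀ᶠ p in 𝓝 (1 : ℝ), a - ε < p * p * a :=
    continuousAt_const.eventually_lt (by fun_prop) (by linarith)
  obtain ⟨p, h3, h4, h5⟩ := (eventually_mem_nhdsWithin.and
    ((h1.and h2).filter_mono (nhdsWithin_le_nhds (s := Set.Ioi (1 : ℝ))))).exists
  exact ⟨p, h3, h4.le, h5.le⟩

theorem iden (y : ℝ) : -(aa * (y - Real.pi / 3) ^ 2) - (y - Real.pi / 3) * (2 * Real.pi / 3 * aa) =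
    gx y * Real.log 2 := by
  have := Real.pi_pos
  unfold aa gx
  field_simp
  ring

theorem pw {F L p : ℝ} (hp : 1 < p) (hF : 0 ≤ F) (h : Real.exp L ≤ F ^ (1 / p)) :
    Real.exp (p * p * L) ≤ F ^ p := by
  have h1 := Real.rpow_le_rpow (Real.exp_pos L).le h (z := p * p) (by positivity)
  rw [← Real.exp_mul, ← Real.rpow_mul hF] at h1
  have e : 1 / p * (p * p) = p := by field_simp
  rwa [e, mul_comm L] at h1

theorem lin {θ b c e m C : ℝ} (hθ : |θ| ≤ 2) (h1 : (c - e) * m ≤ b) (h2 : b ≤ c * m + C)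
    (he : 0 ≤ e * m) : -(θ * c * m) - 2 * (e * m + |C|) ≤ -(θ * b) := by
  have h3 : |b - c * m| ≤ e * m + |C| :=
    abs_le.2 ⟨by linarith [abs_nonneg C], by linarith [le_abs_self C]⟩
  have h4 : |θ * (b - c * m)| ≤ 2 * (e * m + |C|) := by
    rw [abs_mul]
    exact mul_le_mul hθ h3 (abs_nonneg _) (by norm_num)
  linarith [le_abs_self (θ * (b - c * m))]

end YLox

open YLox in
theorem slo_pf (h : Al) : S_lo := by
  intro x hx0 hx ε hε
  have hpi := Real.pi_pos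
  have hpi4 := Real.pi_le_four
  obtain ⟨y, hxy, hy, hg⟩ := exx hx (ε := ε / 4) (by positivity)
  have hw : ww (y - Real.pi / 3) = 2 * Real.cos y := by rw [ww, add_sub_cancel]
  have hu : 0 < 2 * Real.cos y :=
    mul_pos two_pos (Real.cos_pos_of_mem_Ioo ⟨by linarith, hy⟩)
  have hlt : 2 * Real.cos y < 2 * Real.cos x :=
    mul_lt_mul_of_pos_left (Real.cos_lt_cos_of_nonneg_of_le_pi hx0 (by linarith) hxy) two_pos
  obtain ⟨p, hp, hp1, hp2⟩ := exp' (a := gx y * Real.log 2 - ε / 8) (ε := ε / 4) hu hlt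
    (by positivity)
  obtain ⟨C, hC⟩ := h.u1 (y - Real.pi / 3) p hp
  obtain ⟨C₁, hC₁⟩ := h.r1.1
  obtain ⟨m₁, hm₁⟩ := h.r2 (ε / 16) (by positivity)
  obtain ⟨m₂, hm₂⟩ := exists_nat_ge (p * p * (2 * |C₁| + C) / (3 * ε / 8))
  refine ⟨p, hp, max 4 (max m₁ m₂), fun m hm => ?_⟩
  have a4 : 4 ≤ m := le_of_max_le_left hm
  have a1 : m₁ ≤ m := le_of_max_le_left (le_of_max_le_right hm)
  have a2 : (m₂ : ℝ) ≤ m := by exact_mod_cast le_of_max_le_right (le_of_max_le_right hm)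
  have a3 : p * p * (2 * |C₁| + C) ≤ m * (3 * ε / 8) :=
    (div_le_iff₀ (by positivity)).1 (hm₂.trans a2)
  have hm0 : (0 : ℝ) ≤ m := Nat.cast_nonneg m
  filter_upwards [hC m a4, hC₁ m a4, hm₁ m a1] with J h1 h2 h3
  rw [hw, abs_of_pos hu] at h1
  obtain ⟨f0, f1⟩ := h.r0.mono _ _ J m (Real.rpow_nonneg hu.le p) hp1
  refine le_trans (Real.exp_le_exp.2 ?_)
    (pw hp (f0.trans f1) (h1.trans (Real.rpow_le_rpow f0 f1 (by positivity))))
  have l1 := lin (θ := y - Real.pi / 3) (abs_le.2 ⟨by linarith, by linarith⟩) h3 h2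
    (by positivity)
  have l2 : (gx y * Real.log 2 - ε / 8) * m - (2 * |C₁| + C) ≤
      -(aa * (y - Real.pi / 3) ^ 2 * m) - (y - Real.pi / 3) * be J m - C := by
    rw [← iden y]
    linarith
  have l3 := mul_le_mul_of_nonneg_left l2 (mul_self_nonneg p)
  have l4 := mul_le_mul_of_nonneg_right hp2 hm0
  have l5 := mul_le_mul_of_nonneg_right hg hm0
  linarith

end Vale.Agent.P167Q
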