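import Vale.Agent.P167Q.YStm

/-! P167Q, volume exponent: the second moment method. -/

open Finset MeasureTheory
open scoped Classical

namespace Vale.Agent.P167Q

namespace YMomx

theorem pz {Ω ι : Type} [MeasurableSpace Ω] (μ : Measure Ω) [IsProbabilityMeasure μ]
    (T : Finset ι) (A : ι → Set Ω) (hA : ∀ x, MeasurableSet (A x)) (Z : Ω → ℝ)
    (hZ : ∀ ω, Z ω = ∑ x ∈ T, (A x).indicator 1 ω) (m S c : ℝ) (hm : m = ∑ x ∈ T, μ.real (A x))
    (h0 : 0 < m) (hS0 : 0 < S) (hS : ∑ x ∈ T, ∑ y ∈ T, μ.real (A x ∩ A y) ≤ S) (hc : c ≤ m / 2) :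
    m ^ 2 ≤ 4 * S * μ.real {ω | c ≤ Z ω} := by
  have i1 : ∀ B : Set Ω, MeasurableSet B → Integrable (B.indicator (1 : Ω → ℝ)) μ :=
    fun B hB => (integrable_const (1 : ℝ)).indicator hB
  have e1 : Z = fun ω => ∑ x ∈ T, (A x).indicator 1 ω := funext hZ
  have e2 : (fun ω => Z ω ^ 2) = fun ω => ∑ x ∈ T, ∑ y ∈ T, (A x ∩ A y).indicator 1 ω := by
    funext ω
    rw [hZ, pow_two, Finset.sum_mul_sum]
    refine Finset.sum_congr rfl fun x _ => Finset.sum_congr rfl fun y _ => ?_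
    rw [Set.inter_indicator_one, Pi.mul_apply]
  have mZ : Measurable Z := by
    rw [e1]
    exact Finset.measurable_sum _ fun x _ => measurable_one.indicator (hA x)
  have mB : MeasurableSet {ω | c ≤ Z ω} := measurableSet_le measurable_const mZ
  have iZ : Integrable Z μ := by
    rw [e1]
    exact integrable_finsetSum _ fun x _ => i1 _ (hA x)
  have i2 : ∀ x, Integrable (fun ω => ∑ y ∈ T, (A x ∩ A y).indicator (1 : Ω → ℝ) ω) μ := fun x =>
    integrable_finsetSum _ fun y _ => i1 _ ((hA x).inter (hA y))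
  have iZ2 : Integrable (fun ω => Z ω ^ 2) μ := by
    rw [e2]
    exact integrable_finsetSum _ fun x _ => i2 x
  have v1 : ∫ ω, Z ω ∂μ = m := by
    rw [e1, hm, integral_finsetSum _ fun x _ => i1 _ (hA x)]
    exact Finset.sum_congr rfl fun x _ => integral_indicator_one (hA x)
  have v2 : ∫ ω, Z ω ^ 2 ∂μ ≤ S := by
    rw [e2, integral_finsetSum _ fun x _ => i2 x]
    refine le_trans (le_of_eq (Finset.sum_congr rfl fun x _ => ?_)) hS
    rw [integral_finsetSum _ fun y _ => i1 _ ((hA x).inter (hA y))]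
    exact Finset.sum_congr rfl fun y _ => integral_indicator_one ((hA x).inter (hA y))
  obtain ⟨t, ht⟩ : ∃ t, t = m / (2 * S) := ⟨_, rfl⟩
  have t0 : 0 < t := by rw [ht]; positivity
  have t1 : t * (2 * S) = m := by rw [ht]; field_simp
  have k : ∫ ω, (2 * t * Z ω - t ^ 2 * Z ω ^ 2 - t * m) ∂μ ≤
      ∫ ω, {ω | c ≤ Z ω}.indicator (1 : Ω → ℝ) ω ∂μ := by
    refine integral_mono (((iZ.const_mul _).sub (iZ2.const_mul _)).sub (integrable_const _))
      (i1 _ mB) fun ω => ?_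
    have a0 := mul_pos t0 h0
    by_cases hω : ω ∈ {ω | c ≤ Z ω}
    · simp only [Set.indicator_of_mem hω, Pi.one_apply]
      nlinarith [sq_nonneg (t * Z ω - 1)]
    · simp only [Set.indicator_of_notMem hω]
      have a1 : Z ω ≤ m / 2 := (not_le.1 hω).le.trans hc
      nlinarith [sq_nonneg (t * Z ω), mul_le_mul_of_nonneg_left a1 t0.le]
  have i3 : Integrable (fun ω => 2 * t * Z ω - t ^ 2 * Z ω ^ 2) μ :=
    (iZ.const_mul _).sub (iZ2.const_mul _)
  rw [integral_indicator_one mB, integral_sub i3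
    (integrable_const _), integral_sub (iZ.const_mul _) (iZ2.const_mul _), integral_const_mul,
    integral_const_mul, v1, integral_const, probReal_univ, one_smul] at k
  have k2 : t ^ 2 * S ≤ μ.real {ω | c ≤ Z ω} := by
    have := mul_le_mul_of_nonneg_left v2 (sq_nonneg t)
    rw [← t1] at k
    nlinarith
  calc m ^ 2 = 4 * S * (t ^ 2 * S) := by rw [← t1]; ring
    _ ≤ _ := mul_le_mul_of_nonneg_left k2 (by positivity)

theorem card_blk (R : ℕ) : (R : ℝ) ^ 2 ≤ (blk R).card := by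
  have h : (range R ×ˢ range R).card ≤ (blk R).card := by
    refine Finset.card_le_card_of_injOn
      (fun p => (((p.1 : ℤ) + p.2 - 2 * ((R : ℤ) / 2), (p.1 : ℤ) - p.2) : Sq)) ?_ ?_
    · intro p hp
      simp only [coe_product, coe_range, Set.mem_prod, Set.mem_Iio] at hp
      simp only [blk, mem_coe, mem_filter, mem_box, Int.even_iff]
      omega
    · intro p _ q _ e
      simp only [Prod.mk.injEq] at e
      exact Prod.ext (by omega) (by omega)
  rw [card_product, card_range] at h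
  rw [pow_two]
  exact_mod_cast h

theorem nr_lt {R : ℕ} {x : Sq} (h : x ∈ blk R) : nr x < R + 1 := by
  simp only [blk, mem_filter, mem_box] at h
  unfold nr
  omega

theorem nr_pos {z : Sq} (h : z ≠ 0) : 1 ≤ nr z := by
  by_contra k
  unfold nr at k
  exact h (Prod.ext (by simp only [Prod.fst_zero]; omega) (by simp only [Prod.snd_zero]; omega))

theorem shift (hs : V_sum) {a : ℝ} (a0 : 0 ≤ a) (a1 : a ≤ 1) {R : ℕ} (hR : 1 ≤ R) {x : Sq}
    (hx : x ∈ blk R) :
    ∑ y ∈ (blk R).erase x, (nr (x - y) : ℝ) ^ (-a) ≤ 32 * (R : ℝ) ^ (2 - a) := by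
  have h1 : ∑ y ∈ (blk R).erase x, (nr (x - y) : ℝ) ^ (-a) ≤
      ∑ z ∈ (box (2 * R)).erase 0, (nr z : ℝ) ^ (-a) := by
    rw [← Finset.sum_image (s := (blk R).erase x) (g := fun y => x - y)
      (f := fun z => (nr z : ℝ) ^ (-a)) fun y _ y' _ e => sub_right_injective e]
    refine Finset.sum_le_sum_of_subset_of_nonneg (fun z hz => ?_) fun z _ _ => by positivity
    obtain ⟨y, hy, rfl⟩ := Finset.mem_image.1 hz
    obtain ⟨y1, y2⟩ := Finset.mem_erase.1 hy
    refine Finset.mem_erase.2 ⟨sub_ne_zero.2 y1.symm, ?_⟩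
    simp only [blk, mem_filter, mem_box] at hx y2
    simp only [mem_box, Prod.fst_sub, Prod.snd_sub]
    omega
  have h2 := hs a a0 a1 (2 * R) (by omega)
  have h3 : (2 : ℝ) ^ (2 - a) ≤ 2 ^ (2 : ℝ) :=
    Real.rpow_le_rpow_of_exponent_le one_le_two (by linarith)
  rw [Real.rpow_two] at h3
  rw [Nat.cast_mul, Nat.cast_ofNat, Real.mul_rpow zero_le_two (Nat.cast_nonneg R)] at h2
  have h4 : 0 ≤ (R : ℝ) ^ (2 - a) := by positivity
  nlinarith [mul_le_mul_of_nonneg_right h3 h4]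

theorem low {b : ℝ} (b0 : 0 ≤ b) (b1 : b ≤ 1) {R : ℕ} (hR : 1 ≤ R) :
    (R : ℝ) ^ (-b) ≤ 14 * ((7 * (R + 1) : ℕ) : ℝ) ^ (-b) := by
  have r1 : (1 : ℝ) ≤ R := by exact_mod_cast hR
  have h1 : (14 * (R : ℝ)) ^ (-b) ≤ ((7 * (R + 1) : ℕ) : ℝ) ^ (-b) :=
    Real.rpow_le_rpow_of_nonpos (by positivity) (by push_cast; linarith) (by linarith)
  have h2 : (14 : ℝ) ^ (-1 : ℝ) ≤ 14 ^ (-b) :=
    Real.rpow_le_rpow_of_exponent_le (by norm_num) (by linarith)
  rw [Real.rpow_neg_one] at h2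
  rw [Real.mul_rpow (by norm_num) (Nat.cast_nonneg R)] at h1
  have h4 : 0 ≤ (R : ℝ) ^ (-b) := by positivity
  nlinarith [mul_le_mul_of_nonneg_right h2 h4]

end YMomx

open YMomx in
theorem vmom_pf (h : Al) (hy : Y_0) (hs : V_sum) (hp : V_pair) : V_mom := by
  intro ε hε
  obtain ⟨e, e0, e1, e2⟩ : ∃ e : ℝ, 0 < e ∧ e ≤ ε / 2 ∧ e ≤ 5 / 48 :=
    ⟨min (ε / 2) (5 / 48), lt_min (by linarith) (by norm_num), min_le_left _ _, min_le_right _ _⟩
  obtain ⟨C, C1, hC⟩ := hp e e0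
  obtain ⟨D, D1, hD⟩ := hy.pol e e0
  refine ⟨14 * D * (132 * C), by nlinarith, fun R hR => ?_⟩
  have : IsProbabilityMeasure perc := fair_prob _
  have r1 : (1 : ℝ) ≤ R := by exact_mod_cast hR
  have r0 : (0 : ℝ) < R := by linarith
  have p0 : 0 < pc true 0 (7 * (R + 1)) := h.rsw.2 _
  have d1 := (hD (7 * (R + 1)) (by omega)).1
  have l1 := low (b := 5 / 48 + e) (by linarith) (by linarith) hR
  have hm : ((blk R).card : ℝ) * pc true 0 (7 * (R + 1)) =
      ∑ x ∈ blk R, perc.real (Ax x (7 * (R + 1))) := by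
    rw [Finset.sum_congr rfl fun x _ => (hy.ax x _).2.1, sum_const, nsmul_eq_mul]
  have q1 : (1 : ℝ) ≤ (R : ℝ) ^ (2 - (5 / 48 - e)) := Real.one_le_rpow r1 (by linarith)
  have hS : ∑ x ∈ blk R, ∑ y ∈ blk R, perc.real (Ax x (7 * (R + 1)) ∩ Ax y (7 * (R + 1))) ≤
      ((blk R).card : ℝ) * (33 * C * (R : ℝ) ^ (2 - (5 / 48 - e)) * pc true 0 (7 * (R + 1))) := by
    rw [← nsmul_eq_mul]
    refine Finset.sum_le_card_nsmul _ _ _ fun x hx => ?_
    rw [← Finset.add_sum_erase _ _ hx, Set.inter_self, (hy.ax x _).2.1]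
    have a1 : ∑ y ∈ (blk R).erase x, perc.real (Ax x (7 * (R + 1)) ∩ Ax y (7 * (R + 1))) ≤
        C * (∑ y ∈ (blk R).erase x, (nr (x - y) : ℝ) ^ (-(5 / 48 - e))) *
          pc true 0 (7 * (R + 1)) := by
      rw [Finset.mul_sum, Finset.sum_mul]
      exact Finset.sum_le_sum fun y hy => hC (R + 1) x y (nr_lt hx)
        (nr_lt (Finset.mem_erase.1 hy).2) (nr_pos (sub_ne_zero.2 (Finset.mem_erase.1 hy).1.symm))
    have a2 := shift hs (a := 5 / 48 - e) (by linarith) (by linarith) hR hx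
    have a3 := mul_le_mul_of_nonneg_right
      (mul_le_mul_of_nonneg_left a2 (by linarith : 0 ≤ C)) p0.le
    have a4 : 1 * pc true 0 (7 * (R + 1)) ≤
        C * (R : ℝ) ^ (2 - (5 / 48 - e)) * pc true 0 (7 * (R + 1)) :=
      mul_le_mul_of_nonneg_right (by nlinarith) p0.le
    linarith
  have c1 := card_blk R
  have c0 : (0 : ℝ) < (blk R).card := lt_of_lt_of_le (by positivity) c1
  have k := pz perc (blk R) (fun x => Ax x (7 * (R + 1)))
    (fun x => ((h.base.loc _ _).2 _ (hy.ax x _).1).1) (fun ω => (ZZ R (7 * (R + 1)) ω : ℝ))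
    (fun ω => by simp [ZZ, Set.indicator_apply]) _ _
    ((R : ℝ) ^ 2 * pc true 0 (7 * (R + 1)) / 2) hm (by positivity) (by positivity) hS
    (by gcongr)
  have s1 : (R : ℝ) ^ (-ε) ≤ (R : ℝ) ^ (-(5 / 48 + e)) * (R : ℝ) ^ (5 / 48 - e) := by
    rw [← Real.rpow_add r0]
    exact Real.rpow_le_rpow_of_exponent_le r1 (by linarith)
  have s2 : (R : ℝ) ^ (5 / 48 - e) * (R : ℝ) ^ (2 - (5 / 48 - e)) = (R : ℝ) ^ 2 := by
    rw [← Real.rpow_add r0, add_sub_cancel, Real.rpow_two]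
  have w0 : 0 < (R : ℝ) ^ (5 / 48 - e) := by positivity
  generalize perc.real {ω | (R : ℝ) ^ 2 * pc true 0 (7 * (R + 1)) / 2 ≤ ZZ R (7 * (R + 1)) ω} = P
    at k ⊢
  generalize pc true 0 (7 * (R + 1)) = p at *
  generalize ((blk R).card : ℝ) = N at *
  generalize (R : ℝ) ^ (2 - (5 / 48 - e)) = Q at *
  generalize (R : ℝ) ^ (5 / 48 - e) = W at *
  have u1 : N * p ≤ 132 * C * Q * P :=
    le_of_mul_le_mul_left (by linarith : N * p * (N * p) ≤ N * p * (132 * C * Q * P))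
      (mul_pos c0 p0)
  have u2 : W * p ≤ 132 * C * P := by
    have := mul_le_mul_of_nonneg_right c1 p0.le
    rw [← s2] at this
    exact le_of_mul_le_mul_left (by linarith : Q * (W * p) ≤ Q * (132 * C * P)) (by linarith)
  have u3 : (R : ℝ) ^ (-(5 / 48 + e)) ≤ 14 * (D * p) := by linarith
  calc (R : ℝ) ^ (-ε) ≤ 14 * (D * p) * W := s1.trans (mul_le_mul_of_nonneg_right u3 w0.le)
    _ = 14 * D * (W * p) := by ring
    _ ≤ 14 * D * (132 * C * P) := mul_le_mul_of_nonneg_left u2 (by linarith)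
    _ = _ := by ring

end Vale.Agent.P167Q
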