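import Vale.Agent.P167Q.YStm

/-! P167Q: two arms from two points. -/

open Finset MeasureTheory
open scoped Classical

namespace Vale.Agent.P167Q

namespace YPairx

theorem rp {x y m b : ℝ} (hx : 0 < x) (hy : 0 < y) (hm : 1 ≤ m) (h : x ≤ m * y) (hb : 0 ≤ b)
    (hb1 : b ≤ 1) : y ^ (-b) ≤ m * x ^ (-b) := by
  have h1 : x ^ b ≤ (m * y) ^ b := Real.rpow_le_rpow hx.le h hb
  rw [Real.mul_rpow (by linarith) hy.le] at h1
  have h2 : m ^ b ≤ m := by
    have := Real.rpow_le_rpow_of_exponent_le hm hb1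
    rwa [Real.rpow_one] at this
  have h3 : 0 < x ^ b := Real.rpow_pos_of_pos hx b
  have h4 : 0 < y ^ b := Real.rpow_pos_of_pos hy b
  have h5 : m ^ b * y ^ b ≤ m * y ^ b := mul_le_mul_of_nonneg_right h2 h4.le
  rw [Real.rpow_neg hx.le, Real.rpow_neg hy.le, ← div_eq_mul_inv, inv_eq_one_div,
    div_le_div_iff₀ h4 h3]
  linarith

theorem le_inter {V W : Finset Sq} {A B : Set Cf} (hA : Le V A) (hB : Le W B) :
    Le (V ∪ W) (A ∩ B) := by
  intro ω ω' hω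
  have h1 := hA ω ω' fun i hi => hω i (mem_union_left _ hi)
  have h2 := hB ω ω' fun i hi => hω i (mem_union_right _ hi)
  simp only [Set.mem_inter_iff] at h1 h2 ⊢
  rw [h1, h2]

theorem ax_mono {x : Sq} {k l : ℕ} (h : k ≤ l) : Ax x l ⊆ Ax x k := by
  intro ω hω hs
  apply hω
  intro z hz
  have h1 := mem_bz.1 (mem_coe.1 (hs hz))
  exact mem_coe.2 (mem_bz.2 (by omega))

theorem le_sh (h : Al) (x : Sq) {a b : ℕ} (ha : 1 ≤ a) (hab : a ≤ b) :
    Le (bz x (b + 1) \ bz x (a - 1)) (sh x ⁻¹' {ω | ¬NoArm a b ω}) := by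
  intro ω ω' hω
  refine h.dep.arm a b ha hab (sh x ω) (sh x ω') fun v hv => ?_
  have h1 : ω (v + x) = ω' (v + x) := by
    apply hω
    rw [mem_sdiff, mem_box, mem_box] at hv
    rw [mem_sdiff, mem_bz, mem_bz, Prod.fst_add, Prod.snd_add]
    omega
  unfold sh
  rw [h1]

theorem real_sh (h : Al) (x : Sq) (a b : ℕ) :
    perc.real (sh x ⁻¹' {ω | ¬NoArm a b ω}) = pa a b := by
  have h1 := ((h.base.loc Sq (box (b + 1))).2 _ (h.dep.arm0 a b)).1
  unfold pa Measure.real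
  rw [(h.sh.mp x).measure_preimage h1.nullMeasurableSet]

theorem sub_sh (h : Al) (x : Sq) (a b : ℕ) : Ax x b ⊆ sh x ⁻¹' {ω | ¬NoArm a b ω} := by
  intro ω hω hn
  apply hω
  intro z hz
  have h0 : (0 : Sq) ∈ box a := mem_box.2 (by simp)
  have h1 : z - x ∈ clus (sh x ω) 0 := by
    rw [h.sh.cl, sub_add_cancel, zero_add]
    exact hz
  have h2 := mem_box.1 (mem_coe.1 (hn 0 h0 h1))
  rw [Prod.fst_sub, Prod.snd_sub] at h2
  exact mem_coe.2 (mem_bz.2 (by omega))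

theorem three (h : Al) (hy : Y_0) (x y : Sq) {k a D : ℕ} (h1 : 2 * k + 3 ≤ nr (x - y))
    (h2 : nr (x - y) + k + 2 ≤ a) (h3 : a ≤ D) :
    perc.real (Ax x D ∩ Ax y D) ≤ pc true 0 k * pc true 0 k * pa a D := by
  haveI : IsProbabilityMeasure perc := fair_prob (ℤ × ℤ)
  have hs : Ax x D ∩ Ax y D ⊆ (Ax x k ∩ Ax y k) ∩ sh x ⁻¹' {ω | ¬NoArm a D ω} :=
    fun ω hω => ⟨⟨ax_mono (by omega) hω.1, ax_mono (by omega) hω.2⟩, sub_sh h x a D hω.1⟩
  refine (measureReal_mono hs).trans (le_of_eq ?_)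
  unfold nr at h1 h2
  rw [Prod.fst_sub, Prod.snd_sub] at h1 h2
  have d1 : Disjoint (bz x (k + 1)) (bz y (k + 1)) := by
    rw [disjoint_left]
    intro z z1 z2
    rw [mem_bz] at z1 z2
    omega
  have d2 : Disjoint (bz x (k + 1) ∪ bz y (k + 1)) (bz x (D + 1) \ bz x (a - 1)) := by
    rw [disjoint_left]
    intro z z1 z2
    rw [mem_union, mem_bz, mem_bz] at z1
    apply (mem_sdiff.1 z2).2
    rw [mem_bz]
    omega
  have e1 := (h.base.fk Sq _ _ _ _ (hy.ax x k).1 (hy.ax y k).1).2 d1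
  have e2 := (h.base.fk Sq _ _ _ _ (le_inter (hy.ax x k).1 (hy.ax y k).1)
    (le_sh h x (by omega) h3)).2 d2
  rw [← perc_eq] at e1 e2
  rw [e2, e1, (hy.ax x k).2.1, (hy.ax y k).2.1, real_sh h]

theorem third (h : Al) {b C : ℝ} (hb : 0 ≤ b) (hb1 : b ≤ 1) (hC : 1 ≤ C)
    (hp : ∀ k : ℕ, 1 ≤ k → (k : ℝ) ^ (-b) ≤ C * pc true 0 k) : ∃ K : ℝ, 0 ≤ K ∧
    ∀ a d D : ℕ, 1 ≤ d → 1 ≤ D → a + 72 ≤ 10 * d →
      pa a D * (d : ℝ) ^ (-b) ≤ K * pc true 0 D := by
  haveI : IsProbabilityMeasure perc := fair_prob (ℤ × ℤ)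
  obtain ⟨c, hc, hr⟩ := h.ring
  refine ⟨60 * C * (1 + 5 / c), by positivity, fun a d D hd hD ha => ?_⟩
  have hd0 : (0 : ℝ) < d := by exact_mod_cast hd
  have q0 : 0 ≤ pa a D := measureReal_nonneg
  have q1 : pa a D ≤ 1 := measureReal_le_one
  have p0 : 0 ≤ pc true 0 D := measureReal_nonneg
  have key : ∀ n : ℕ, 1 ≤ n → n ≤ 60 * d → (d : ℝ) ^ (-b) ≤ 60 * C * pc true 0 n := by
    intro n n1 n2
    have a1 := rp (x := n) (y := d) (m := 60) (by exact_mod_cast n1) hd0 (by norm_num)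
      (by exact_mod_cast n2) hb hb1
    have a2 := hp n n1
    linarith
  have hK : 0 ≤ 60 * C := by linarith
  have hc5 : 0 ≤ 5 / c := by positivity
  by_cases hv : 6 * (a + 72) ≤ D
  · have a1 := key (6 * (a + 72)) (by omega) (by omega)
    have a2 := hr 0 (a + 72) D (by omega) (by omega) hv
    have a3 := (h.sym true a D).2
    have a4 := h.sub.mc true (a + 1) (a + 72 - 1) D D (by omega) le_rfl
    have r0 : 0 ≤ pc true 0 (6 * (a + 72)) := measureReal_nonneg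
    have a5 : pa a D * pc true 0 (6 * (a + 72)) ≤ 5 / c * pc true 0 D := by
      rw [div_mul_eq_mul_div, le_div_iff₀ hc]
      have a6 : pa a D * pc true 0 (6 * (a + 72)) ≤
          5 * pc true (a + 72 - 1) D * pc true 0 (6 * (a + 72)) :=
        mul_le_mul_of_nonneg_right (by linarith) r0
      have a7 := mul_le_mul_of_nonneg_right a6 hc.le
      linarith
    have a6 := mul_le_mul_of_nonneg_left a1 q0
    have a7 := mul_le_mul_of_nonneg_left a5 hK
    have a8 := mul_nonneg hK p0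
    linarith
  · have a1 := key D hD (by omega)
    have t0 : 0 ≤ (d : ℝ) ^ (-b) := Real.rpow_nonneg hd0.le _
    have a2 := mul_le_mul_of_nonneg_right q1 t0
    have a3 := mul_nonneg (mul_nonneg hK hc5) p0
    linarith

theorem fin {P q r p s t w C K : ℝ} (ht : 0 < t) (hq : 0 ≤ q) (hp : 0 ≤ p) (hK : 0 ≤ K)
    (h1 : P ≤ q * q * r) (h2 : q ≤ C * s) (h3 : r * t ≤ K * p) (h4 : s * s = t * w) :
    P ≤ C ^ 2 * K * w * p := by
  have a1 : q * q ≤ C * s * (C * s) := mul_self_le_mul_self hq h2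
  have a2 := mul_le_mul_of_nonneg_right h1 ht.le
  have a3 := mul_le_mul_of_nonneg_left h3 (mul_nonneg hq hq)
  have a4 := mul_le_mul_of_nonneg_right a1 (mul_nonneg hK hp)
  have a5 : C * s * (C * s) * (K * p) = C ^ 2 * K * w * p * t := by
    calc C * s * (C * s) * (K * p) = C ^ 2 * K * p * (s * s) := by ring
      _ = C ^ 2 * K * w * p * t := by rw [h4]; ring
  apply le_of_mul_le_mul_right _ ht
  linarith

end YPairx

theorem vpair_pf (h : Al) (hy : Y_0) : V_pair := by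
  haveI : IsProbabilityMeasure perc := fair_prob (ℤ × ℤ)
  intro ε hε
  obtain ⟨δ, hδ, hδ1, hδ2⟩ : ∃ δ : ℝ, 0 < δ ∧ 3 * δ ≤ ε ∧ 3 * δ ≤ 5 / 48 :=
    ⟨min ε (5 / 48) / 3, by positivity, by linarith [min_le_left ε (5 / 48)],
      by linarith [min_le_right ε (5 / 48)]⟩
  obtain ⟨C, hC, hp⟩ := hy.pol δ hδ
  obtain ⟨K, hK, h3⟩ := YPairx.third h (b := 5 / 48 + δ) (by linarith) (by linarith) hC
    fun k hk => (hp k hk).1
  have hM : 0 ≤ (4 * C) ^ 2 * K := by positivity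
  refine ⟨(4 * C) ^ 2 * K + 10, by linarith, fun u x y hx hyu hd => ?_⟩
  have hdu : nr (x - y) + 2 ≤ 2 * u := by
    unfold nr at hx hyu ⊢
    rw [Prod.fst_sub, Prod.snd_sub]
    omega
  have hd1 : (1 : ℝ) ≤ nr (x - y) := by exact_mod_cast hd
  have hd0 : (0 : ℝ) < nr (x - y) := by linarith
  have p0 : 0 ≤ pc true 0 (7 * u) := measureReal_nonneg
  have w0 : 0 ≤ (nr (x - y) : ℝ) ^ (-(5 / 48 - 3 * δ)) := Real.rpow_nonneg hd0.le _
  have w1 : (nr (x - y) : ℝ) ^ (-(5 / 48 - 3 * δ)) ≤ (nr (x - y) : ℝ) ^ (-(5 / 48 - ε)) :=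
    Real.rpow_le_rpow_of_exponent_le hd1 (by linarith)
  refine le_trans ?_ (mul_le_mul_of_nonneg_right
    (mul_le_mul_of_nonneg_left w1 (by linarith)) p0)
  have wp := mul_nonneg w0 p0
  by_cases hs : nr (x - y) ≤ 10
  · have a1 : perc.real (Ax x (7 * u) ∩ Ax y (7 * u)) ≤ pc true 0 (7 * u) := by
      rw [← (hy.ax x (7 * u)).2.1]
      exact measureReal_mono Set.inter_subset_left
    have a2 := YPairx.rp (x := nr (x - y)) (y := 1) (m := 10) (b := 5 / 48 - 3 * δ) hd0 one_pos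
      (by norm_num) (by rw [mul_one]; exact_mod_cast hs) (by linarith) (by linarith)
    rw [Real.one_rpow] at a2
    have a3 := mul_le_mul_of_nonneg_right a2 p0
    have a4 := mul_nonneg hM wp
    linarith
  · obtain ⟨k, k1, k2⟩ : ∃ k : ℕ, 2 * k + 3 ≤ nr (x - y) ∧ nr (x - y) ≤ 2 * k + 4 :=
      ⟨(nr (x - y) - 3) / 2, by omega, by omega⟩
    have a1 := YPairx.three h hy x y (a := nr (x - y) + k + 2) (D := 7 * u) k1 le_rfl (by omega)
    have a2 := h3 (nr (x - y) + k + 2) (nr (x - y)) (7 * u) hd (by omega) (by omega)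
    have k0 : 1 ≤ k := by omega
    have k4 : nr (x - y) ≤ 4 * k := by omega
    have a3 := YPairx.rp (x := nr (x - y)) (y := k) (m := 4) (b := 5 / 48 - δ) hd0
      (by exact_mod_cast k0) (by norm_num) (by exact_mod_cast k4) (by linarith) (by linarith)
    have a4 : pc true 0 k ≤ 4 * C * (nr (x - y) : ℝ) ^ (-(5 / 48 - δ)) := by
      have a5 := mul_le_mul_of_nonneg_left a3 (by linarith : 0 ≤ C)
      linarith [(hp k k0).2]
    have a5 : (nr (x - y) : ℝ) ^ (-(5 / 48 - δ)) * (nr (x - y) : ℝ) ^ (-(5 / 48 - δ)) =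
        (nr (x - y) : ℝ) ^ (-(5 / 48 + δ)) * (nr (x - y) : ℝ) ^ (-(5 / 48 - 3 * δ)) := by
      rw [← Real.rpow_add hd0, ← Real.rpow_add hd0]
      ring_nf
    have a6 := YPairx.fin (Real.rpow_pos_of_pos hd0 _) measureReal_nonneg p0 hK a1 a4 a2 a5
    linarith

end Vale.Agent.P167Q
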