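import Vale.Agent.P167Q.YStm

/-! P167Q: polynomial bounds for the two point function. -/

open Finset Relation Filter Topology MeasureTheory
open scoped Classical

namespace Vale.Agent.P167Q

namespace YPolx

theorem cmp {k r N b : ℝ} (hk : 0 < k) (hr : 0 < r) (hN : 0 < N) (h : r ≤ N * k) (hb : 0 ≤ b) :
    k ^ (-b) ≤ N ^ b * r ^ (-b) := by
  have h1 : (N * k) ^ (-b) ≤ r ^ (-b) := Real.rpow_le_rpow_of_nonpos hr h (by linarith)
  have h2 := mul_le_mul_of_nonneg_left h1 (Real.rpow_nonneg hN.le b)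
  rwa [Real.mul_rpow hN.le hk.le, ← mul_assoc, ← Real.rpow_add hN, add_neg_cancel,
    Real.rpow_zero, one_mul] at h2

theorem prob : IsProbabilityMeasure perc := by
  unfold perc
  infer_instance

theorem up (hy : Y_0) (hu : T_up) {ε : ℝ} (hε : 0 < ε) : ∃ C : ℝ, 0 ≤ C ∧ ∀ x : Sq, 1 ≤ nr x →
    tp x ≤ C * (nr x : ℝ) ^ (-(5 / 24 - ε)) := by
  have := prob
  obtain ⟨δ, d0, d1, d2⟩ : ∃ δ : ℝ, 0 < δ ∧ δ ≤ ε ∧ δ ≤ 5 / 24 :=
    ⟨min ε (5 / 24), lt_min hε (by norm_num), min_le_left _ _, min_le_right _ _⟩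
  obtain ⟨C, hC, h1⟩ := hy.pol (δ / 2) (by linarith)
  refine ⟨C * C * 6 ^ (5 / 24 - δ), by positivity, fun x hx => ?_⟩
  have r1 : (1 : ℝ) ≤ nr x := by exact_mod_cast hx
  obtain ⟨k, k1, k2, k3⟩ : ∃ k : ℕ, 1 ≤ k ∧ nr x ≤ 6 * k ∧
      tp x ≤ C * C * (k : ℝ) ^ (-(5 / 24 - δ)) := by
    by_cases h5 : 5 ≤ nr x
    · have k1 : 1 ≤ (nr x - 3) / 2 := by omega
      refine ⟨(nr x - 3) / 2, k1, by omega, (hu.2 x ((nr x - 3) / 2) (by omega)).trans ?_⟩
      have h2 := (h1 _ k1).2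
      have h3 : (0 : ℝ) < (((nr x - 3) / 2 : ℕ) : ℝ) := by exact_mod_cast k1
      refine (mul_self_le_mul_self measureReal_nonneg h2).trans (le_of_eq ?_)
      rw [mul_mul_mul_comm, ← Real.rpow_add h3]
      congr 2
      ring
    · refine ⟨1, le_rfl, by omega, ?_⟩
      rw [Nat.cast_one, Real.one_rpow, mul_one]
      exact measureReal_le_one.trans (one_le_mul_of_one_le_of_one_le hC hC)
  have h4 := cmp (k := k) (r := nr x) (N := 6) (b := 5 / 24 - δ) (by exact_mod_cast k1)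
    (by linarith) (by norm_num) (by exact_mod_cast k2) (by linarith)
  have h5 : (nr x : ℝ) ^ (-(5 / 24 - δ)) ≤ (nr x : ℝ) ^ (-(5 / 24 - ε)) :=
    Real.rpow_le_rpow_of_exponent_le r1 (by linarith)
  refine k3.trans ?_
  rw [mul_assoc (C * C)]
  exact mul_le_mul_of_nonneg_left (h4.trans (mul_le_mul_of_nonneg_left h5 (by positivity)))
    (by positivity)

theorem lo (h : Al) (hy : Y_0) (hr : T_ring) {ε : ℝ} (hε : 0 < ε) : ∃ C : ℝ, 0 ≤ C ∧
    ∀ x : Sq, 1 ≤ nr x → Even (x.1 + x.2) → (nr x : ℝ) ^ (-(5 / 24 + ε)) ≤ C * tp x := by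
  have := prob
  obtain ⟨c, c0, hc⟩ := hr
  obtain ⟨C, hC, h1⟩ := hy.pol (ε / 2) (by linarith)
  refine ⟨(511 ^ (5 / 48 + ε / 2) * C) * (511 ^ (5 / 48 + ε / 2) * C) / c, by positivity,
    fun x hx he => ?_⟩
  have r0 : (0 : ℝ) < nr x := by exact_mod_cast hx
  have key : ∀ k : ℕ, 1 ≤ k → k ≤ 511 * nr x → (nr x : ℝ) ^ (-(5 / 48 + ε / 2)) ≤
      (511 ^ (5 / 48 + ε / 2) * C) * pc true 0 k := fun k k1 k2 => by
    have h4 := cmp (k := nr x) (r := k) (N := 511) (b := 5 / 48 + ε / 2) r0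
      (by exact_mod_cast k1) (by norm_num) (by exact_mod_cast k2) (by linarith)
    rw [mul_assoc]
    exact h4.trans (mul_le_mul_of_nonneg_left (h1 k k1).1 (by positivity))
  obtain ⟨G, W, g1, g2, g3, g4⟩ := hc (nr x + 72) (by omega)
  obtain ⟨a1, a2, a3⟩ := hy.ax x (7 * (nr x + 72))
  have f1 : perc.real G * perc.real (Ax x (7 * (nr x + 72))) ≤
      perc.real (G ∩ Ax x (7 * (nr x + 72))) := (h.base.fk _ _ _ _ _ g1 a1).1 g2 (a3 he)
  have f2 : perc.real (G ∩ Ax x (7 * (nr x + 72))) ≤ tp x :=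
    measureReal_mono fun ω hω => g4 ω hω.1 x he (by omega) hω.2
  rw [a2] at f1
  have f3 : c * pc true 0 (6 * (nr x + 72)) * pc true 0 (7 * (nr x + 72)) ≤ tp x :=
    (mul_le_mul_of_nonneg_right g3 measureReal_nonneg).trans (f1.trans f2)
  have f4 := mul_le_mul (key (6 * (nr x + 72)) (by omega) (by omega))
    (key (7 * (nr x + 72)) (by omega) (by omega)) (by positivity)
    (mul_nonneg (by positivity) measureReal_nonneg)
  rw [← Real.rpow_add r0, show -(5 / 48 + ε / 2) + -(5 / 48 + ε / 2) = -(5 / 24 + ε) by ring] at f4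
  refine f4.trans (le_trans (le_of_eq ?_) (mul_le_mul_of_nonneg_left f3 (by positivity)))
  field_simp

end YPolx

theorem tpol_pf (h : Al) (hy : Y_0) (hu : T_up) (hr : T_ring) : T_pol := by
  intro ε hε
  obtain ⟨C₁, c1, h1⟩ := YPolx.up hy hu hε
  obtain ⟨C₂, c2, h2⟩ := YPolx.lo h hy hr hε
  refine ⟨1 + C₁ + C₂, by linarith, fun x hx => ⟨(h1 x hx).trans ?_, fun he => (h2 x hx he).trans ?_⟩⟩
  · exact mul_le_mul_of_nonneg_right (by linarith) (by positivity)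
  · exact mul_le_mul_of_nonneg_right (by linarith) measureReal_nonneg

end Vale.Agent.P167Q
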