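import Vale.Agent.P167Q.XStm
import Vale.Agent.P167Q.HDet
import Vale.Agent.P167Q.HFk
import Vale.Agent.P145.RsRing
import Vale.Agent.P145.RsP1

/-! P167Q: a ring of crossings glues two black arms. -/

open MeasureTheory
open scoped Classical

namespace Vale.Agent.P167Q

open Vale.Agent.P152 (Vx Site v6 src tgt dir)
open Vale.Agent.P153 (Adj Conn adj_iff)
open Vale.Agent.P153.RSW (all)

namespace XRingx

/-- the black square of a site -/
def sb (v : Site) : Sq := (v.1 + v.2, v.1 - v.2)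

theorem sb_inj {f g : Site} (h : sb f = sb g) : f = g := by
  simp only [sb, Prod.mk.injEq] at h
  exact Prod.ext (by omega) (by omega)

theorem sb_surj {x : Sq} (h : Even (x.1 + x.2)) : ∃ f, sb f = x := by
  rw [Int.even_iff] at h
  refine ⟨((x.1 + x.2) / 2, (x.1 - x.2) / 2), Prod.ext ?_ ?_⟩ <;> simp only [sb] <;> omega

theorem ed_sb (m : Vx) :
    ed (v6 m) true true = sb (tgt m) ∧ ed (v6 m) true false = sb (src m) := by
  obtain ⟨⟨a, b⟩, s⟩ := m
  cases s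
  · have h : ¬Even ((v6 ((a, b), false)).1 + (v6 ((a, b), false)).2) := by
      rw [Int.even_iff]
      simp [v6]
      omega
    unfold ed
    simp only [h, decide_false]
    simp [v6, sb, src, tgt, dir]
    omega
  · have h : Even ((v6 ((a, b), true)).1 + (v6 ((a, b), true)).2) := by
      rw [Int.even_iff]
      simp [v6]
      omega
    unfold ed
    simp only [h, decide_true, if_true]
    simp [v6, sb, src, tgt, dir]
    omega

theorem fwd {ω : Cf} {a b : Site} (h : e2 (fun m => ω (v6 m)) a b) : Op ω (sb a) (sb b) := by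
  obtain ⟨m, hm, ⟨rfl, rfl⟩ | ⟨rfl, rfl⟩⟩ := h
  · have hm : ω (v6 m) = true := hm
    exact ⟨v6 m, false, by rw [hm, (ed_sb m).2], by rw [hm, Bool.not_false, (ed_sb m).1]⟩
  · have hm : ω (v6 m) = true := hm
    exact ⟨v6 m, true, by rw [hm, (ed_sb m).1], by rw [hm, Bool.not_true, (ed_sb m).2]⟩

theorem adj_st (m : Vx) : Adj (src m) (tgt m) := by
  obtain ⟨⟨a, b⟩, _ | _⟩ := m <;> simp [adj_iff, src, tgt, dir]

theorem bwd {ω : Cf} {a : Site} {y : Sq} (h : Op ω (sb a) y) : ∃ b, sb b = y ∧ Adj a b := by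
  obtain ⟨v, i, h1, h2⟩ := h
  obtain ⟨m, rfl⟩ := HDetx.v6_bij.2 v
  cases k : ω (v6 m) <;> rw [k] at h1 h2
  · have e : Even ((sb a).1 + (sb a).2) := ⟨a.1, by simp only [sb]; ring⟩
    cases i
    · exact absurd ((h1.trans (HDetx.ed_white m).2) ▸ e) (HDetx.tq_odd _)
    · exact absurd ((h1.trans (HDetx.ed_white m).1) ▸ e) (HDetx.tq_odd _)
  · cases i
    · obtain rfl := sb_inj (h1.trans (ed_sb m).2)
      exact ⟨_, ((ed_sb m).1.symm.trans h2.symm), adj_st m⟩
    · obtain rfl := sb_inj (h1.trans (ed_sb m).1)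
      exact ⟨_, ((ed_sb m).2.symm.trans h2.symm), (adj_st m).symm⟩

theorem path {ω : Cf} {a : Site} {y : Sq} (h : y ∈ clus ω (sb a)) :
    ∃ b, sb b = y ∧ Conn all {v | sb v ∈ clus ω (sb a)} a b := by
  induction h with
  | refl => exact ⟨a, rfl, .refl⟩
  | tail h k ih =>
    obtain ⟨b, rfl, hb⟩ := ih
    obtain ⟨c, rfl, hc⟩ := bwd k
    exact ⟨c, rfl, hb.tail ⟨hc, trivial, h, Relation.ReflTransGen.tail h k⟩⟩

theorem back {ω : Cf} {S : Set Site} {a b : Site} (h : Conn (e2 fun m => ω (v6 m)) S a b) :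
    sb b ∈ clus ω (sb a) := by
  induction h with
  | refl => exact Relation.ReflTransGen.refl
  | tail _ k ih => exact Relation.ReflTransGen.tail ih (fwd k.2.1)

theorem det (hb : P_bas) {ω : Cf} {a u d : ℕ} (hu : 72 ≤ u) (ha : a < u) (hd : 6 * u ≤ d)
    (h : (fun m => ω (v6 m)) ∈ Ci u (3 * u)) (h1 : ω ∈ BA true a (6 * u))
    (h2 : ω ∈ BA true (u - 1) d) : ω ∈ BA true a d := by
  obtain ⟨C, -, c2, c3⟩ := P145.Rs.s_ring P145.Rs.s_p1 _ e2 _ 0 _ _
    (fun a b ⟨m, hm, k⟩ => ⟨m, hm, k.symm⟩) (by omega) (by push_cast; omega) h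
  have arm : ∀ (x : Sq) (a d : ℕ), a < u → 6 * u ≤ d → x ∈ box a → Even (x.1 + x.2) →
      ¬clus ω x ⊆ box d → ∃ c ∈ C, sb c ∈ clus ω x := fun x a d ha hd hx he hn => by
    obtain ⟨y, hy, hy'⟩ := Set.not_subset.1 hn
    obtain ⟨p, rfl⟩ := sb_surj he
    obtain ⟨q, rfl, hq⟩ := path hy
    rw [Finset.mem_coe] at hy'
    simp only [mem_box, sb] at hx hy'
    obtain ⟨c, k1, k2⟩ := c3 {v | sb v ∈ clus ω (sb p)} p q
      (by simp only [P145.Rs.mem_sq, Prod.fst_zero, Prod.snd_zero]; omega)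
      (by simp only [P145.Rs.mem_sq, Prod.fst_zero, Prod.snd_zero]; push_cast; omega)
      (hb.self ω (sb p)) hq
    exact ⟨c, k2, k1⟩
  obtain ⟨x, hx, ex, nx⟩ := h1
  obtain ⟨y, hy, ey, ny⟩ := h2
  obtain ⟨c, k1, k2⟩ := arm x a _ ha le_rfl hx (of_decide_eq_true ex) nx
  obtain ⟨c', k3, k4⟩ := arm y _ d (by omega) hd hy (of_decide_eq_true ey) ny
  refine ⟨x, hx, ex, ?_⟩
  rwa [← hb.cleq ω _ _ k2, ← hb.cleq ω _ _ (back (c2 c k1 c' k3)), hb.cleq ω _ _ k4]

end XRingx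

theorem qring_pf (hb : Base) (hd : X_dep) : Q_ring := by
  obtain ⟨c, c0, hc⟩ := hb.cir
  refine ⟨c, c0, fun a u d hu ha h6 => ?_⟩
  have mp : MeasurePreserving (fun (ω : Cf) (m : Vx) => ω (v6 m)) (fair Sq) (fair Vx) := by
    simpa only [Bool.false_xor, Equiv.ofBijective_apply] using
      hb.inv _ _ (Equiv.ofBijective v6 HDetx.v6_bij) false
  have l0 : Le (box (3 * u) ×ˢ Finset.univ) (Ci u (3 * u)) := hb.ev.2.2 _ _ _ fun m hm _ => by
    simp only [P145.Rs.mem_sq, Prod.fst_zero, Prod.snd_zero, src] at hm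
    simp only [Finset.mem_product, mem_box, Finset.mem_univ, and_true]
    omega
  have l1 : Le ((box (3 * u) ×ˢ Finset.univ).image v6)
      ((fun (ω : Cf) (m : Vx) => ω (v6 m)) ⁻¹' Ci u (3 * u)) := fun ω ω' k =>
    l0 _ _ fun m hm => k _ (Finset.mem_image_of_mem _ hm)
  have u1 : IsUpperSet ((fun (ω : Cf) (m : Vx) => ω (v6 m)) ⁻¹' Ci u (3 * u)) :=
    (hb.ev.2.1 _ P145.Rs.up_cir).preimage fun ω ω' h m => h (v6 m)
  have l2 := HFkx.le_inter (HFkx.le_mono (hd.ba true a (6 * u)) Finset.subset_union_left)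
    (HFkx.le_mono (hd.ba true (u - 1) d) Finset.subset_union_right)
  have f1 := (hb.fk _ _ _ _ _ (hd.ba true a (6 * u)) (hd.ba true (u - 1) d)).1 (hd.up _ _)
    (hd.up _ _)
  have f2 := (hb.fk _ _ _ _ _ l1 l2).1 u1 ((hd.up _ _).inter (hd.up _ _))
  have f3 := (hc u hu).trans_eq
    (mp.measureReal_preimage ((hb.loc _ _).2 _ l0).1.nullMeasurableSet).symm
  refine ((mul_le_mul f3 f1 (mul_nonneg measureReal_nonneg measureReal_nonneg)
    measureReal_nonneg).trans f2).trans (measureReal_mono fun ω h => ?_)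
  exact XRingx.det hb.bas hu ha h6 h.1 h.2.1 h.2.2

end Vale.Agent.P167Q
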