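import Vale.Agent.P167Q.YStm
import Vale.Agent.P167Q.XRing

/-! P167Q: a ring of crossings joins every long black arm to the origin. -/

open MeasureTheory
open scoped Classical

namespace Vale.Agent.P167Q

open Vale.Agent.P152 (Vx Site v6 src tgt dir)
open Vale.Agent.P153 (Adj Conn adj_iff)
open Vale.Agent.P153.RSW (all)

namespace YRingx

open XRingx

theorem det (hb : P_bas) {ω : Cf} {u : ℕ} (hu : 72 ≤ u)
    (h : (fun m => ω (v6 m)) ∈ Ci u (3 * u)) (h1 : ω ∈ BA true 0 (6 * u)) (x : Sq)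
    (ex : Even (x.1 + x.2)) (hx : nr x < u) (h2 : ω ∈ Ax x (7 * u)) : x ∈ clus ω 0 := by
  obtain ⟨C, -, c2, c3⟩ := P145.Rs.s_ring P145.Rs.s_p1 _ e2 _ 0 _ _
    (fun a b ⟨m, hm, k⟩ => ⟨m, hm, k.symm⟩) (by omega) (by push_cast; omega) h
  have arm : ∀ (x : Sq) (a d : ℕ), a < u → 6 * u ≤ d → x ∈ box a → Even (x.1 + x.2) →
      ¬clus ω x ⊆ box d → ∃ c ∈ C, sb c ∈ clus ω x := fun x a d ha hd hx he hn => by
    obtain ⟨y, hy, hy'⟩ := Set.not_subset.1 hn
    obtain ⟨p, rfl⟩ := sb_surj he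
    obtain ⟨q, rfl, hq⟩ := path hy
    rw [Finset.mem_coe] at hy'
    simp only [mem_box, sb] at hx hy'
    obtain ⟨c, k1, k2⟩ := c3 {v | sb v ∈ clus ω (sb p)} p q
      (by simp only [P145.Rs.mem_sq, Prod.fst_zero, Prod.snd_zero]; omega)
      (by simp only [P145.Rs.mem_sq, Prod.fst_zero, Prod.snd_zero]; push_cast; omega)
      (hb.self ω (sb p)) hq
    exact ⟨c, k2, k1⟩
  obtain ⟨y, hy, ey, ny⟩ := h1
  have y0 : y = 0 := by
    simp only [mem_box] at hy
    exact Prod.ext (by simp only [Prod.fst_zero]; omega) (by simp only [Prod.snd_zero]; omega)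
  subst y0
  unfold nr at hx
  have bx : x ∈ box (u - 1) := by
    simp only [mem_box]
    omega
  have nx : ¬clus ω x ⊆ box (6 * u) := fun k => h2 fun z hz => by
    have k1 := k hz
    rw [Finset.mem_coe] at k1 ⊢
    simp only [mem_box] at k1
    rw [mem_bz]
    push_cast at k1 ⊢
    omega
  obtain ⟨c, k1, k2⟩ := arm 0 0 _ (by omega) le_rfl hy (of_decide_eq_true ey) ny
  obtain ⟨c', k3, k4⟩ := arm x _ _ (by omega) le_rfl bx ex nx
  rw [← hb.cleq ω _ _ k2, ← hb.cleq ω _ _ (back (c2 c k1 c' k3)), hb.cleq ω _ _ k4]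
  exact hb.self ω x

end YRingx

theorem tring_pf (h : Al) : T_ring := by
  have hb := h.base
  have hd := h.dep
  obtain ⟨c, c0, hc⟩ := hb.cir
  refine ⟨c, c0, fun u hu => ?_⟩
  have mp : MeasurePreserving (fun (ω : Cf) (m : Vx) => ω (v6 m)) (fair Sq) (fair Vx) := by
    simpa only [Bool.false_xor, Equiv.ofBijective_apply] using
      hb.inv _ _ (Equiv.ofBijective v6 HDetx.v6_bij) false
  have l0 : Le (box (3 * u) ×ˢ Finset.univ) (Ci u (3 * u)) := hb.ev.2.2 _ _ _ fun m hm _ => by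
    simp only [P145.Rs.mem_sq, Prod.fst_zero, Prod.snd_zero, src] at hm
    simp only [Finset.mem_product, mem_box, Finset.mem_univ, and_true]
    omega
  have l1 : Le ((box (3 * u) ×ˢ Finset.univ).image v6)
      ((fun (ω : Cf) (m : Vx) => ω (v6 m)) ⁻¹' Ci u (3 * u)) := fun ω ω' k =>
    l0 _ _ fun m hm => k _ (Finset.mem_image_of_mem _ hm)
  have u1 : IsUpperSet ((fun (ω : Cf) (m : Vx) => ω (v6 m)) ⁻¹' Ci u (3 * u)) :=
    (hb.ev.2.1 _ P145.Rs.up_cir).preimage fun ω ω' h m => h (v6 m)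
  have l2 := HFkx.le_inter (HFkx.le_mono l1 Finset.subset_union_left)
    (HFkx.le_mono (hd.ba true 0 (6 * u)) Finset.subset_union_right)
  have f2 := (hb.fk _ _ _ _ _ l1 (hd.ba true 0 (6 * u))).1 u1 (hd.up _ _)
  have f3 := (hc u hu).trans_eq
    (mp.measureReal_preimage ((hb.loc _ _).2 _ l0).1.nullMeasurableSet).symm
  refine ⟨_, _, l2, u1.inter (hd.up _ _),
    (mul_le_mul_of_nonneg_right f3 measureReal_nonneg).trans f2, fun ω hω x ex hx h2 => ?_⟩
  exact YRingx.det hb.bas hu hω.1 hω.2 x ex hx h2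

end Vale.Agent.P167Q
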