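import Vale.Agent.P167Q.YStm

/-! P167Q: lower bound for the generating function of the nesting number. -/

open Finset Filter Topology MeasureTheory
open scoped Classical

namespace Vale.Agent.P167Q

namespace YTlox

theorem memLp {G : Cf → ℝ} (h : Bd G) (p : ENNReal) : MemLp G p perc := by
  have : IsProbabilityMeasure perc := fair_prob (ℤ × ℤ)
  obtain ⟨h1, M, h2⟩ := h
  exact MemLp.of_bound h1.aestronglyMeasurable M (ae_of_all _ h2)

theorem key (h : Al) (hy : Y_0) {a p q c Z : ℝ} (hpq : p.HolderConjugate q) {γ n J m t k : ℕ}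
    {I : Finset (Sq × ℕ)}
    (hI : ∀ ω, MM J m t ω ≤ nN n ω ∧ nN n ω ≤ MM J m t ω + k + kI γ (box n) I ω)
    (h1 : Real.exp (c / p) ≤ ex fun ω => Real.exp (a / p) ^ MM J m t ω)
    (h2 : (ex fun ω => Real.exp (|a| * q / p) ^ kI γ (box n) I ω) ≤ Real.exp Z) :
    Real.exp (c - |a| * k - Z * p / q) ≤ ex fun ω => Real.exp a ^ nN n ω := by
  have p0 := hpq.pos
  have q0 := hpq.symm.pos
  have bf : Bd fun ω => Real.exp (nN n ω * a / p) :=
    h.bd.loc (box (n + 1)) _ fun ω ω' e => by simp only [hy.loc n ω ω' e]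
  have bg : Bd fun ω => Real.exp (kI γ (box n) I ω * |a| / p) :=
    h.bd.kI γ (box n) I fun j => Real.exp (j * |a| / p)
  have k1 : (ex fun ω => Real.exp (a / p) ^ MM J m t ω) ≤ ∫ ω, Real.exp (|a| * k / p) *
      (Real.exp (nN n ω * a / p) * Real.exp (kI γ (box n) I ω * |a| / p)) ∂perc := by
    refine integral_mono_of_nonneg (ae_of_all _ fun ω => by positivity)
      ((h.bd.int _ (h.bd.mul _ _ bf bg)).const_mul _) (ae_of_all _ fun ω => ?_)
    simp only [← Real.exp_nat_mul, ← Real.exp_add, ← add_div, ← mul_div_assoc]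
    refine Real.exp_le_exp.2 (div_le_div_of_nonneg_right ?_ p0.le)
    have a1 : (MM J m t ω : ℝ) ≤ nN n ω := by exact_mod_cast (hI ω).1
    have a2 : (nN n ω : ℝ) ≤ MM J m t ω + k + kI γ (box n) I ω := by exact_mod_cast (hI ω).2
    nlinarith [mul_le_mul_of_nonneg_left (neg_abs_le a) (sub_nonneg.2 a1),
      mul_le_mul_of_nonneg_right a2 (abs_nonneg a)]
  have k2 := integral_mul_le_Lp_mul_Lq_of_nonneg hpq (μ := perc)
    (ae_of_all _ fun ω => (Real.exp_pos _).le) (ae_of_all _ fun ω => (Real.exp_pos _).le)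
    (memLp bf _) (memLp bg _)
  have e1 : ∫ ω, Real.exp (nN n ω * a / p) ^ p ∂perc = ex fun ω => Real.exp a ^ nN n ω := by
    simp only [ex, ← Real.exp_mul, div_mul_cancel₀ _ p0.ne', Real.exp_nat_mul]
  have e2 : ∫ ω, Real.exp (kI γ (box n) I ω * |a| / p) ^ q ∂perc =
      ex fun ω => Real.exp (|a| * q / p) ^ kI γ (box n) I ω := by
    simp only [ex, ← Real.exp_mul, ← Real.exp_nat_mul]
    exact integral_congr_ae (ae_of_all _ fun ω => congrArg Real.exp (by ring))
  rw [e1, e2] at k2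
  have n1 : 0 ≤ ex fun ω => Real.exp a ^ nN n ω := integral_nonneg fun ω => by positivity
  have k3 := Real.rpow_le_rpow (integral_nonneg fun ω => by positivity) h2
    (by positivity : 0 ≤ 1 / q)
  rw [integral_const_mul] at k1
  have k4 := h1.trans (k1.trans (mul_le_mul_of_nonneg_left
    (k2.trans (mul_le_mul_of_nonneg_left k3 (Real.rpow_nonneg n1 _))) (Real.exp_pos _).le))
  rw [← Real.exp_mul, mul_left_comm, ← Real.exp_add, ← div_le_iff₀ (Real.exp_pos _),
    ← Real.exp_sub] at k4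
  have k5 := Real.rpow_le_rpow (Real.exp_pos _).le k4 p0.le
  rw [← Real.exp_mul, one_div p, Real.rpow_inv_rpow n1 p0.ne'] at k5
  refine le_trans (le_of_eq (congrArg _ ?_)) k5
  field_simp
  ring

end YTlox

theorem stlo_pf (h : Al) (hy : Y_0) (hh : S_hol) (hl : S_lo) (hc : S_cnt) : S_tlo := by
  intro x x0 x1 ε hε
  have l2 : 0 < Real.log 2 := Real.log_pos (by norm_num)
  have w0 : 0 < 2 * Real.cos x :=
    mul_pos two_pos (Real.cos_pos_of_mem_Ioo ⟨by linarith [Real.pi_pos], x1⟩)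
  obtain ⟨p, hp, m₀, hm⟩ := hl x x0 x1 (ε / 4 * Real.log 2) (by positivity)
  have p0 : 0 < p := by linarith
  have hpq : p.HolderConjugate (p / (p - 1)) := (Real.holderConjugate_iff_eq_conjExponent hp).2 rfl
  generalize p / (p - 1) = q at hpq
  have q1 := hpq.symm.lt
  rw [← Real.exp_log w0] at hm ⊢
  generalize Real.log (2 * Real.cos x) = a at hm ⊢
  have T1 : 1 ≤ Real.exp (|a| * q / p) := Real.one_le_exp (by positivity)
  obtain ⟨γ, γ1, hγ⟩ := h.arm (1 / (4 * Real.exp (|a| * q / p) ^ 2)) (by positivity)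
  have hg := h.gen _ _ γ T1 γ1 (le_of_eq (mul_one_div_cancel (by positivity))) hγ
  obtain ⟨n₀, J₀, hc⟩ := hc γ γ1
  obtain ⟨m, m1, m2, m3⟩ : ∃ m : ℕ, m₀ ≤ m ∧ 4 ≤ m ∧ p * n₀ / (ε / 4) ≤ m :=
    ⟨max (max m₀ 4) ⌈p * n₀ / (ε / 4)⌉₊, by omega, by omega,
      (Nat.le_ceil _).trans (by exact_mod_cast le_max_right _ _)⟩
  rw [div_le_iff₀ (by positivity)] at m3
  obtain ⟨J₁, hJ₁⟩ := eventually_atTop.1 (hm m m1)
  obtain ⟨J, J0, J1⟩ : ∃ J : ℕ, J₀ ≤ J ∧ J₁ ≤ J := ⟨max J₀ J₁, by omega, by omega⟩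
  have hlog : Tendsto (fun n : ℕ => Real.log n) atTop atTop :=
    Real.tendsto_log_atTop.comp tendsto_natCast_atTop_atTop
  filter_upwards [hlog.eventually_ge_atTop ((|a| * (box (3 * 2 ^ J)).card +
    p * Real.log 2 * (1 + n₀ * m) + |gx x - ε / 2| * ((J + m) * Real.log 2)) / (ε / 2)),
    eventually_ge_atTop (2 ^ J)] with n hn hn1
  rw [div_le_iff₀ (by positivity)] at hn
  have n0 : n ≠ 0 := by
    have := Nat.one_le_two_pow (n := J)
    omega
  have b0 : J ≤ Nat.log 2 n := Nat.le_log_of_pow_le (by norm_num) hn1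
  obtain ⟨t, ht⟩ : ∃ t : ℕ, t = (Nat.log 2 n - J) / m := ⟨_, rfl⟩
  have t1 : t * m ≤ Nat.log 2 n - J := ht ▸ Nat.div_mul_le_self _ _
  have t2 : Nat.log 2 n - J < (t + 1) * m := by
    rw [ht, mul_comm]
    exact Nat.lt_mul_div_succ _ (by omega)
  have b1 : 2 ^ (J + t * m) ≤ n :=
    (Nat.pow_le_pow_right (by norm_num) (by omega)).trans (Nat.pow_log_le_self 2 n0)
  have b2 : n < 2 ^ (J + (t + 1) * m) := (Nat.lt_pow_succ_log_self (by norm_num) n).trans_le
    (Nat.pow_le_pow_right (by norm_num) (by omega))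
  obtain ⟨I, i1, i2, i3⟩ := hc J J0 m m2 t n b1 b2
  refine le_trans (Real.exp_le_exp.2 ?_) (YTlox.key h hy hpq i3
    (c := (gx x * Real.log 2 - ε / 4 * Real.log 2) * m * t)
    (Z := (1 + (n₀ * (t + m) : ℕ) : ℕ) * Real.log 2) ?_ ?_)
  · have c1 := Real.log_le_log (by positivity) (show (2 : ℝ) ^ (J + t * m) ≤ n by exact_mod_cast b1)
    have c2 := Real.log_le_log (by positivity)
      (show (n : ℝ) ≤ 2 ^ (J + (t + 1) * m) by exact_mod_cast b2.le)
    rw [Real.log_pow] at c1 c2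
    push_cast at c1 c2 ⊢
    have c3 : (1 + n₀ * (t + m)) * Real.log 2 * p / q ≤ (1 + n₀ * (t + m)) * Real.log 2 * p :=
      div_le_self (by positivity) q1.le
    have c4 := mul_le_mul_of_nonneg_right m3 (show 0 ≤ t * Real.log 2 by positivity)
    have c5 : 0 ≤ (J : ℝ) * Real.log 2 := by positivity
    have c6 := mul_le_mul (le_abs_self (gx x - ε / 2))
      (show Real.log n - t * m * Real.log 2 ≤ (J + m) * Real.log 2 by linarith)
      (by linarith) (abs_nonneg _)
    linarith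
  · rw [hh.2 _ J m t m2, mul_div_right_comm, mul_comm, Real.exp_nat_mul, ← card_range t,
      ← prod_const, card_range]
    refine prod_le_prod (fun _ _ => (Real.exp_pos _).le) fun i _ => ?_
    have c1 := hJ₁ (J + i * m) (by omega)
    rw [← Real.exp_mul, mul_one_div] at c1
    refine (Real.rpow_le_rpow_iff (Real.exp_pos _).le (h.r0.mono _ _ _ _ (Real.exp_pos _).le le_rfl).1
      p0).1 (le_trans (le_of_eq ?_) c1)
    rw [← Real.exp_mul, div_mul_cancel₀ _ p0.ne']
  · refine (hg _ I i2).trans ?_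
    rw [Real.exp_nat_mul, Real.exp_log two_pos, pow_add, pow_one]
    gcongr
    norm_num

end Vale.Agent.P167Q
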