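import Vale.Agent.P167Q.YStm

/-! Upper bound for the two point function. -/

open Finset Relation Filter Topology MeasureTheory
open scoped Classical BigOperators

namespace Vale.Agent.P167Q

namespace YTpx

theorem rmono {r p : Sq → Sq → Prop} (h : ∀ u v, r u v → p u v) {a b : Sq}
    (hp : ReflTransGen r a b) : ReflTransGen p a b := by
  induction hp with
  | refl => exact ReflTransGen.refl
  | tail _ hbc ih => exact ih.tail (h _ _ hbc)

/-- connection inside a box -/
def Pk (K : ℕ) (x : Sq) : Set Cf :=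
  {ω | ReflTransGen (fun u v => Op ω u v ∧ u ∈ box K) 0 x}

theorem pk_loc (hb : P_bas) (K : ℕ) (x : Sq) : Le (box (K + 1)) (Pk K x) := by
  have key : ∀ ω ω' : Cf, (∀ i ∈ box (K + 1), ω i = ω' i) → ω ∈ Pk K x → ω' ∈ Pk K x := by
    intro ω ω' he hp
    refine rmono (fun u v huv => ⟨?_, huv.2⟩) hp
    obtain ⟨⟨w, i, h1, h2⟩, hu⟩ := huv
    have hw : ω w = ω' w := he w ((hb.edb K w (ω w) i).2 (h1 ▸ hu))
    exact ⟨w, i, hw ▸ h1, hw ▸ h2⟩
  intro ω ω' he
  exact propext ⟨key ω ω' he, key ω' ω fun i hi => (he i hi).symm⟩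

theorem un (hb : P_bas) (x : Sq) : {ω : Cf | x ∈ clus ω 0} = ⋃ K, Pk K x := by
  ext ω
  simp only [Set.mem_ofPred_eq, Set.mem_iUnion]
  constructor
  · intro hx
    have hx' : ReflTransGen (Op ω) 0 x := hx
    clear hx
    induction hx' with
    | refl => exact ⟨0, ReflTransGen.refl⟩
    | @tail b c _ hbc ih =>
      obtain ⟨K, hK⟩ := ih
      obtain ⟨K', hK'⟩ := hb.fin {b} (Set.finite_singleton b)
      refine ⟨max K K', ReflTransGen.tail (rmono (fun u v huv =>
        ⟨huv.1, hb.mono K _ (le_max_left _ _) huv.2⟩) hK) ⟨hbc, ?_⟩⟩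
      exact hb.mono K' _ (le_max_right _ _) (hK' (Set.mem_singleton b))
  · rintro ⟨K, hK⟩
    exact rmono (fun u v huv => huv.1) hK

end YTpx

open YTpx in
theorem tup_pf (h : Al) (hy : Y_0) : T_up := by
  have hb := h.base.bas
  refine ⟨fun x => ?_, fun x k hk => ?_⟩
  · rw [un hb]
    exact MeasurableSet.iUnion fun K => ((h.base.loc _ _).2 _ (pk_loc hb K x)).1
  · have hsub : {ω : Cf | x ∈ clus ω 0} ⊆ Ax 0 k ∩ Ax x k := by
      intro ω hω
      refine ⟨fun hs => ?_, fun hs => ?_⟩
      · have h1 := mem_bz.mp (hs hω)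
        simp only [Prod.fst_zero, Prod.snd_zero] at h1
        unfold nr at hk
        omega
      · have h0 : (0 : Sq) ∈ clus ω x := by
          rw [hb.cleq ω 0 x hω]
          exact hb.self ω 0
        have h1 := mem_bz.mp (hs h0)
        simp only [Prod.fst_zero, Prod.snd_zero] at h1
        unfold nr at hk
        omega
    have hd : Disjoint (bz 0 (k + 1)) (bz x (k + 1)) := by
      refine disjoint_left.mpr fun y h1 h2 => ?_
      have h3 := mem_bz.mp h1
      have h4 := mem_bz.mp h2
      simp only [Prod.fst_zero, Prod.snd_zero] at h3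
      unfold nr at hk
      omega
    have hp := (h.base.fk _ _ _ _ _ (hy.ax 0 k).1 (hy.ax x k).1).2 hd
    have : IsProbabilityMeasure perc := fair_prob _
    rw [← perc_eq, (hy.ax 0 k).2.1, (hy.ax x k).2.1] at hp
    rw [← hp]
    exact measureReal_mono hsub

end Vale.Agent.P167Q
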