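import Vale.Agent.P167Q.YStm

/-! P167Q: upper bound for the nesting moments at all radii. -/

open Finset Filter Topology MeasureTheory
open scoped Classical

namespace Vale.Agent.P167Q

namespace YTupx

theorem memLp {f : Cf → ℝ} (hf : Bd f) (r : ENNReal) : MemLp f r perc := by
  have : IsProbabilityMeasure perc := by rw [perc_eq]; infer_instance
  obtain ⟨hm, M, hM⟩ := hf
  exact MemLp.of_bound hm.aestronglyMeasurable M (Eventually.of_forall hM)

theorem holder {p q : ℝ} (hpq : p.HolderConjugate q) {f g : Cf → ℝ} (hf : Bd f) (hg : Bd g)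
    (f0 : ∀ ω, 0 ≤ f ω) (g0 : ∀ ω, 0 ≤ g ω) :
    (ex fun ω => f ω * g ω) ≤
      (ex fun ω => f ω ^ p) ^ (1 / p) * (ex fun ω => g ω ^ q) ^ (1 / q) :=
  integral_mul_le_Lp_mul_Lq_of_nonneg hpq (Eventually.of_forall f0) (Eventually.of_forall g0)
    (memLp hf _) (memLp hg _)

theorem bd_MM (hb : X_bd) (u : ℝ) (J m t : ℕ) : Bd fun ω => u ^ MM J m t ω := by
  induction t with
  | zero => simpa [MM] using hb.const 1
  | succ t ih =>
    have := hb.mul _ _ ih (hb.mid (3 * 2 ^ (J + t * m)) (2 ^ (J + t * m + m) - 1) fun k => u ^ k)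
    simpa only [MM, sum_range_succ, pow_add, N1] using this

theorem pw {w L : ℝ} (hw : 0 ≤ w) (hL : 1 ≤ L) (hwL : w ≤ L) {N M k j : ℕ} (h1 : M ≤ N)
    (h2 : N ≤ M + k + j) : w ^ N ≤ L ^ k * (w ^ M * L ^ j) := by
  obtain ⟨d, rfl⟩ := Nat.exists_eq_add_of_le h1
  have h3 : w ^ d ≤ L ^ (k + j) :=
    (pow_le_pow_left₀ hw hwL d).trans (pow_le_pow_right₀ hL (by omega))
  calc w ^ (M + d) = w ^ M * w ^ d := pow_add _ _ _
    _ ≤ w ^ M * L ^ (k + j) := mul_le_mul_of_nonneg_left h3 (pow_nonneg hw _)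
    _ = _ := by rw [pow_add]; ring

theorem two_pow_le (k : ℕ) : (2 : ℝ) ^ k ≤ Real.exp k := by
  rw [← Real.exp_one_pow]
  exact pow_le_pow_left₀ zero_le_two (by linarith [Real.add_one_le_exp 1]) k

theorem scale {J m n : ℕ} (hm : 0 < m) (hn : 2 ^ J ≤ n) :
    ∃ t : ℕ, 2 ^ (J + t * m) ≤ n ∧ n < 2 ^ (J + (t + 1) * m) := by
  have hn0 : n ≠ 0 := ((Nat.two_pow_pos J).trans_le hn).ne'
  have h1 : J ≤ Nat.log 2 n := Nat.le_log_of_pow_le one_lt_two hn
  have h2 := Nat.div_mul_le_self (Nat.log 2 n - J) m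
  have h3 := Nat.lt_mul_div_succ (Nat.log 2 n - J) hm
  rw [mul_comm] at h3
  refine ⟨(Nat.log 2 n - J) / m, ?_, ?_⟩
  · exact (Nat.pow_le_pow_right two_pos (by omega)).trans (Nat.pow_log_le_self 2 hn0)
  · exact (Nat.lt_pow_succ_log_self one_lt_two n).trans_le
      (Nat.pow_le_pow_right two_pos (by omega))

theorem fin {γ ε l a lam B c C : ℝ} (hε : 0 < ε) (h1 : a * lam ≤ l) (h2 : l ≤ a * lam + B)
    (hc : c ≤ ε * lam / 4 * a) (hC : C + |γ| * B ≤ ε / 2 * l) :
    C + (γ * lam + ε * lam / 4) * a + c ≤ (γ + ε) * l := by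
  have h3 : γ * (a * lam - l) ≤ |γ| * B := by
    refine (le_abs_self _).trans ?_
    rw [abs_mul]
    exact mul_le_mul_of_nonneg_left (abs_le.mpr ⟨by linarith, by linarith⟩) (abs_nonneg _)
  have h4 : ε * (a * lam) ≤ ε * l := mul_le_mul_of_nonneg_left h1 hε.le
  nlinarith

end YTupx

open YTupx in
theorem stup_pf (h : Al) (hy : Y_0) (hh : S_hol) (h0 : S_upx 0) (h1 : S_up1) (hc : S_cnt) :
    S_tup := by
  intro x x0 x1 ε hε
  have hx : S_upx x := by
    rcases x0.eq_or_lt with rfl | x0'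
    · exact h0
    · exact h1 x x0' x1
  have hw : 0 < 2 * Real.cos x :=
    mul_pos two_pos (Real.cos_pos_of_mem_Ioo ⟨by linarith [Real.pi_pos], x1⟩)
  set w := 2 * Real.cos x with hwd
  set L := max w 1 with hLd
  have hL : 1 ≤ L := le_max_right _ _
  have hL0 : 0 < L := by linarith
  have hl2 : 0 < Real.log 2 := Real.log_pos one_lt_two
  have he : 0 < ε * Real.log 2 / 4 := by positivity
  obtain ⟨p, hp, m₀, hm₀⟩ := hx _ he
  have hpq := Real.HolderConjugate.conjExponent hp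
  set q := Real.conjExponent p with hqd
  have hq : 1 < q := hpq.symm.lt
  have hT : 1 ≤ L ^ q := Real.one_le_rpow hL (by linarith)
  obtain ⟨g, hg, harm⟩ := h.arm (1 / (4 * (L ^ q) ^ 2)) (by positivity)
  obtain ⟨n₀, J₀, hJ₀⟩ := hc g hg
  obtain ⟨m₁, hm₁⟩ := exists_nat_ge ((n₀ : ℝ) / (ε * Real.log 2 / 4))
  obtain ⟨m, hma, hmb, hmc⟩ : ∃ m : ℕ, m₀ ≤ m ∧ 4 ≤ m ∧ m₁ ≤ m :=
    ⟨m₀ + 4 + m₁, by omega, by omega, by omega⟩
  have hn₀ : (n₀ : ℝ) ≤ m * (ε * Real.log 2 / 4) :=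
    (div_le_iff₀ he).mp (hm₁.trans (by exact_mod_cast hmc))
  obtain ⟨J₁, hJ₁⟩ := eventually_atTop.mp (hm₀ m hma)
  obtain ⟨J, hJa, hJb⟩ : ∃ J : ℕ, J₀ ≤ J ∧ J₁ ≤ J := ⟨J₀ + J₁, by omega, by omega⟩
  set k := (box (3 * 2 ^ J)).card with hk
  set C := Real.log (L ^ k * 2) + n₀ * m with hC
  have hlog : Tendsto (fun n : ℕ => ε / 2 * Real.log n) atTop atTop :=
    (Real.tendsto_log_atTop.comp tendsto_natCast_atTop_atTop).const_mul_atTop (by positivity)
  filter_upwards [eventually_ge_atTop (2 ^ J),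
    hlog.eventually_ge_atTop (C + |gx x| * (((J : ℝ) + m) * Real.log 2))] with n hn hCn
  obtain ⟨t, ht1, ht2⟩ := scale (m := m) (by omega) hn
  obtain ⟨I, hI1, hI2, hI3⟩ := hJ₀ J hJa m hmb t n ht1 ht2
  have b1 := bd_MM h.bd w J m t
  have b2 : Bd fun ω => L ^ kI g (box n) I ω := h.bd.kI g (box n) I fun j => L ^ j
  have b3 : Bd fun ω => w ^ nN n ω :=
    h.bd.loc (box (n + 1)) _ fun ω ω' hω => by rw [hy.loc n ω ω' hω]
  have s1 : (ex fun ω => w ^ nN n ω) ≤
      L ^ k * ex fun ω => w ^ MM J m t ω * L ^ kI g (box n) I ω := by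
    unfold ex
    rw [← integral_const_mul]
    exact integral_mono (h.bd.int _ b3) ((h.bd.int _ (h.bd.mul _ _ b1 b2)).const_mul _)
      fun ω => pw hw.le hL (le_max_left _ _) (hI3 ω).1 (hI3 ω).2
  have s2 := holder hpq b1 b2 (fun ω => by positivity) (fun ω => by positivity)
  have s3 : (ex fun ω => (w ^ MM J m t ω) ^ p) ^ (1 / p) ≤
      Real.exp ((gx x * Real.log 2 + ε * Real.log 2 / 4) * (m * t)) := by
    simp only [← Real.rpow_pow_comm hw.le]
    have f0 : ∀ i : ℕ, 0 ≤ FF (w ^ p) (J + i * m) m := fun i =>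
      (h.r0.mono (w ^ p) (w ^ p) _ _ (by positivity) le_rfl).1
    rw [hh.2 _ J m t hmb, ← Real.finsetProd_rpow _ _ fun i _ => f0 i]
    refine (prod_le_prod (fun i _ => Real.rpow_nonneg (f0 i) _)
      fun i _ => hJ₁ (J + i * m) (by omega)).trans (le_of_eq ?_)
    rw [prod_const, card_range, ← Real.exp_nat_mul]
    congr 1
    ring
  have s4 : (ex fun ω => (L ^ kI g (box n) I ω) ^ q) ^ (1 / q) ≤
      2 * Real.exp (n₀ * ((t : ℝ) + m)) := by
    simp only [← Real.rpow_pow_comm hL0.le]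
    have a1 := h.gen (L ^ q) _ g hT hg (le_of_eq (by field_simp)) harm (box n) I hI2
    have a2 : (1 : ℝ) ≤ 2 * 2 ^ I.card := by
      have : (1 : ℝ) ≤ 2 ^ I.card := one_le_pow₀ one_le_two
      linarith
    have a3 : 0 ≤ ex fun ω => (L ^ q) ^ kI g (box n) I ω :=
      integral_nonneg fun ω => by positivity
    refine (Real.rpow_le_rpow a3 a1 (by positivity)).trans ?_
    refine (Real.rpow_le_self_of_one_le a2 ((div_le_one (by linarith)).mpr hq.le)).trans ?_
    refine mul_le_mul_of_nonneg_left ((two_pow_le _).trans (Real.exp_le_exp.mpr ?_)) zero_le_two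
    exact_mod_cast hI1
  have s5 := mul_le_mul s3 s4 (Real.rpow_nonneg (integral_nonneg fun ω => by positivity) _)
    (Real.exp_pos _).le
  refine (s1.trans (mul_le_mul_of_nonneg_left (s2.trans s5) (by positivity))).trans ?_
  have n0 : (0 : ℝ) < n := by exact_mod_cast (Nat.two_pow_pos J).trans_le hn
  have l1 : ((J : ℝ) + t * m) * Real.log 2 ≤ Real.log n := by
    have := Real.log_le_log (by positivity) (show ((2 : ℝ) ^ (J + t * m)) ≤ n by exact_mod_cast ht1)
    rw [Real.log_pow] at this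
    exact_mod_cast this
  have l2 : Real.log n ≤ ((J : ℝ) + (t + 1) * m) * Real.log 2 := by
    have := Real.log_le_log n0 (show (n : ℝ) ≤ 2 ^ (J + (t + 1) * m) by exact_mod_cast ht2.le)
    rw [Real.log_pow] at this
    exact_mod_cast this
  have l3 : 0 ≤ (J : ℝ) * Real.log 2 := by positivity
  have l5 := mul_le_mul_of_nonneg_right hn₀ (Nat.cast_nonneg (α := ℝ) t)
  have l4 := fin (γ := gx x) (a := (m : ℝ) * t) (c := (n₀ : ℝ) * t) (lam := Real.log 2) hε
    (by linarith) (by linarith) (by linarith) hCn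
  refine le_trans (le_of_eq ?_) (Real.exp_le_exp.mpr l4)
  rw [hC, Real.exp_add, Real.exp_add, Real.exp_add, Real.exp_log (by positivity), mul_add (n₀ : ℝ),
    Real.exp_add]
  ring

end Vale.Agent.P167Q
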