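import Vale.Agent.P167Q.YStm

/-! P167Q, nesting spectrum: the upper bound at the end point. -/

open Finset Filter Topology
open scoped Classical

namespace Vale.Agent.P167Q

namespace YUp0x

theorem pick (C ε : ℝ) (hε : 0 < ε) : ∃ s : ℝ, 0 < s ∧ s < 1 ∧ C * s ≤ ε / 2 := by
  have h0 : 0 < |C| + 1 := by positivity
  refine ⟨min (1 / 2) (ε / 2 / (|C| + 1)), lt_min (by norm_num) (by positivity),
    (min_le_left _ _).trans_lt (by norm_num), ?_⟩
  have h1 : 0 ≤ min (1 / 2) (ε / 2 / (|C| + 1)) := le_min (by norm_num) (by positivity)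
  have h2 := (le_div_iff₀ h0).1 (min_le_right (1 / 2) (ε / 2 / (|C| + 1)))
  nlinarith [le_abs_self C]

theorem pw (s : ℝ) : (2 : ℝ) ^ ((1 + s) * (1 + s)) =
    ((2 : ℝ) ^ (1 - s)) ^ (1 - s) * (16 : ℝ) ^ s := by
  have e : (16 : ℝ) = 2 ^ (4 : ℝ) := by
    rw [show (4 : ℝ) = ((4 : ℕ) : ℝ) by norm_num, Real.rpow_natCast]
    norm_num
  rw [e, ← Real.rpow_mul zero_le_two, ← Real.rpow_mul zero_le_two, ← Real.rpow_add zero_lt_two]
  exact congrArg _ (by ring)

end YUp0x

theorem sup0_pf (h : Al) (hh : S_hol) (h1 : S_up1) : S_upx 0 := by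
  intro ε hε
  obtain ⟨CK, J₀, hK⟩ := h.kmid 16 (by norm_num)
  obtain ⟨s, s0, s1, s2⟩ := YUp0x.pick CK ε hε
  obtain ⟨w, hw⟩ : ∃ w : ℝ, w = 2 ^ (1 - s) := ⟨_, rfl⟩
  have w1 : 1 ≤ w := hw ▸ Real.one_le_rpow one_le_two (by linarith)
  have w2 : w < 2 := by
    have := Real.rpow_lt_rpow_of_exponent_lt one_lt_two (show 1 - s < 1 by linarith)
    rwa [Real.rpow_one, ← hw] at this
  have hc : 2 * Real.cos (Real.arccos (w / 2)) = w := by
    rw [Real.cos_arccos (by linarith) (by linarith)]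
    ring
  obtain ⟨q, q1, m₀, hq⟩ := h1 (Real.arccos (w / 2)) (Real.arccos_pos.2 (by linarith))
    (Real.arccos_lt_pi_div_two.2 (by linarith)) (ε / 2) (by positivity)
  rw [hc] at hq
  have hg : gx (Real.arccos (w / 2)) ≤ gx 0 := by
    have : 0 ≤ 3 * Real.arccos (w / 2) ^ 2 / (4 * Real.pi ^ 2) := by positivity
    simp only [gx]
    norm_num
    exact this
  have p1 : 1 < ((1 + s) * (1 + s)) := by nlinarith
  refine ⟨((1 + s) * (1 + s)), p1, max m₀ 1, fun m hm => ?_⟩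
  filter_upwards [hq m (le_of_max_le_left hm), eventually_ge_atTop J₀] with J k1 k2
  have k3 := hK J k2 m (le_of_max_le_right hm)
  have q0 : 0 < q := by linarith
  have a1 : 1 ≤ FF w J m := (h.r0.one J m).symm.trans_le (h.r0.mono 1 w J m zero_le_one w1).2
  have a2 : FF w J m ≤ FF (w ^ q) J m ^ (1 / q) := by
    have := hh.1 1 (w ^ q) (1 / q) J m one_pos (Real.rpow_pos_of_pos (by linarith) _)
      (by positivity) ((div_lt_one q0).2 q1)
    rwa [h.r0.one, Real.one_rpow, one_mul, one_mul, ← Real.rpow_mul (by linarith),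
      mul_one_div_cancel q0.ne', Real.rpow_one] at this
  have a3 := hh.1 w 16 s J m (by linarith) (by norm_num) s0 s1
  rw [hw, ← YUp0x.pw, ← hw] at a3
  have a4 : 1 ≤ FF (2 ^ ((1 + s) * (1 + s))) J m := (h.r0.one J m).symm.trans_le
    (h.r0.mono 1 _ J m zero_le_one (Real.one_le_rpow one_le_two (by positivity))).2
  have a5 : FF (2 ^ ((1 + s) * (1 + s))) J m ^ (1 / ((1 + s) * (1 + s))) ≤
      FF (2 ^ ((1 + s) * (1 + s))) J m := by
    have := Real.rpow_le_rpow_of_exponent_le a4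
      ((div_le_one (by positivity)).2 p1.le : 1 / ((1 + s) * (1 + s)) ≤ 1)
    rwa [Real.rpow_one] at this
  have a6 : FF w J m ^ (1 - s) ≤ FF w J m := by
    have := Real.rpow_le_rpow_of_exponent_le a1 (show 1 - s ≤ 1 by linarith)
    rwa [Real.rpow_one] at this
  have f16 : 0 ≤ FF 16 J m := (h.r0.mono 16 16 J m (by norm_num) le_rfl).1
  have a7 : FF 16 J m ^ s ≤ Real.exp (ε / 2 * m) := by
    refine (Real.rpow_le_rpow f16 k3 s0.le).trans ?_
    rw [← Real.exp_mul]
    exact Real.exp_le_exp.2 (by nlinarith [Nat.cast_nonneg (α := ℝ) m])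
  rw [Real.cos_zero, mul_one]
  refine a5.trans (a3.trans ((mul_le_mul ((a6.trans a2).trans k1) a7 (Real.rpow_nonneg f16 _)
    (Real.exp_pos _).le).trans ?_))
  rw [← Real.exp_add]
  refine Real.exp_le_exp.2 ?_
  have l2 := mul_le_mul_of_nonneg_right (mul_le_mul_of_nonneg_right hg
    (Real.log_nonneg one_le_two)) (Nat.cast_nonneg (α := ℝ) m)
  linarith

end Vale.Agent.P167Q
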