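import Vale.Agent.P167Q.YStm

open Finset Relation Filter Topology MeasureTheory
open scoped Classical BigOperators

namespace Vale.Agent.P167Q

namespace YUp1x

theorem big (C e : ℝ) (he : 0 < e) : ∃ m₀ : ℕ, ∀ m : ℕ, m ≥ m₀ → C ≤ e * m := by
  obtain ⟨m₀, h⟩ := exists_nat_ge (C / e)
  refine ⟨m₀, fun m hm => ?_⟩
  have h1 : (m₀ : ℝ) ≤ m := Nat.cast_le.mpr hm
  rw [div_le_iff₀ he] at h
  nlinarith

theorem rate (h1 : R_1) (h2 : R_2) (θ e : ℝ) (he : 0 < e) : ∃ m₀ : ℕ, ∀ m : ℕ, m ≥ m₀ →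
    ∀ᶠ J in atTop, -(aa * θ ^ 2 * m) - θ * be J m ≤
      (-(aa * (θ ^ 2 + 2 * Real.pi / 3 * θ)) + e) * m := by
  rcases le_total θ 0 with hθ | hθ
  · obtain ⟨C, hC⟩ := h1.1
    obtain ⟨m₀, hm₀⟩ := big (-θ * C) e he
    refine ⟨max m₀ 4, fun m hm => ?_⟩
    filter_upwards [hC m (le_of_max_le_right hm)] with J hJ
    have h3 := hm₀ m (le_of_max_le_left hm)
    have h4 := mul_le_mul_of_nonneg_left hJ (neg_nonneg.mpr hθ)
    nlinarith
  · have he' : 0 < e / (θ + 1) := by positivity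
    obtain ⟨m₀, hm₀⟩ := h2 _ he'
    refine ⟨m₀, fun m hm => ?_⟩
    filter_upwards [hm₀ m hm] with J hJ
    have h4 := mul_le_mul_of_nonneg_left hJ hθ
    have h5 : θ * (e / (θ + 1)) ≤ e := by
      rw [← mul_div_assoc, div_le_iff₀ (by positivity)]
      nlinarith
    have h6 := mul_le_mul_of_nonneg_right h5 (Nat.cast_nonneg (α := ℝ) m)
    nlinarith

theorem two (h : Al) (h3 : S_3) (θ e : ℝ) (h1 : -(Real.pi / 3) < θ) (h2 : θ < Real.pi / 6)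
    (hw : 0 ≤ ww θ) (he : 0 < e) : ∃ p₀ > (1 : ℝ), ∀ p > (1 : ℝ), p ≤ p₀ → ∃ r : ℝ, 1 / p ≤ r ∧ r ≤ 1 ∧
    ∃ m₀ : ℕ, ∀ m : ℕ, m ≥ m₀ → ∀ᶠ J in atTop, FF (ww θ ^ (1 / p)) J m ≤
      Real.exp (r * ((-(aa * (θ ^ 2 + 2 * Real.pi / 3 * θ)) + 2 * e) * m)) := by
  obtain ⟨m₁, hm₁⟩ := rate h.r1 h.r2 θ e he
  rcases lt_or_ge θ 0 with hθ | hθ
  · obtain ⟨p₀, hp₀, hp⟩ := h3 θ h1 hθ e he
    refine ⟨p₀, hp₀, fun p hp1 hp2 => ⟨1, ?_, le_rfl, ?_⟩⟩
    · rw [div_le_one (by linarith)]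
      exact hp1.le
    obtain ⟨m₀, hm₀⟩ := hp p hp1 hp2
    refine ⟨max m₀ m₁, fun m hm => ?_⟩
    filter_upwards [hm₀ m (le_of_max_le_left hm), hm₁ m (le_of_max_le_right hm)] with J a b
    refine a.trans (Real.exp_le_exp.mpr ?_)
    linarith
  · refine ⟨2, by norm_num, fun p hp1 _ => ⟨1 / p, le_rfl, ?_, ?_⟩⟩
    · rw [div_le_one (by linarith)]
      exact hp1.le
    have hp0 : 0 < p := by linarith
    obtain ⟨C, hC⟩ := h.l1 θ p (by rw [abs_of_nonneg hθ]; exact h2) hp1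
    obtain ⟨m₀, hm₀⟩ := big C e he
    refine ⟨max (max m₀ m₁) 4, fun m hm => ?_⟩
    have g1 := le_of_max_le_left hm
    filter_upwards [hC m (le_of_max_le_right hm), hm₁ m (le_of_max_le_right g1)] with J a b
    have g2 := hm₀ m (le_of_max_le_left g1)
    have g3 : 0 ≤ FF (ww θ ^ (1 / p)) J m :=
      (h.r0.mono _ _ J m (Real.rpow_nonneg hw _) le_rfl).1
    have g4 : FF (ww θ ^ (1 / p)) J m ^ p ≤
        Real.exp ((-(aa * (θ ^ 2 + 2 * Real.pi / 3 * θ)) + 2 * e) * m) :=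
      a.trans (Real.exp_le_exp.mpr (by linarith))
    have g5 := Real.rpow_le_rpow (Real.rpow_nonneg g3 _) g4 (one_div_pos.mpr hp0).le
    rw [← Real.rpow_mul g3, mul_one_div_cancel hp0.ne', Real.rpow_one, ← Real.exp_mul,
      mul_comm] at g5
    exact g5

theorem ident (y : ℝ) : -(aa * ((y - Real.pi / 3) ^ 2 + 2 * Real.pi / 3 * (y - Real.pi / 3))) =
    gx y * Real.log 2 := by
  have := Real.pi_pos
  unfold aa gx
  field_simp
  ring

theorem pick (w w' K e p₀ : ℝ) (hw : 0 < w) (hww : w < w') (he : 0 < e) (hp₀ : 1 < p₀) :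
    ∃ p > (1 : ℝ), p ≤ p₀ ∧ w ^ p ≤ w' ^ (1 / p) ∧ (1 - 1 / p * (1 / p)) * K ≤ e := by
  have hw' : 0 < w' := hw.trans hww
  have c0 : ContinuousAt (fun p : ℝ => 1 / p) 1 :=
    continuousAt_const.div continuousAt_id one_ne_zero
  have c1 : ContinuousAt (fun p : ℝ => w ^ p) 1 := Real.continuousAt_const_rpow hw.ne'
  have c2 : ContinuousAt (fun p : ℝ => w' ^ (1 / p)) 1 :=
    continuousAt_const.rpow c0 (Or.inl hw'.ne')
  have c3 : ContinuousAt (fun p : ℝ => (1 - 1 / p * (1 / p)) * K) 1 :=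
    (continuousAt_const.sub (c0.mul c0)).mul continuousAt_const
  have e1 : ∀ᶠ p in 𝓝 (1 : ℝ), w ^ p < w' ^ (1 / p) := c1.eventually_lt c2 (by simpa using hww)
  have e2 : ∀ᶠ p in 𝓝 (1 : ℝ), (1 - 1 / p * (1 / p)) * K < e :=
    c3.eventually_lt continuousAt_const (by simpa using he)
  have e3 : ∀ᶠ p in 𝓝[>] (1 : ℝ), p ∈ Set.Ioo 1 p₀ := Ioo_mem_nhdsGT hp₀
  obtain ⟨p, a, b, c⟩ := (e3.and ((e1.and e2).filter_mono nhdsWithin_le_nhds)).exists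
  exact ⟨p, a.1, a.2.le, b.le, c.le⟩

end YUp1x

open YUp1x in
theorem sup1_pf (h : Al) (h3 : S_3) : S_up1 := by
  intro x hx0 hx1 ε hε
  have hpi := Real.pi_pos
  have c1 : Continuous fun t => gx t * Real.log 2 := by
    unfold gx
    fun_prop
  have e1 : ∀ᶠ t in 𝓝 x, gx t * Real.log 2 < gx x * Real.log 2 + ε / 4 :=
    c1.continuousAt.eventually_lt continuousAt_const (by linarith)
  have e2 : ∀ᶠ t in 𝓝[<] x, t ∈ Set.Ioo 0 x := Ioo_mem_nhdsLT hx0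
  obtain ⟨y, ⟨hy0, hy1⟩, hy⟩ := (e2.and (e1.filter_mono nhdsWithin_le_nhds)).exists
  have hwy : ww (y - Real.pi / 3) = 2 * Real.cos y := by
    unfold ww
    rw [add_sub_cancel]
  have hw : 0 < 2 * Real.cos x :=
    mul_pos two_pos (Real.cos_pos_of_mem_Ioo ⟨by linarith, hx1⟩)
  have hww : 2 * Real.cos x < 2 * Real.cos y :=
    mul_lt_mul_of_pos_left (Real.cos_lt_cos_of_nonneg_of_le_pi hy0.le (by linarith) hy1) two_pos
  obtain ⟨p₀, hp₀, hp⟩ := two h h3 (y - Real.pi / 3) (ε / 4) (by linarith) (by linarith)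
    (by rw [hwy]; linarith) (by linarith)
  rw [ident, hwy] at hp
  set G : ℝ := gx y * Real.log 2 + 2 * (ε / 4) with hG
  obtain ⟨p, hp1, hp2, hp3, hp4⟩ := pick _ _ |G| (ε / 4) p₀ hw hww (by linarith) hp₀
  obtain ⟨r, hr1, hr2, m₀, hm₀⟩ := hp p hp1 hp2
  have hp0 : 0 < p := by linarith
  have hq0 : 0 < 1 / p := one_div_pos.mpr hp0
  have hq1 : 1 / p ≤ 1 := hr1.trans hr2
  refine ⟨p, hp1, m₀, fun m hm => ?_⟩
  filter_upwards [hm₀ m hm] with J a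
  obtain ⟨b1, b2⟩ := h.r0.mono _ _ J m (Real.rpow_nonneg hw.le _) hp3
  refine (Real.rpow_le_rpow b1 (b2.trans a) hq0.le).trans ?_
  rw [← Real.exp_mul]
  refine Real.exp_le_exp.mpr ?_
  have g1 : 1 / p * (1 / p) ≤ r * (1 / p) := mul_le_mul_of_nonneg_right hr1 hq0.le
  have g2 : r * (1 / p) ≤ 1 := by nlinarith
  have g3 : r * (1 / p) * G ≤ G + ε / 4 := by
    have g4 := mul_le_mul_of_nonneg_left (neg_le_abs G) (sub_nonneg.mpr g2)
    have g5 := mul_le_mul_of_nonneg_right (sub_le_sub_left g1 1) (abs_nonneg G)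
    nlinarith
  have g6 : r * (1 / p) * G ≤ gx x * Real.log 2 + ε := by linarith
  have g7 := mul_le_mul_of_nonneg_right g6 (Nat.cast_nonneg (α := ℝ) m)
  calc r * (G * m) * (1 / p) = r * (1 / p) * G * m := by ring
    _ ≤ _ := g7

end Vale.Agent.P167Q
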