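import Vale.Agent.P167Q.YStm

open Finset Relation Filter Topology MeasureTheory
open scoped Classical BigOperators

namespace Vale.Agent.P167Q

namespace YVlox

lemma exR {x : ℝ} (hx : 0 ≤ x) : ∃ R : ℕ, (0 : ℝ) < R ∧ x ≤ Real.log R ∧ Real.log R ≤ x + 1 := by
  have h1 := Nat.le_ceil (Real.exp x)
  have h0 := (Real.exp_pos x).trans_le h1
  refine ⟨⌈Real.exp x⌉₊, h0, (Real.le_log_iff_exp_le h0).2 h1, (Real.log_le_iff_le_exp h0).2 ?_⟩
  have h2 := Nat.ceil_lt_add_one (Real.exp_pos x).le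
  have h3 := Real.one_le_exp hx
  have h4 := mul_le_mul_of_nonneg_left (Real.add_one_le_exp 1) (Real.exp_pos x).le
  rw [Real.exp_add]
  linarith

lemma low {C p x y a : ℝ} (hC : 1 ≤ C) (hx : 0 < x) (ha : 0 ≤ a) (hy : Real.log x ≤ y)
    (h : x ^ (-a) ≤ C * p) : Real.exp (-(a * y) - Real.log C) ≤ p := by
  have C0 : 0 < C := by linarith
  rw [Real.exp_sub, Real.exp_log C0, div_le_iff₀' C0]
  refine le_trans ?_ h
  rw [Real.rpow_def_of_pos hx]
  exact Real.exp_le_exp.2 (by nlinarith)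

lemma glue (h : Al) (hy : Y_0) {G : Set Cf} {W : Finset Sq} {R k n : ℕ} {t : ℝ} (g1 : Le W G)
    (g2 : IsUpperSet G) (hn : n ≤ t)
    (g3 : ∀ ω ∈ G, ∀ x : Sq, Even (x.1 + x.2) → nr x < R + 1 → ω ∈ Ax x k → x ∈ clus ω 0) :
    perc.real G * perc.real {ω | t ≤ ZZ R k ω} ≤ vol n := by
  have : IsProbabilityMeasure perc := fair_prob _
  have b1 : Le ((blk R).biUnion fun x => bz x (k + 1)) {ω | t ≤ ZZ R k ω} := fun ω ω' e => by
    have : ZZ R k ω = ZZ R k ω' := congrArg card (filter_congr fun x hx =>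
      ((hy.ax x k).1 ω ω' fun v hv => e v (mem_biUnion.2 ⟨x, hx, hv⟩)).to_iff)
    exact congrArg (fun z : ℕ => t ≤ z) this
  have b2 : IsUpperSet {ω | t ≤ ZZ R k ω} := fun ω ω' e q => by
    have : ZZ R k ω ≤ ZZ R k ω' := card_le_card fun x hx => mem_filter.2 ⟨(mem_filter.1 hx).1,
      (hy.ax x k).2.2 (mem_filter.1 (mem_filter.1 hx).1).2 e (mem_filter.1 hx).2⟩
    exact le_trans (show t ≤ ZZ R k ω from q) (Nat.cast_le.2 this)
  refine ((h.base.fk Sq _ _ _ _ g1 b1).1 g2 b2).trans (measureReal_mono fun ω ⟨q1, q2⟩ => ?_)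
  have q3 : n ≤ ZZ R k ω := Nat.cast_le.1 (hn.trans q2)
  refine le_trans (Nat.cast_le.2 q3) ((Set.encard_coe_eq_coe_finsetCard _).ge.trans
    (Set.encard_le_encard fun x hx => ?_))
  obtain ⟨x1, x2⟩ := mem_filter.1 (mem_coe.1 hx)
  obtain ⟨x3, x4⟩ := mem_filter.1 x1
  refine g3 ω q1 x x4 ?_ x2
  have := mem_box.1 x3
  unfold nr
  omega

end YVlox

open YVlox in
theorem vlo_pf (h : Al) (hy : Y_0) (hr : T_ring) (hm : V_mom) : V_lo := by
  intro ε hε
  obtain ⟨e, e0, e1, e2⟩ : ∃ e : ℝ, 0 < e ∧ 3 * e ≤ ε ∧ e ≤ 1 / 4 :=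
    ⟨min (ε / 3) (1 / 4), by positivity, by linarith [min_le_left (ε / 3) (1 / 4)], min_le_right _ _⟩
  obtain ⟨c, c0, hc⟩ := hr
  obtain ⟨C₁, c1, h1⟩ := hy.pol e e0
  obtain ⟨C₂, c2, h2⟩ := hm e e0
  have tl : Tendsto (fun n : ℕ => Real.log n) atTop atTop :=
    Real.tendsto_log_atTop.comp tendsto_natCast_atTop_atTop
  filter_upwards [tl.eventually_ge_atTop 142, eventually_gt_atTop 0,
    (tl.const_mul_atTop e0).eventually_ge_atTop (3 * (14 + Real.log C₁)),
    (tl.const_mul_atTop e0).eventually_ge_atTop (14 + Real.log C₁ + Real.log C₂ - Real.log c)]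
    with n n1 n0 n2 n3
  have en : Real.exp (Real.log n) = n := Real.exp_log (Nat.cast_pos.2 n0)
  generalize Real.log n = L at n1 n2 n3 en ⊢
  have L0 : 0 ≤ e * L := by positivity
  have L1 : e * (e * L) ≤ 1 / 4 * (e * L) := mul_le_mul_of_nonneg_right e2 L0
  obtain ⟨R, R0, r1, r2⟩ := exR (x := (48 / 91 + e) * L) (by positivity)
  have r3 : Real.log R ≤ R - 1 := Real.log_le_sub_one_of_pos R0
  have R1 : 71 ≤ R := by exact_mod_cast (by linarith : (71 : ℝ) ≤ R)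
  have lo : ∀ k : ℕ, 1 ≤ k → k ≤ 14 * R →
      Real.exp (-((5 / 48 + e) * (Real.log R + 13)) - Real.log C₁) ≤ pc true 0 k := fun k k1 k2 => by
    have k0 : (0 : ℝ) < k := Nat.cast_pos.2 k1
    refine low c1 k0 (by positivity) ?_ (h1 k k1).1
    have k3 : (k : ℝ) ≤ 14 * R := by exact_mod_cast k2
    have k4 := Real.log_le_log k0 k3
    have k5 := Real.log_le_sub_one_of_pos (show (0 : ℝ) < 14 by norm_num)
    rw [Real.log_mul (by norm_num) R0.ne'] at k4
    linarith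
  obtain ⟨G, W, g1, g2, g3, g4⟩ := hc (R + 1) (by omega)
  have p1 := lo (6 * (R + 1)) (by omega) (by omega)
  have p2 := lo (7 * (R + 1)) (by omega) (by omega)
  have p3 := low c2 R0 e0.le le_rfl (h2 R (by omega))
  have eR : (R : ℝ) ^ 2 = Real.exp (Real.log R + Real.log R) := by
    rw [Real.exp_add, Real.exp_log R0, sq]
  generalize Real.log R = r at r1 r2 p1 p2 p3 eR
  have s1 := mul_le_mul_of_nonneg_left r1 (show 0 ≤ 91 / 48 - e by linarith)
  have s2 := mul_le_mul_of_nonneg_left r2 (show 0 ≤ 5 / 48 + 2 * e by linarith)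
  refine le_trans ?_ (glue h hy (t := (R : ℝ) ^ 2 * pc true 0 (7 * (R + 1)) / 2) g1 g2 ?_ g4)
  · refine le_trans ?_ (mul_le_mul ((mul_le_mul_of_nonneg_left p1 c0.le).trans g3) p3
      (Real.exp_pos _).le measureReal_nonneg)
    rw [← Real.exp_log c0, ← Real.exp_add, ← Real.exp_add]
    have := mul_le_mul_of_nonneg_right e1 (show 0 ≤ L by linarith)
    exact Real.exp_le_exp.2 (by linarith)
  · rw [le_div_iff₀ two_pos, eR, ← en]
    refine le_trans ?_ (mul_le_mul_of_nonneg_left p2 (Real.exp_pos _).le)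
    refine (mul_le_mul_of_nonneg_left (show 2 ≤ Real.exp 1 by
      linarith [Real.add_one_le_exp 1]) (Real.exp_pos _).le).trans ?_
    rw [← Real.exp_add, ← Real.exp_add]
    exact Real.exp_le_exp.2 (by linarith)

end Vale.Agent.P167Q
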