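import Vale.Agent.P167Q.XMain
import Vale.Agent.P167Q.Y0
import Vale.Agent.P167Q.YHol
import Vale.Agent.P167Q.YLo
import Vale.Agent.P167Q.YS3
import Vale.Agent.P167Q.YUp1
import Vale.Agent.P167Q.YUp0
import Vale.Agent.P167Q.YCnt
import Vale.Agent.P167Q.YTup
import Vale.Agent.P167Q.YTlo
import Vale.Agent.P167Q.YGa
import Vale.Agent.P167Q.YGb
import Vale.Agent.P167Q.YTp
import Vale.Agent.P167Q.YRing
import Vale.Agent.P167Q.YPol
import Vale.Agent.P167Q.YGc
import Vale.Agent.P167Q.YVsum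
import Vale.Agent.P167Q.YVup
import Vale.Agent.P167Q.YPair
import Vale.Agent.P167Q.YMom
import Vale.Agent.P167Q.YVlo
import Vale.Agent.P167Q.YGd

namespace Vale.Agent.P167Q

theorem al_of (hG : Goal) : Al :=
  have a := all_of hG
  ⟨base_pf, a.geo, a.dep, a.sh, a.bd, a.ind, a.sym, a.arm, a.gen, a.tile, a.kmid, a.u1, a.l1,
    a.l2, a.r0, a.r1, a.r2, a.sub, a.dec, a.ring, a.rsw, a.qin, a.glue, a.eup, a.elo⟩

theorem goalY_of (h : Al) : GoalA ∧ GoalB ∧ GoalC ∧ GoalD :=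
  have y := y0_pf h
  have hol := shol_pf h
  have u1 := sup1_pf h (s3_pf h)
  have cnt := scnt_pf h
  have a := goalA_pf h y (stup_pf h y hol (sup0_pf h hol u1) u1 cnt)
    (stlo_pf h y hol (slo_pf h) cnt)
  have tu := tup_pf h y
  have tr := tring_pf h
  have tp := tpol_pf h y tu tr
  ⟨a, goalB_pf h y a, goalC_pf tp,
    goalD_pf (vup_pf h y tu tp vsum_pf) (vlo_pf h y tr (vmom_pf h y vsum_pf (vpair_pf h y)))⟩

end Vale.Agent.P167Q
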