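import Vale.Agent.P167Q.XStm

/-! P167Q: bounded measurable observables. -/

open Finset Filter Topology MeasureTheory
open scoped Classical

namespace Vale.Agent.P167Q

namespace XBdx

/-- locally constant at configurations with finite clusters -/
def Stab {β : Type} (G : Cf → β) : Prop :=
  ∀ ω, AllF ω → ∃ K, ∀ ω', (∀ v ∈ box K, ω v = ω' v) → G ω' = G ω

theorem aem (hb : Base) {G : Cf → ℝ} (h : Stab G) : AEMeasurable G perc := by
  refine aemeasurable_of_tendsto_metrizable_ae'
    (f := fun K ω => G fun v => if v ∈ box K then ω v else false) (fun K => ?_) ?_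
  · refine ((hb.loc _ (box K)).1 _ fun ω ω' hω => congrArg G (funext fun v => ?_)).1.aemeasurable
    by_cases hv : v ∈ box K
    · rw [if_pos hv, if_pos hv, hω v hv]
    · rw [if_neg hv, if_neg hv]
  · filter_upwards [hb.fin] with ω hω
    obtain ⟨K, hK⟩ := h ω hω
    refine tendsto_const_nhds.congr' ?_
    filter_upwards [eventually_ge_atTop K] with L hL
    exact (hK _ fun v hv => by rw [if_pos (hb.bas.mono K L hL hv)]).symm

theorem agree (hb : Base) (hg : X_geo) {ω : Cf} (hω : AllF ω) (W : Finset Sq) :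
    ∃ K, ∀ ω', (∀ v ∈ box K, ω v = ω' v) →
      cls ω' W = cls ω W ∧ ∀ C ∈ cls ω W, fill ω' C = fill ω C := by
  obtain ⟨K, hK⟩ := hb.bas.fin (⋃ x ∈ (W : Set Sq), clus ω x)
    (W.finite_toSet.biUnion fun x _ => hω x)
  refine ⟨K + 1, fun ω' h => ?_⟩
  have key : ∀ x ∈ W, clus ω' x = clus ω x ∧ fill ω' (clus ω x) = fill ω (clus ω x) :=
    fun x hx => hg.loc ω ω' x fun v b i hv =>
      h v ((hb.bas.edb K v b i).2 (hK (Set.mem_biUnion (mem_coe.2 hx) hv)))
  refine ⟨image_congr fun x hx => (key x hx).1, fun C hC => ?_⟩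
  obtain ⟨x, hx, rfl⟩ := mem_image.1 hC
  exact (key x hx).2

theorem cnt (hb : Base) {n : Cf → ℕ} (N : ℕ) (hn : ∀ ω, n ω ≤ N) (hs : Stab n) (F : ℕ → ℝ) :
    Bd fun ω => F (n ω) := by
  refine ⟨aem hb fun ω hω => ?_, ∑ k ∈ range (N + 1), |F k|, fun ω => ?_⟩
  · obtain ⟨K, hK⟩ := hs ω hω
    exact ⟨K, fun ω' h => congrArg F (hK ω' h)⟩
  · exact single_le_sum (f := fun k => |F k|) (fun k _ => abs_nonneg _)
      (mem_range.2 (Nat.lt_succ_of_le (hn ω)))

theorem add {G H : Cf → ℝ} (hG : Bd G) (hH : Bd H) : Bd fun ω => G ω + H ω := by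
  obtain ⟨g, M, hM⟩ := hG
  obtain ⟨h, M', hM'⟩ := hH
  exact ⟨g.add h, M + M', fun ω => (abs_add_le _ _).trans (add_le_add (hM ω) (hM' ω))⟩

theorem const (c : ℝ) : Bd fun _ => c := ⟨aemeasurable_const, |c|, fun _ => le_rfl⟩

end XBdx

open XBdx

theorem xbd_pf (hb : Base) (hg : X_geo) : X_bd where
  loc W G h := by
    refine ⟨((hb.loc _ W).1 G h).1.aemeasurable, ∑ η : W → Bool, |G (xt W η)|, fun ω => ?_⟩
    have e : G ω = G (xt W fun i => ω i) := h _ _ fun i hi => by simp only [xt, dif_pos hi]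
    rw [e]
    exact single_le_sum (f := fun η : W → Bool => |G (xt W η)|) (fun _ _ => abs_nonneg _)
      (mem_univ _)
  ns s x F := by
    refine cnt hb (n := ns s x) (bz x s).card
      (fun ω => (card_filter_le _ _).trans card_image_le) (fun ω hω => ?_) F
    obtain ⟨K, hK⟩ := agree hb hg hω (bz x s)
    refine ⟨K, fun ω' h => ?_⟩
    unfold P167Q.ns
    rw [(hK ω' h).1]
    exact congrArg card (filter_congr fun C hC => by rw [(hK ω' h).2 C hC])
  kb s z F := by
    refine cnt hb (n := kb s z) (bz z (3 * s)).card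
      (fun ω => (card_filter_le _ _).trans card_image_le) (fun ω hω => ?_) F
    obtain ⟨K, hK⟩ := agree hb hg hω (bz z (3 * s))
    refine ⟨K, fun ω' h => ?_⟩
    unfold P167Q.kb
    rw [(hK ω' h).1]
  kI g W I F := by
    refine cnt hb (n := kI g W I) W.card
      (fun ω => (card_filter_le _ _).trans card_image_le) (fun ω hω => ?_) F
    obtain ⟨K, hK⟩ := agree hb hg hω W
    refine ⟨K, fun ω' h => ?_⟩
    unfold P167Q.kI
    rw [(hK ω' h).1]
  mid a b F := by
    refine cnt hb (n := mid a b) (box b).card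
      (fun ω => (card_filter_le _ _).trans card_image_le) (fun ω hω => ?_) F
    obtain ⟨K, hK⟩ := agree hb hg hω (box b)
    refine ⟨K, fun ω' h => ?_⟩
    unfold P167Q.mid
    rw [(hK ω' h).1]
    exact congrArg card (filter_congr fun C hC => by rw [IsMid, IsMid, (hK ω' h).2 C hC])
  nb φ R := by
    refine ⟨aem hb fun ω hω => ?_, _, (hb.ploc φ R R le_rfl).2.2⟩
    obtain ⟨K, hK⟩ := agree hb hg hω (box R)
    refine ⟨K, fun ω' h => ?_⟩
    exact prod_congr (hK ω' h).1 fun C hC => by rw [(hK ω' h).2 C hC]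
  const := const
  add G H := add
  sub G H hG hH := by
    obtain ⟨g, M, hM⟩ := hG
    obtain ⟨h, M', hM'⟩ := hH
    exact ⟨g.sub h, M + M', fun ω => (abs_sub _ _).trans (add_le_add (hM ω) (hM' ω))⟩
  mul G H hG hH := by
    obtain ⟨g, M, hM⟩ := hG
    obtain ⟨h, M', hM'⟩ := hH
    refine ⟨g.mul h, M * M', fun ω => ?_⟩
    rw [abs_mul]
    exact mul_le_mul (hM ω) (hM' ω) (abs_nonneg _) ((abs_nonneg _).trans (hM ω))
  sum ι s G h := by
    induction s using Finset.induction_on with
    | empty => simpa only [sum_empty] using const 0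
    | insert a s ha ih =>
      simp only [sum_insert ha]
      exact add (h a (mem_insert_self _ _)) (ih fun i hi => h i (mem_insert_of_mem hi))
  cont G F hG hF := by
    obtain ⟨g, M, hM⟩ := hG
    obtain ⟨C, hC⟩ := (isCompact_Icc (a := -M) (b := M)).exists_bound_of_continuousOn
      hF.continuousOn
    exact ⟨hF.measurable.comp_aemeasurable g, C, fun ω => hC _ (abs_le.1 (hM ω))⟩
  ind B hB := by
    refine ⟨(measurable_one.indicator hB).aemeasurable, 1, fun ω => ?_⟩
    by_cases h : ω ∈ B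
    · rw [Set.indicator_of_mem h, Pi.one_apply, abs_one]
    · rw [Set.indicator_of_notMem h, abs_zero]
      exact zero_le_one
  int G hG := by
    obtain ⟨g, M, hM⟩ := hG
    rw [perc_eq] at g ⊢
    exact Integrable.of_bound g.aestronglyMeasurable M (ae_of_all _ hM)

end Vale.Agent.P167Q
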