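import Vale.Agent.P167Q.XStm

/-! P167Q, one arm exponent: the field estimate for three charges. -/

open Finset Filter Topology MeasureTheory
open scoped Classical BigOperators

namespace Vale.Agent.P167Q

namespace XGffx

theorem sum_one (hb : Base) {A : ℝ} {J R : ℕ} {ψ : Sq → ℝ} (h : Ad A J ψ) (hR : 3 * 2 ^ J ≤ R) :
    ∑ x ∈ box R, ψ x = 1 := by
  rw [← h.one]
  refine (Finset.sum_subset (hb.bas.mono _ _ hR) fun x _ hx => ?_).symm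
  by_contra h0
  exact hx (h.supp x h0).1

theorem ms_ch (T : Tri) (θ₁ θ₂ : ℝ) (R : ℕ) (S : Set Sq) : ms (T.ch θ₁ θ₂) R S =
    (θ₁ + θ₂) * ms T.ψ₀ R S - θ₁ * ms T.ψ₁ R S - θ₂ * ms T.ψ₂ R S := by
  simp only [ms, Finset.mul_sum, ← Finset.sum_sub_distrib]
  refine Finset.sum_congr rfl fun x _ => ?_
  split_ifs
  · rfl
  · ring

theorem lim : Tendsto (fun J : ℕ => (1 : ℝ) / 2 ^ J) atTop (𝓝[>] 0) := by
  refine tendsto_nhdsWithin_iff.2 ⟨?_, Eventually.of_forall fun J => ?_⟩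
  · simpa using tendsto_pow_atTop_nhds_zero_of_lt_one (r := (1 / 2 : ℝ)) (by norm_num) (by norm_num)
  · exact Set.mem_Ioi.2 (by positivity)

/-- the three charges of the test function -/
noncomputable def tri (ρ : ℝ × ℝ → ℝ) (J m₁ m₂ : ℕ) : Tri :=
  ⟨J, m₁, m₂, cel J (bmp ρ 0), cel J (bmp ρ m₁), cel J (bmp ρ (m₁ + m₂))⟩

theorem nest_eq (hb : Base) (hc : G_cel) {A : ℝ} {ρ : ℝ × ℝ → ℝ} (hρ : Bump A ρ) (θ₁ θ₂ : ℝ)
    (J m₁ m₂ : ℕ) (ω : Cf) :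
    nest (1 / 2 ^ J) (tf ρ θ₁ θ₂ m₁ m₂) ω = (tri ρ J m₁ m₂).nn θ₁ θ₂ ω := by
  have hR : ∀ m, m ≤ m₁ + m₂ → 3 * 2 ^ (J + m) ≤ (tri ρ J m₁ m₂).R := fun m hm =>
    Nat.mul_le_mul_left 3 (Nat.pow_le_pow_right two_pos
      (show J + m ≤ J + m₁ + m₂ by omega))
  have r0 := hR 0 (Nat.zero_le _)
  have r1 := hR m₁ (Nat.le_add_right _ _)
  have r2 := hR (m₁ + m₂) le_rfl
  refine (hb.prod _ _ _ _ ?_ (fun S => ?_) ω).2
  · have s0 := sum_one hb (hc A ρ hρ J 0).1 r0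
    have s1 := sum_one hb (hc A ρ hρ J m₁).1 r1
    have s2 := sum_one hb (hc A ρ hρ J (m₁ + m₂)).1 r2
    show ∑ x ∈ box (tri ρ J m₁ m₂).R, ((θ₁ + θ₂) * cel J (bmp ρ 0) x - θ₁ * cel J (bmp ρ m₁) x -
      θ₂ * cel J (bmp ρ (m₁ + m₂)) x) = 0
    rw [Finset.sum_sub_distrib, Finset.sum_sub_distrib, ← Finset.mul_sum, ← Finset.mul_sum,
      ← Finset.mul_sum, s0, s1, s2]
    ring
  · obtain ⟨i0, e0⟩ := (hc A ρ hρ J 0).2 _ r0 S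
    obtain ⟨i1, e1⟩ := (hc A ρ hρ J m₁).2 _ r1 S
    obtain ⟨i2, e2⟩ := (hc A ρ hρ J (m₁ + m₂)).2 _ r2 S
    have j0 := i0.integrable.const_mul (θ₁ + θ₂)
    have j1 := i1.integrable.const_mul θ₁
    have j2 := i2.integrable.const_mul θ₂
    have j3 : Integrable (fun x => (θ₁ + θ₂) * bmp ρ 0 x - θ₁ * bmp ρ m₁ x)
        (volume.restrict (region (1 / 2 ^ J) S)) := j0.sub j1
    rw [ms_ch]
    unfold tf
    rw [integral_sub j3 j2, integral_sub j0 j1, integral_const_mul, integral_const_mul,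
      integral_const_mul, e0, e1, e2]
    rfl

end XGffx

open XGffx in
theorem ggff_pf (hb : Base) (hG : Goal) (ht : G_tf) (hc : G_cel) : G_gff := by
  obtain ⟨⟨A, ρ, hρ⟩, ht⟩ := ht
  refine ⟨A, fun θ₁ θ₂ => ?_⟩
  obtain ⟨C, hC⟩ := ht A ρ hρ θ₁ θ₂
  refine ⟨C + 1, fun m₁ m₂ h1 h2 => ?_⟩
  obtain ⟨hf, hv⟩ := hC m₁ m₂ h1 h2
  have t := (hG.2 _ hf).2.comp lim
  rw [abs_le] at hv
  filter_upwards [t.eventually (lt_mem_nhds (a :=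
      Real.exp (-(aa * ((θ₁ + θ₂) ^ 2 * m₁ + θ₂ ^ 2 * m₂)) - (C + 1)))
      (Real.exp_lt_exp.2 (by linarith [hv.2]))),
    t.eventually (gt_mem_nhds (a :=
      Real.exp (-(aa * ((θ₁ + θ₂) ^ 2 * m₁ + θ₂ ^ 2 * m₂)) + (C + 1)))
      (Real.exp_lt_exp.2 (by linarith [hv.1])))] with J a1 a2
  simp only [Function.comp_apply, nest_eq hb hc hρ] at a1 a2
  refine ⟨cel J (bmp ρ 0), cel J (bmp ρ m₁), cel J (bmp ρ (m₁ + m₂)),
    ⟨h1, h2, (hc A ρ hρ J 0).1, (hc A ρ hρ J m₁).1, ?_⟩, a1.le, a2.le⟩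
  show Ad A (J + m₁ + m₂) _
  rw [add_assoc]
  exact (hc A ρ hρ J (m₁ + m₂)).1

end Vale.Agent.P167Q
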