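import Vale.Agent.P167Q.XStm

/-! P167Q, one arm exponent: the good event. -/

open Finset
open scoped Classical

namespace Vale.Agent.P167Q

namespace XGoodx

theorem xx_eq (T : Tri) (θ₁ θ₂ : ℝ) (ω : Cf) (C : Set Sq) : T.xx θ₁ θ₂ ω C =
    (θ₁ + θ₂) * T.mu T.ψ₀ ω C - θ₁ * T.mu T.ψ₁ ω C - θ₂ * T.mu T.ψ₂ ω C := by
  simp only [Tri.xx, Tri.mu, ms, mul_sum, ← sum_sub_distrib]
  refine sum_congr rfl fun x _ => ?_
  split_ifs
  · rfl
  · ring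

theorem mu_one (hb : Base) {A : ℝ} {T : Tri} {j : ℕ} {ψ : Sq → ℝ} (h : Ad A j ψ) (hj : j ≤ T.J₂)
    {ω : Cf} {C : Set Sq} (hC : ∀ x ∈ box (3 * 2 ^ j), x ∈ fill ω C) : T.mu ψ ω C = 1 := by
  rw [← h.one, Tri.mu, ms]
  symm
  refine sum_subset_zero_on_sdiff
    (hb.bas.mono _ _ (Nat.mul_le_mul_left 3 (Nat.pow_le_pow_right two_pos hj))) (fun x hx => ?_)
    fun x hx => (if_pos (hC x hx)).symm
  split_ifs
  · by_contra q
    exact (mem_sdiff.1 hx).2 (h.supp x q).1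
  · rfl

theorem mu_ne {A : ℝ} {T : Tri} {j : ℕ} {ψ : Sq → ℝ} (h : Ad A j ψ) {ω : Cf} {C : Set Sq}
    (hC : T.mu ψ ω C ≠ 0) : ∃ x ∈ box (3 * 2 ^ j), x ∈ fill ω C ∧ (2 : ℤ) ^ j ≤ x.1 := by
  obtain ⟨x, -, hx⟩ := exists_ne_zero_of_sum_ne_zero hC
  by_cases k : x ∈ fill ω C
  · rw [if_pos k] at hx
    exact ⟨x, (h.supp x hx).1, k, (h.supp x hx).2⟩
  · exact absurd (if_neg k) hx

end XGoodx

theorem dgood_pf (hb : Base) (hg : X_geo) (hs : D_sum) : D_good := by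
  intro A θ T hT ω
  obtain ⟨-, -, a0, a1, a2⟩ := hT
  have j0 : T.J ≤ T.J₂ := by
    unfold Tri.J₂
    omega
  have j1 : T.J₁ ≤ T.J₂ := Nat.le_add_right _ _
  have m0 := (hs A T _ _ a0 j0 ω).1
  have m1 := (hs A T _ _ a1 j1 ω).1
  have m2 := (hs A T _ _ a2 le_rfl ω).1
  have pi0 := Real.pi_pos
  refine ⟨fun h C _ => ?_, fun h1 h2 hn C hC => ?_⟩
  · have e : |T.xx θ 0 ω C| ≤ |θ| := by
      rw [XGoodx.xx_eq, add_zero, zero_mul, sub_zero, ← mul_sub, abs_mul]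
      exact mul_le_of_le_one_right (abs_nonneg _) (abs_le.2
        ⟨by linarith [(m0 C).1, (m1 C).2], by linarith [(m0 C).2, (m1 C).1]⟩)
    obtain ⟨e1, e2⟩ := abs_le.1 e
    constructor <;> linarith
  · have key : T.mu T.ψ₁ ω C + T.mu T.ψ₂ ω C ≤ 1 + 2 * T.mu T.ψ₀ ω C := by
      by_cases b0 : T.mu T.ψ₀ ω C = 1
      · linarith [(m1 C).2, (m2 C).2]
      by_cases b1 : T.mu T.ψ₁ ω C = 0
      · linarith [(m0 C).1, (m2 C).2]
      by_cases b2 : T.mu T.ψ₂ ω C = 0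
      · linarith [(m0 C).1, (m1 C).2]
      exfalso
      obtain ⟨x, x1, x2, -⟩ := XGoodx.mu_ne a1 b1
      obtain ⟨y, -, y2, y3⟩ := XGoodx.mu_ne a2 b2
      obtain ⟨z, -, rfl⟩ := mem_image.1 hC
      by_cases k : ∀ u ∈ box (3 * 2 ^ T.J₁), u ∉ clus ω z
      · exact b0 (XGoodx.mu_one hb a0 j0 fun u hu => hg.side ω _ _ k x x1 u
          (hb.bas.mono _ _ (Nat.mul_le_mul_left 3
            (Nat.pow_le_pow_right two_pos (Nat.le_add_right _ _))) hu) x2)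
      · obtain ⟨u, u1, u2⟩ : ∃ u ∈ box (3 * 2 ^ T.J₁), u ∈ clus ω z := by
          by_contra q
          exact k fun u u1 u2 => q ⟨u, u1, u2⟩
        have s := hn u u1
        rw [hb.bas.cleq ω z u u2] at s
        obtain ⟨w, w1, w2⟩ := (hg.bd ω _ y y2).2.1
        have w3 := (mem_box.1 (mem_coe.1 (s w1))).2.1
        have p : 1 ≤ 2 ^ T.J₂ := Nat.one_le_two_pow
        rw [Nat.cast_sub p] at w3
        push_cast at w3
        linarith
    rw [XGoodx.xx_eq]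
    have c1 := mul_nonneg (neg_pos.2 h2).le (sub_nonneg.2 key)
    have c2 := mul_nonneg (neg_pos.2 h2).le (sub_nonneg.2 (m0 C).2)
    have c3 := mul_nonneg (neg_pos.2 h2).le (m1 C).1
    have c4 := mul_nonneg (neg_pos.2 h2).le (m2 C).1
    constructor <;> linarith

end Vale.Agent.P167Q
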