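import Vale.Agent.P167Q.XStm

/-! P167Q: upper bound on the drift and lower bound on the probability of no loop. -/

open Filter Topology
open scoped Classical

namespace Vale.Agent.P167Q

namespace XR1x

theorem part_a (h0 : R_0) (hu : I_u1) :
    ∃ C : ℝ, ∀ m : ℕ, 4 ≤ m → ∀ᶠ J in atTop, be J m ≤ 2 * Real.pi / 3 * aa * m + C := by
  obtain ⟨C, hC⟩ := hu (-(2 * Real.pi / 3)) 2 one_lt_two
  have hp := Real.pi_pos
  have hw : ww (-(2 * Real.pi / 3)) = 1 := by
    unfold ww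
    rw [show Real.pi / 3 + -(2 * Real.pi / 3) = -(Real.pi / 3) by ring, Real.cos_neg,
      Real.cos_pi_div_three]
    norm_num
  refine ⟨C / (2 * Real.pi / 3), fun m hm => (hC m hm).mono fun J hJ => ?_⟩
  rw [hw, abs_one, Real.one_rpow, h0.one, Real.one_rpow, Real.exp_le_one_iff] at hJ
  have ht : 0 < 2 * Real.pi / 3 := by positivity
  generalize 2 * Real.pi / 3 = t at hJ ht
  rw [← sub_le_iff_le_add', le_div_iff₀ ht]
  nlinarith

theorem pow_le {y F p : ℝ} (hF : 0 ≤ F) (hp : 0 < p) (h : Real.exp y ≤ F ^ (1 / p)) :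
    Real.exp (y * p) ≤ F := by
  have h1 := Real.rpow_le_rpow (Real.exp_pos y).le h hp.le
  rw [← Real.exp_mul, ← Real.rpow_mul hF, one_div_mul_cancel hp.ne', Real.rpow_one] at h1
  exact h1

end XR1x

theorem r1_pf (h0 : R_0) (hu : I_u1) : R_1 := by
  refine ⟨XR1x.part_a h0 hu, fun ε hε => ?_⟩
  obtain ⟨C1, hC1⟩ := XR1x.part_a h0 hu
  have hpi := Real.pi_pos
  have hl : 0 < Real.log 2 := Real.log_pos one_lt_two
  set k : ℝ := 5 / 48 * Real.log 2 with hk
  have hk0 : 0 < k := by positivity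
  have hq : 0 < ε / (2 * k) := by positivity
  set p : ℝ := 1 + ε / (2 * k) with hpd
  have hp1 : 1 < p := by linarith
  have hp0 : 0 < p := by linarith
  have hpk : k * p = k + ε / 2 := by rw [hpd]; field_simp
  obtain ⟨C, hC⟩ := hu (Real.pi / 6) p hp1
  have hw : ww (Real.pi / 6) = 0 := by
    unfold ww
    rw [show Real.pi / 3 + Real.pi / 6 = Real.pi / 2 by ring, Real.cos_pi_div_two, mul_zero]
  have ha : aa * (Real.pi / 6) ^ 2 + Real.pi / 6 * (2 * Real.pi / 3 * aa) = k := by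
    rw [hk]; unfold aa; field_simp; ring
  obtain ⟨m₁, hm₁⟩ := exists_nat_ge ((Real.pi / 6 * C1 + C) * p / (ε / 2))
  refine ⟨max 4 m₁, fun m hm => ?_⟩
  have hm4 : 4 ≤ m := (le_max_left _ _).trans hm
  have hm2 : (m₁ : ℝ) ≤ m := by exact_mod_cast (le_max_right _ _).trans hm
  filter_upwards [hC m hm4, hC1 m hm4] with J h1 h2
  rw [hw, abs_zero, Real.zero_rpow hp0.ne'] at h1
  refine le_trans (Real.exp_le_exp.mpr ?_)
    (XR1x.pow_le (h0.mono 0 0 J m le_rfl le_rfl).1 hp0 h1)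
  have h3 : (Real.pi / 6 * C1 + C) * p ≤ m * (ε / 2) :=
    (div_le_iff₀ (by positivity)).mp (hm₁.trans hm2)
  have h4 : Real.pi / 6 * be J m ≤ Real.pi / 6 * (2 * Real.pi / 3 * aa * m + C1) :=
    mul_le_mul_of_nonneg_left h2 (by positivity)
  have h5 : -(k * m) - (Real.pi / 6 * C1 + C) ≤
      -(aa * (Real.pi / 6) ^ 2 * m) - Real.pi / 6 * be J m - C := by
    rw [← ha]; linarith
  have h6 := mul_le_mul_of_nonneg_right h5 hp0.le
  have h7 : (-(k * m) - (Real.pi / 6 * C1 + C)) * p =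
      -((k + ε / 2) * m) - (Real.pi / 6 * C1 + C) * p := by rw [← hpk]; ring
  linarith

end Vale.Agent.P167Q
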