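import Vale.Agent.P167Q.XStm

/-! P167Q: deterministic upper and lower bounds for the loop weight. -/

open Finset Relation Filter Topology MeasureTheory
open scoped Classical BigOperators

namespace Vale.Agent.P167Q

namespace XUpx

noncomputable def qq (T : Tri) (ω : Cf) (C : Set Sq) : ℝ :=
  T.sm T.ψ₀ T.J ω C ^ 2 + T.sm T.ψ₁ T.J₁ ω C ^ 2 + T.sm T.ψ₂ T.J₂ ω C ^ 2

noncomputable def ind (T : Tri) (ω : Cf) (C : Set Sq) : ℝ := if T.Ct ω C then 1 else 0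

noncomputable def fac (T : Tri) (θ₁ θ₂ s t c₁ c₂ : ℝ) (ω : Cf) (C : Set Sq) : ℝ :=
  (if T.M₁ ω C then s else 1) * (if T.M₂ ω C then t else 1) *
    Real.exp (-(Real.sqrt 3 * T.xs θ₁ θ₂ ω C) + (c₁ * qq T ω C + c₂ * ind T ω C))

theorem qq_nn (T : Tri) (ω : Cf) (C : Set Sq) : 0 ≤ qq T ω C := by
  unfold qq
  positivity

theorem ind_nn (T : Tri) (ω : Cf) (C : Set Sq) : 0 ≤ ind T ω C := by
  unfold ind
  split_ifs <;> norm_num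

theorem nn_eq (T : Tri) (θ₁ θ₂ : ℝ) {ω : Cf} (h : AllF ω) :
    T.nn θ₁ θ₂ ω = ∏ C ∈ cls ω (box T.R), ww (T.xx θ₁ θ₂ ω C) := by
  unfold Tri.nn nb cls
  refine prod_congr rfl fun C hC => ?_
  obtain ⟨x, -, rfl⟩ := mem_image.1 hC
  rw [if_pos (h x)]
  rfl

theorem filt (hb : Base) (ω : Cf) (a : ℕ) {b R : ℕ} (h : b ≤ R) :
    (cls ω (box R)).filter (IsMid a b ω) = (cls ω (box b)).filter (IsMid a b ω) := by
  ext C
  simp only [mem_filter, cls, mem_image]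
  constructor
  · rintro ⟨⟨y, -, rfl⟩, hm⟩
    exact ⟨⟨y, hm.1 (hb.bas.self ω y), rfl⟩, hm⟩
  · rintro ⟨⟨y, hy, rfl⟩, hm⟩
    exact ⟨⟨y, hb.bas.mono _ _ h hy, rfl⟩, hm⟩

theorem j0 (T : Tri) : T.J ≤ T.J₂ := by unfold Tri.J₂; omega

theorem j1 (T : Tri) : T.J₁ ≤ T.J₂ := by unfold Tri.J₁ Tri.J₂; omega

theorem rad (T : Tri) {j : ℕ} (h : j ≤ T.J₂) : 2 ^ j - 1 ≤ T.R := by
  have := Nat.pow_le_pow_right (n := 2) (by norm_num) h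
  unfold Tri.R
  omega

theorem prodE (hb : Base) (hs : D_sum) {A : ℝ} {T : Tri} (hT : T.Ok A) (θ₁ θ₂ s t c₁ c₂ : ℝ)
    (ω : Cf) : ∏ C ∈ cls ω (box T.R), fac T θ₁ θ₂ s t c₁ c₂ ω C =
      T.Z s t ω * Real.exp (-(Real.sqrt 3 * T.Y θ₁ θ₂ ω) +
        (c₁ * ∑ C ∈ cls ω (box T.R), qq T ω C + c₂ * ∑ C ∈ cls ω (box T.R), ind T ω C)) := by
  have e0 := (hs A T _ _ hT.2.2.1 (j0 T) ω).2.2.1
  have e1 := (hs A T _ _ hT.2.2.2.1 (j1 T) ω).2.2.1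
  have e2 := (hs A T _ _ hT.2.2.2.2 le_rfl ω).2.2.1
  have m1 : (cls ω (box T.R)).filter (T.M₁ ω) = _ := filt hb ω _ (rad T (j1 T))
  have m2 : (cls ω (box T.R)).filter (T.M₂ ω) = _ := filt hb ω _ (rad T le_rfl)
  have eY : ∑ C ∈ cls ω (box T.R), T.xs θ₁ θ₂ ω C = T.Y θ₁ θ₂ ω := by
    simp only [Tri.xs, Tri.Y, sum_sub_distrib, ← mul_sum, e0, e1, e2]
  unfold fac
  rw [prod_mul_distrib, prod_mul_distrib, ← Real.exp_sum, ← prod_filter, ← prod_filter,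
    prod_const, prod_const, m1, m2, sum_add_distrib, sum_add_distrib, sum_neg_distrib,
    ← mul_sum, ← mul_sum, ← mul_sum, eY]
  rfl

theorem err (hs : D_sum) {A : ℝ} {T : Tri} (hT : T.Ok A) {c₁ c₂ : ℝ} (h1 : 0 ≤ c₁) (h2 : 0 ≤ c₂)
    (ω : Cf) : c₁ * ∑ C ∈ cls ω (box T.R), qq T ω C + c₂ * ∑ C ∈ cls ω (box T.R), ind T ω C ≤
      (c₁ * |A| + c₂) * T.V ω := by
  obtain ⟨-, p0, -, e0⟩ := hs A T _ _ hT.2.2.1 (j0 T) ω
  obtain ⟨-, p1, -, e1⟩ := hs A T _ _ hT.2.2.2.1 (j1 T) ω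
  obtain ⟨-, p2, -, e2⟩ := hs A T _ _ hT.2.2.2.2 le_rfl ω
  have hq : ∑ C ∈ cls ω (box T.R), qq T ω C ≤
      |A| * (QQ T.ψ₀ T.J ω + QQ T.ψ₁ T.J₁ ω + QQ T.ψ₂ T.J₂ ω) := by
    simp only [qq, sum_add_distrib]
    have := mul_le_mul_of_nonneg_right (le_abs_self A) (add_nonneg (add_nonneg p0 p1) p2)
    linarith
  have hk : ∑ C ∈ cls ω (box T.R), ind T ω C ≤
      (kb (2 ^ T.J) 0 ω : ℝ) + kb (2 ^ T.J₁) 0 ω + kb (2 ^ T.J₂) 0 ω := by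
    unfold ind
    rw [sum_boole]
    norm_cast
    unfold kb
    refine le_trans (card_le_card ?_) ((card_union_le _ _).trans
      (Nat.add_le_add_right (card_union_le _ _) _))
    intro C hC
    obtain ⟨j, hj, a1, a2⟩ := (mem_filter.1 hC).2
    simp only [mem_union, mem_filter]
    rcases hj with rfl | rfl | rfl
    · exact Or.inl (Or.inl ⟨a1, a2⟩)
    · exact Or.inl (Or.inr ⟨a1, a2⟩)
    · exact Or.inr ⟨a1, a2⟩
  have k0 : 0 ≤ (kb (2 ^ T.J) 0 ω : ℝ) + kb (2 ^ T.J₁) 0 ω + kb (2 ^ T.J₂) 0 ω := by positivity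
  have a1 := mul_le_mul_of_nonneg_left hq h1
  have a2 := mul_le_mul_of_nonneg_left hk h2
  have a3 := mul_nonneg h2 (add_nonneg (add_nonneg p0 p1) p2)
  have a4 := mul_nonneg (mul_nonneg h1 (abs_nonneg A)) k0
  unfold Tri.V
  linarith

theorem alg (a b c x y z : ℝ) (hx : 0 ≤ x ∧ x ≤ 1) (hy : 0 ≤ y ∧ y ≤ 1) (hz : 0 ≤ z ∧ z ≤ 1) :
    |Real.sqrt 3 * (a * x - b * y - c * z)| ≤ 2 * (|a| + |b| + |c|) ∧
      (a * x - b * y - c * z) ^ 2 ≤ (a ^ 2 + b ^ 2 + c ^ 2) * (x ^ 2 + y ^ 2 + z ^ 2) := by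
  refine ⟨?_, ?_⟩
  swap
  · nlinarith [sq_nonneg (a * y + b * x), sq_nonneg (a * z + c * x), sq_nonneg (b * z - c * y)]
  have s3 : Real.sqrt 3 ≤ 2 := Real.sqrt_le_iff.2 ⟨by norm_num, by norm_num⟩
  have k : ∀ u v : ℝ, 0 ≤ v ∧ v ≤ 1 → |u * v| ≤ |u| := fun u v hv => by
    rw [abs_mul, abs_of_nonneg hv.1]
    exact mul_le_of_le_one_right (abs_nonneg u) hv.2
  rw [abs_mul, abs_of_nonneg (Real.sqrt_nonneg 3)]
  refine mul_le_mul s3 ?_ (abs_nonneg _) (by norm_num)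
  have t1 := abs_sub (a * x - b * y) (c * z)
  have t2 := abs_sub (a * x) (b * y)
  linarith [k a x hx, k b y hy, k c z hz]

theorem xs_bd (hs : D_sum) {A : ℝ} {T : Tri} (hT : T.Ok A) (θ₁ θ₂ : ℝ) (ω : Cf) (C : Set Sq) :
    |Real.sqrt 3 * T.xs θ₁ θ₂ ω C| ≤ 2 * (|θ₁ + θ₂| + |θ₁| + |θ₂|) ∧
      T.xs θ₁ θ₂ ω C ^ 2 ≤ ((θ₁ + θ₂) ^ 2 + θ₁ ^ 2 + θ₂ ^ 2) * qq T ω C := by
  have k : ∀ ψ J, Ad A J ψ → J ≤ T.J₂ → 0 ≤ T.sm ψ J ω C ∧ T.sm ψ J ω C ≤ 1 := by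
    intro ψ J h1 h2
    unfold Tri.sm
    split_ifs
    · exact (hs A T ψ J h1 h2 ω).1 C
    · norm_num
  exact alg _ _ _ _ _ _ (k _ _ hT.2.2.1 (j0 T)) (k _ _ hT.2.2.2.1 (j1 T))
    (k _ _ hT.2.2.2.2 le_rfl)

theorem ww_two (x : ℝ) : |ww x| ≤ Real.exp 1 := by
  unfold ww
  rw [abs_mul, abs_two]
  have h1 := Real.abs_cos_le_one (Real.pi / 3 + x)
  have h2 := Real.add_one_le_exp (1 : ℝ)
  linarith

end XUpx

open XUpx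

theorem dup_pf (hb : Base) (hi : D_in) (hc : D_cls) (hs : D_sum) : D_up := by
  intro A θ₁ θ₂
  obtain ⟨c₁, hc₁⟩ : ∃ c, c = 8 * ((θ₁ + θ₂) ^ 2 + θ₁ ^ 2 + θ₂ ^ 2) := ⟨_, rfl⟩
  obtain ⟨c₂, hc₂⟩ : ∃ c, c = 1 + 2 * (|θ₁ + θ₂| + |θ₁| + |θ₂|) := ⟨_, rfl⟩
  have h1 : 0 ≤ c₁ := by rw [hc₁]; positivity
  have h2 : 0 ≤ c₂ := by rw [hc₂]; positivity
  refine ⟨c₁ * |A| + c₂, by positivity, fun T hT ω hω => ?_⟩
  have key : ∀ C ∈ cls ω (box T.R),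
      |ww (T.xx θ₁ θ₂ ω C)| ≤ fac T θ₁ θ₂ |ww (θ₁ + θ₂)| |ww θ₂| c₁ c₂ ω C := by
    intro C hC
    obtain ⟨a1, a2, a3⟩ := hc A θ₁ θ₂ T hT ω C hC
    obtain ⟨b1, b2⟩ := xs_bd hs hT θ₁ θ₂ ω C
    have p1 := mul_nonneg h1 (qq_nn T ω C)
    have p2 := mul_nonneg h2 (ind_nn T ω C)
    unfold fac
    by_cases m1 : T.M₁ ω C
    · obtain ⟨d1, d2, d3⟩ := a1 m1
      rw [if_pos m1, if_neg d1, d2, d3, mul_one]
      exact le_mul_of_one_le_right (abs_nonneg _) (Real.one_le_exp (by linarith))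
    by_cases m2 : T.M₂ ω C
    · obtain ⟨d2, d3⟩ := a2 m2
      rw [if_neg m1, if_pos m2, d2, d3, one_mul]
      exact le_mul_of_one_le_right (abs_nonneg _) (Real.one_le_exp (by linarith))
    rw [if_neg m1, if_neg m2, one_mul, one_mul]
    rcases a3 m1 m2 with d | d
    · refine (ww_two _).trans (Real.exp_le_exp.2 ?_)
      have e : ind T ω C = 1 := if_pos d
      rw [e]
      linarith [le_abs_self (Real.sqrt 3 * T.xs θ₁ θ₂ ω C)]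
    · rw [d]
      refine (hi.1 _).trans (Real.exp_le_exp.2 ?_)
      rw [hc₁] at p1 ⊢
      linarith
  rw [nn_eq T θ₁ θ₂ hω, Finset.abs_prod]
  refine (prod_le_prod (fun C _ => abs_nonneg _) key).trans ?_
  rw [prodE hb hs hT]
  refine mul_le_mul_of_nonneg_left (Real.exp_le_exp.2 ?_) (by unfold Tri.Z; positivity)
  linarith [err hs hT h1 h2 ω]

theorem dlo_pf (hb : Base) (hi : D_in) (hc : D_cls) (hs : D_sum) : D_lo := by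
  intro A θ₁ θ₂ η hη
  obtain ⟨c, c0, hw⟩ := hi.2 η hη
  obtain ⟨c₁, hc₁⟩ : ∃ k, k = c * ((θ₁ + θ₂) ^ 2 + θ₁ ^ 2 + θ₂ ^ 2) := ⟨_, rfl⟩
  obtain ⟨c₂, hc₂⟩ : ∃ k, k = c + 2 * (|θ₁ + θ₂| + |θ₁| + |θ₂|) := ⟨_, rfl⟩
  have h1 : 0 ≤ c₁ := by rw [hc₁]; positivity
  have h2 : 0 ≤ c₂ := by rw [hc₂]; positivity
  refine ⟨c₁ * |A| + c₂, by positivity, fun T hT ω hω hG => ?_⟩
  have key : ∀ C ∈ cls ω (box T.R),
      0 ≤ fac T θ₁ θ₂ (ww (θ₁ + θ₂)) (ww θ₂) (-c₁) (-c₂) ω C ∧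
      fac T θ₁ θ₂ (ww (θ₁ + θ₂)) (ww θ₂) (-c₁) (-c₂) ω C ≤ ww (T.xx θ₁ θ₂ ω C) := by
    intro C hC
    obtain ⟨a1, a2, a3⟩ := hc A θ₁ θ₂ T hT ω C hC
    obtain ⟨b1, b2⟩ := xs_bd hs hT θ₁ θ₂ ω C
    obtain ⟨w1, w2⟩ := hw _ (hG C hC).1 (hG C hC).2
    have w0 : 0 ≤ ww (T.xx θ₁ θ₂ ω C) := (Real.exp_pos _).le.trans w1
    have p1 := mul_nonneg h1 (qq_nn T ω C)
    have p2 := mul_nonneg h2 (ind_nn T ω C)
    unfold fac
    by_cases m1 : T.M₁ ω C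
    · obtain ⟨d1, d2, d3⟩ := a1 m1
      rw [if_pos m1, if_neg d1, ← d2, d3, mul_one]
      exact ⟨mul_nonneg w0 (Real.exp_pos _).le,
        mul_le_of_le_one_right w0 (Real.exp_le_one_iff.2 (by linarith))⟩
    by_cases m2 : T.M₂ ω C
    · obtain ⟨d2, d3⟩ := a2 m2
      rw [d2] at w0
      rw [if_neg m1, if_pos m2, d2, d3, one_mul]
      exact ⟨mul_nonneg w0 (Real.exp_pos _).le,
        mul_le_of_le_one_right w0 (Real.exp_le_one_iff.2 (by linarith))⟩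
    rw [if_neg m1, if_neg m2, one_mul, one_mul]
    refine ⟨(Real.exp_pos _).le, ?_⟩
    rcases a3 m1 m2 with d | d
    · refine (Real.exp_le_exp.2 ?_).trans w1
      have e : ind T ω C = 1 := if_pos d
      rw [e]
      linarith [neg_abs_le (Real.sqrt 3 * T.xs θ₁ θ₂ ω C)]
    · refine (Real.exp_le_exp.2 ?_).trans w2
      rw [d]
      have p3 := mul_le_mul_of_nonneg_left b2 c0
      rw [← mul_assoc, ← hc₁] at p3
      linarith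
  have hP := prod_nonneg fun C hC => (key C hC).1
  have hL := prod_le_prod (fun C hC => (key C hC).1) fun C hC => (key C hC).2
  rw [prodE hb hs hT] at hP hL
  rw [nn_eq T θ₁ θ₂ hω]
  refine le_trans (mul_le_mul_of_nonneg_left (Real.exp_le_exp.2 ?_)
    (nonneg_of_mul_nonneg_left hP (Real.exp_pos _))) hL
  linarith [err hs hT h1 h2 ω]

end Vale.Agent.P167Q
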