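import Vale.Agent.P167Q.XStm

/-! P167Q: monotonicity and submultiplicativity of the arm events. -/

open Finset Filter Topology MeasureTheory
open scoped Classical

namespace Vale.Agent.P167Q

namespace XSubx

theorem prob : IsProbabilityMeasure perc := by
  rw [perc_eq]
  infer_instance

theorem arm_iff (a b : ℕ) (ω : Cf) : ¬NoArm a b ω ↔ ∃ x ∈ box a, ¬clus ω x ⊆ box b := by
  unfold NoArm
  push Not
  rfl

theorem arm_mono (hb : Base) {a a' b b' : ℕ} (h1 : a ≤ a') (h2 : b' ≤ b) {ω : Cf}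
    (h : ¬NoArm a b ω) : ¬NoArm a' b' ω := by
  rw [arm_iff] at h ⊢
  obtain ⟨x, hx, k⟩ := h
  exact ⟨x, hb.bas.mono a a' h1 hx, fun k' => k (k'.trans (coe_subset.2 (hb.bas.mono b' b h2)))⟩

theorem two (hb : Base) (hd : X_dep) (a b a' d : ℕ) (h1 : b + 2 ≤ a') (h2 : a' ≤ d) :
    perc.real ({ω | ¬NoArm a b ω} ∩ {ω | ¬NoArm a' d ω}) = pa a b * pa a' d := by
  refine (hb.fk Sq _ _ _ _ (hd.arm0 a b) (hd.arm a' d (by omega) h2)).2 ?_
  exact disjoint_left.2 fun x hx hx' =>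
    (mem_sdiff.1 hx').2 (hb.bas.mono (b + 1) (a' - 1) (by omega) hx)

end XSubx

open XSubx in
theorem qsub_pf (hb : Base) (hd : X_dep) : Q_sub := by
  haveI := prob
  refine ⟨fun a a' b b' h1 h2 => ?_, fun c a a' b b' h1 h2 => ?_, two hb hd,
    fun a b a' d h1 h2 h3 => ?_⟩
  · exact measureReal_mono fun ω h => arm_mono hb h1 h2 h
  · refine measureReal_mono fun ω h => ?_
    obtain ⟨x, hx, e, k⟩ := h
    exact ⟨x, hb.bas.mono a a' h1 hx, e,
      fun k' => k (k'.trans (coe_subset.2 (hb.bas.mono b' b h2)))⟩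
  · rw [← two hb hd a b a' d h2 h3]
    exact measureReal_mono fun ω h =>
      ⟨arm_mono hb le_rfl (by omega) h, arm_mono hb (by omega) le_rfl h⟩

end Vale.Agent.P167Q
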