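import Vale.Agent.P167Q.XStm

open Finset Relation Filter Topology MeasureTheory
open scoped Classical BigOperators

namespace Vale.Agent.P167Q

namespace XGoalx

lemma set_eq (n : ℕ) :
    {ω : Cf | ∃ y ∈ clus ω (0, 0), (n : ℤ) < max |y.1| |y.2|} = BA true 0 n := by
  ext ω
  simp only [BA, Set.mem_setOf_eq]
  constructor
  · rintro ⟨y, hy, hn⟩
    refine ⟨(0, 0), mem_box.2 (by simp), by simp, fun h => ?_⟩
    have h1 := mem_box.1 (Finset.mem_coe.1 (h hy))
    have h2 : |y.1| ≤ n := abs_le.2 ⟨h1.1, h1.2.1⟩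
    have h3 : |y.2| ≤ n := abs_le.2 ⟨h1.2.2.1, h1.2.2.2⟩
    exact absurd (max_le h2 h3) (not_le.2 hn)
  · rintro ⟨x, hx, -, h⟩
    have h1 := mem_box.1 hx
    have e : x = (0, 0) := by
      refine Prod.ext ?_ ?_
      · have := h1.1
        have := h1.2.1
        simp only [Nat.cast_zero, neg_zero] at *
        omega
      · have := h1.2.2.1
        have := h1.2.2.2
        simp only [Nat.cast_zero, neg_zero] at *
        omega
    subst e
    obtain ⟨y, hy, hn⟩ := Set.not_subset.1 h
    refine ⟨y, hy, lt_of_not_ge fun hle => hn (Finset.mem_coe.2 (mem_box.2 ?_))⟩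
    have h2 := abs_le.1 ((le_max_left _ _).trans hle)
    have h3 := abs_le.1 ((le_max_right _ _).trans hle)
    exact ⟨h2.1, h2.2, h3.1, h3.2⟩

end XGoalx

theorem goal2_pf (hu : E_up) (hl : E_lo) : Goal2 := by
  unfold Goal2
  simp only [XGoalx.set_eq]
  refine Metric.tendsto_nhds.2 fun ε hε => ?_
  filter_upwards [hu (ε / 2) (half_pos hε), hl (ε / 2) (half_pos hε), eventually_gt_atTop 1]
    with n h1 h2 hn
  have hlog : 0 < Real.log n := Real.log_pos (by exact_mod_cast hn)
  have hp : 0 < pc true 0 n := (Real.exp_pos _).trans_le h2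
  have k1 : Real.log (pc true 0 n) ≤ -((5 / 48 - ε / 2) * Real.log n) :=
    (Real.log_le_iff_le_exp hp).2 h1
  have k2 : -((5 / 48 + ε / 2) * Real.log n) ≤ Real.log (pc true 0 n) :=
    (Real.le_log_iff_exp_le hp).2 h2
  have e : perc.real (BA true 0 n) = pc true 0 n := rfl
  rw [e, Real.dist_eq, abs_lt]
  have k3 : Real.log (pc true 0 n) / Real.log n ≤ -(5 / 48 - ε / 2) := by
    rw [div_le_iff₀ hlog]
    linarith
  have k4 : -(5 / 48 + ε / 2) ≤ Real.log (pc true 0 n) / Real.log n := by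
    rw [le_div_iff₀ hlog]
    linarith
  constructor <;> linarith

end Vale.Agent.P167Q
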