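import Vale.Agent.P167Q.XStm

open Finset Filter Topology MeasureTheory
open scoped Classical

namespace Vale.Agent.P167Q

namespace XIlox

theorem pt {w₁ w₂ r N u b h : ℝ} (n k : ℕ) (h1 : 0 < w₁) (h2 : 0 < w₂) (hr : 0 ≤ r)
    (hN : w₁ ^ n * w₂ ^ k * Real.exp u ≤ N) (hh : -u * r = -b * r + h) :
    (w₁ ^ r) ^ n * (w₂ ^ r) ^ k ≤ Real.exp (-b * r) * (|N| ^ r * Real.exp h) := by
  have e1 : (w₁ ^ r) ^ n * (w₂ ^ r) ^ k = (w₁ ^ n * w₂ ^ k) ^ r := by
    rw [Real.mul_rpow (by positivity) (by positivity), Real.rpow_pow_comm h1.le,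
      Real.rpow_pow_comm h2.le]
  have e2 : w₁ ^ n * w₂ ^ k ≤ |N| * Real.exp (-u) := by
    rw [Real.exp_neg, ← div_eq_mul_inv, le_div_iff₀ (Real.exp_pos u)]
    exact hN.trans (le_abs_self N)
  rw [e1]
  refine (Real.rpow_le_rpow (by positivity) e2 hr).trans (le_of_eq ?_)
  rw [Real.mul_rpow (abs_nonneg N) (Real.exp_pos _).le, ← Real.exp_mul, hh, Real.exp_add]
  ring

theorem memLp {G : Cf → ℝ} (h : Bd G) (p : ENNReal) : MemLp G p perc := by
  have : IsProbabilityMeasure perc := fair_prob (ℤ × ℤ)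
  obtain ⟨h1, M, h2⟩ := h
  exact MemLp.of_bound h1.aestronglyMeasurable M (ae_of_all _ h2)

end XIlox

open XIlox in
theorem ilo_pf (hb : Base) (hx : X_bd) (ht : C_tri) (hl : D_lo) : I_lo := by
  intro A θ₁ θ₂ η p hη hp h1 h2
  have hp0 : 0 < p := by linarith
  have hpq : p.HolderConjugate (p / (p - 1)) := (Real.holderConjugate_iff_eq_conjExponent hp).2 rfl
  generalize p / (p - 1) = q at hpq
  have hq0 : 0 < q := hpq.symm.pos
  obtain ⟨c, hc, hl⟩ := hl A θ₁ θ₂ η hη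
  obtain ⟨C, ht⟩ := ht A θ₁ θ₂ (-q / p) (q * c / p) (by positivity)
  refine ⟨C * p / q, fun T hT B hB hG => ?_⟩
  obtain ⟨b1, b2⟩ := ht T hT
  set H : Cf → ℝ := fun ω =>
    -q / p * (-(Real.sqrt 3 * T.Y θ₁ θ₂ ω) - T.b θ₁ θ₂) + q * c / p * T.V ω with hH
  have bN : Bd fun ω => T.nn θ₁ θ₂ ω * B.indicator 1 ω :=
    hx.mul _ _ (hx.nb _ _) (hx.ind B hB)
  have hr : 0 ≤ 1 / p := by positivity
  have bf := hx.cont _ (fun x => |x| ^ (1 / p)) bN (continuous_abs.rpow_const fun _ => Or.inr hr)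
  have bg := hx.cont _ (fun x => Real.exp (x / q)) b1 (by fun_prop)
  have hZ : ∀ ω, 0 < T.Z (ww (θ₁ + θ₂)) (ww θ₂) ω := fun ω => by
    unfold Tri.Z
    positivity
  have k1 : (ex fun ω => T.Z (ww (θ₁ + θ₂) ^ (1 / p)) (ww θ₂ ^ (1 / p)) ω * B.indicator 1 ω) ≤
      ∫ ω, Real.exp (-T.b θ₁ θ₂ * (1 / p)) *
        (|T.nn θ₁ θ₂ ω * B.indicator 1 ω| ^ (1 / p) * Real.exp (H ω / q)) ∂perc := by
    refine integral_mono_of_nonneg (ae_of_all _ fun ω => ?_)
      ((hx.int _ (hx.mul _ _ bf bg)).const_mul _) ?_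
    · refine mul_nonneg ?_ (Set.indicator_nonneg (fun _ _ => zero_le_one) ω)
      unfold Tri.Z
      positivity
    · filter_upwards [hb.fin] with ω hω
      by_cases hm : ω ∈ B
      · simp only [Set.indicator_of_mem hm, Pi.one_apply, mul_one]
        refine pt _ _ h1 h2 hr (hl T hT ω hω (hG ω hm)) ?_
        simp only [hH]
        field_simp
        ring
      · simp only [Set.indicator_of_notMem hm, mul_zero]
        positivity
  have k2 := integral_mul_le_Lp_mul_Lq_of_nonneg hpq (μ := perc)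
    (ae_of_all _ fun ω => Real.rpow_nonneg (abs_nonneg _) _)
    (ae_of_all _ fun ω => (Real.exp_pos _).le) (memLp bf _) (memLp bg _)
  have hN0 : ∀ᵐ ω ∂perc, 0 ≤ T.nn θ₁ θ₂ ω * B.indicator 1 ω := by
    filter_upwards [hb.fin] with ω hω
    by_cases hm : ω ∈ B
    · simp only [Set.indicator_of_mem hm, Pi.one_apply, mul_one]
      exact (mul_pos (hZ ω) (Real.exp_pos _)).le.trans (hl T hT ω hω (hG ω hm))
    · simp only [Set.indicator_of_notMem hm, mul_zero, le_refl]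
  have e1 : ∫ ω, (|T.nn θ₁ θ₂ ω * B.indicator 1 ω| ^ (1 / p)) ^ p ∂perc =
      ex fun ω => T.nn θ₁ θ₂ ω * B.indicator 1 ω := by
    refine integral_congr_ae ?_
    filter_upwards [hN0] with ω hω
    rw [abs_of_nonneg hω, one_div, Real.rpow_inv_rpow hω hp0.ne']
  have e2 : ∫ ω, Real.exp (H ω / q) ^ q ∂perc = ex fun ω => Real.exp (H ω) := by
    refine integral_congr_ae (ae_of_all _ fun ω => ?_)
    simp only
    rw [← Real.exp_mul, div_mul_cancel₀ _ hq0.ne']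
  rw [e1, e2] at k2
  have n1 : 0 ≤ ex fun ω => T.nn θ₁ θ₂ ω * B.indicator 1 ω := integral_nonneg_of_ae hN0
  have n2 : 0 ≤ ex fun ω => Real.exp (H ω) := integral_nonneg fun ω => (Real.exp_pos _).le
  have n3 : 0 ≤ ex fun ω =>
      T.Z (ww (θ₁ + θ₂) ^ (1 / p)) (ww θ₂ ^ (1 / p)) ω * B.indicator 1 ω := by
    refine integral_nonneg fun ω => mul_nonneg ?_ (Set.indicator_nonneg (fun _ _ => zero_le_one) ω)
    unfold Tri.Z
    positivity
  rw [integral_const_mul] at k1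
  have k3 := Real.rpow_le_rpow n2 b2 (by positivity : 0 ≤ 1 / q)
  have k4 := k1.trans (mul_le_mul_of_nonneg_left
    (k2.trans (mul_le_mul_of_nonneg_left k3 (Real.rpow_nonneg n1 _))) (Real.exp_pos _).le)
  refine (Real.rpow_le_rpow n3 k4 hp0.le).trans (le_of_eq ?_)
  rw [Real.mul_rpow (Real.exp_pos _).le (by positivity),
    Real.mul_rpow (Real.rpow_nonneg n1 _) (by positivity), ← Real.exp_mul, ← Real.exp_mul,
    ← Real.exp_mul, one_div p, Real.rpow_inv_rpow n1 hp0.ne', mul_left_comm, ← Real.exp_add,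
    mul_comm]
  congr 2
  field_simp
  ring

end Vale.Agent.P167Q
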