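import Vale.Agent.P167Q.XStm

open Finset MeasureTheory
open scoped Classical

namespace Vale.Agent.P167Q

namespace XLevx

theorem prob : IsProbabilityMeasure perc := by
  rw [perc_eq]
  infer_instance

theorem split (hx : X_bd) (hi : X_ind) {ι : Type} (Tl : Finset Sq) (R : Finset ι)
    (hR : R.Nonempty) (cl : Sq → ι) (Wd : Sq → Finset Sq) (G : Sq → Cf → ℝ) (c : ℝ) (hc : 0 ≤ c)
    (hL : ∀ b ∈ Tl, Lc (Wd b) (G b)) (hcl : ∀ b ∈ Tl, cl b ∈ R)
    (hd : ∀ b ∈ Tl, ∀ b' ∈ Tl, b ≠ b' → cl b = cl b' → Disjoint (Wd b) (Wd b'))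
    (h1 : ∀ b ∈ Tl, (ex fun ω => Real.exp (R.card * G b ω)) ≤ Real.exp c) :
    (ex fun ω => Real.exp (∑ b ∈ Tl, G b ω)) ≤ R.card * Real.exp (c * Tl.card) := by
  let Y : ι → Cf → ℝ := fun r ω => ∑ b ∈ Tl.filter (fun b => cl b = r), G b ω
  have hb : ∀ b ∈ Tl, Bd (G b) := fun b hb => hx.loc _ _ (hL b hb)
  have hY : ∀ r, Integrable (fun ω => Real.exp (R.card * Y r ω)) perc := fun r =>
    hx.int _ (hx.cont (Y r) (fun y => Real.exp (R.card * y))
      (hx.sum _ _ _ fun b h => hb b (mem_filter.1 h).1) (by fun_prop))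
  have hpt : ∀ ω, Real.exp (∑ b ∈ Tl, G b ω) ≤ ∑ r ∈ R, Real.exp (R.card * Y r ω) := fun ω => by
    obtain ⟨r, hr, hm⟩ := exists_max_image R (fun r => Y r ω) hR
    refine le_trans ?_ (single_le_sum (f := fun r => Real.exp (R.card * Y r ω))
      (fun _ _ => (Real.exp_pos _).le) hr)
    rw [Real.exp_le_exp, ← sum_fiberwise_of_maps_to hcl, ← nsmul_eq_mul]
    exact sum_le_card_nsmul _ _ _ hm
  have hone : ∀ r, (ex fun ω => Real.exp (R.card * Y r ω)) ≤ Real.exp (c * Tl.card) := fun r => by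
    have e : (fun ω => Real.exp (R.card * Y r ω)) =
        fun ω => ∏ b ∈ Tl.filter (fun b => cl b = r), Real.exp (R.card * G b ω) := by
      funext ω
      simp only [Y, mul_sum, Real.exp_sum]
    rw [e, hi Sq _ Wd (fun b ω => Real.exp (R.card * G b ω))
      (fun b h ω ω' hw => by
        show Real.exp _ = Real.exp _
        rw [hL b (mem_filter.1 h).1 ω ω' hw])
      fun b h b' h' hne => hd b (mem_filter.1 h).1 b' (mem_filter.1 h').1 hne
        ((mem_filter.1 h).2.trans (mem_filter.1 h').2.symm)]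
    refine (prod_le_prod (fun b _ => integral_nonneg fun _ => (Real.exp_pos _).le)
      fun b h => h1 b (mem_filter.1 h).1).trans ?_
    rw [prod_const, ← Real.exp_nat_mul, Real.exp_le_exp, mul_comm]
    exact mul_le_mul_of_nonneg_left (by exact_mod_cast card_filter_le _ _) hc
  calc (ex fun ω => Real.exp (∑ b ∈ Tl, G b ω))
      ≤ ∫ ω, ∑ r ∈ R, Real.exp (R.card * Y r ω) ∂perc :=
        integral_mono (hx.int _ (hx.cont _ Real.exp (hx.sum _ _ _ hb) Real.continuous_exp))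
          (integrable_finsetSum _ fun r _ => hY r) hpt
    _ = ∑ r ∈ R, ex fun ω => Real.exp (R.card * Y r ω) := integral_finsetSum _ fun r _ => hY r
    _ ≤ _ := by
        rw [← nsmul_eq_mul]
        exact sum_le_card_nsmul _ _ _ fun r _ => hone r

theorem dv {u a : ℤ} (hu : 0 < u) : u * (a / u) ≤ a ∧ a < u * (a / u) + u := by
  have h1 := Int.mul_ediv_add_emod a u
  have h2 := Int.emod_nonneg a hu.ne'
  have h3 := Int.emod_lt_of_pos a hu
  omega

theorem md {u a a' y : ℤ} (hu : 0 < u) (h : a % 9 = a' % 9) (h1 : u * a - 4 * u ≤ y)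
    (h2 : y ≤ u * a + 4 * u) (h3 : u * a' - 4 * u ≤ y) (h4 : y ≤ u * a' + 4 * u) : a = a' := by
  by_contra hne
  have : a' + 9 ≤ a ∨ a + 9 ≤ a' := by omega
  rcases this with h | h <;> nlinarith

theorem card_box (R : ℕ) : (box R).card = (2 * R + 1) ^ 2 := by
  rw [box, card_product, Int.card_Icc, show ((R : ℤ) + 1 - -(R : ℤ)).toNat = 2 * R + 1 by omega,
    sq]

/-- tile index -/
def ti (u : ℕ) (x : Sq) : Sq := (x.1 / u, x.2 / u)

theorem ti_box {u n : ℕ} (hu : 0 < u) {x : Sq} (hx : x ∈ box (3 * (u * n))) :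
    ti u x ∈ box (3 * n) := by
  have hu' : (0 : ℤ) < u := by exact_mod_cast hu
  rw [mem_box] at hx ⊢
  push_cast at hx ⊢
  refine ⟨(Int.le_ediv_iff_mul_le hu').2 ?_, Int.ediv_le_of_le_mul hu' ?_,
    (Int.le_ediv_iff_mul_le hu').2 ?_, Int.ediv_le_of_le_mul hu' ?_⟩ <;>
    linarith [hx.1, hx.2.1, hx.2.2.1, hx.2.2.2]

theorem ti_bd {u : ℕ} (hu : 0 < u) {x b : Sq} (h : ti u x = b) :
    (u * b.1 ≤ x.1 ∧ x.1 < u * b.1 + u) ∧ u * b.2 ≤ x.2 ∧ x.2 < u * b.2 + u := by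
  have hu' : (0 : ℤ) < u := by exact_mod_cast hu
  subst h
  exact ⟨dv hu', dv hu'⟩

theorem ti_card {u : ℕ} (hu : 0 < u) (S : Finset Sq) (b : Sq) :
    (S.filter fun x => ti u x = b).card ≤ u ^ 2 := by
  refine (card_le_card (t := Ico (u * b.1) (u * b.1 + u) ×ˢ Ico (u * b.2) (u * b.2 + u))
    fun x hx => ?_).trans ?_
  · simpa only [mem_product, mem_Ico] using ti_bd hu (mem_filter.1 hx).2
  · simp [sq]

/-- contribution of one tile -/
noncomputable def Wt (ψ : Sq → ℝ) (J j : ℕ) (b : Sq) (ω : Cf) : ℝ :=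
  ∑ x ∈ (box (3 * 2 ^ J)).filter (fun x => ti (2 ^ j) x = b), ψ x * nl j x ω

theorem Wt_lc (hd : X_dep) (ψ : Sq → ℝ) (J j : ℕ) (b : Sq) :
    Lc (bz (((2 ^ j : ℕ) : ℤ) * b.1, ((2 ^ j : ℕ) : ℤ) * b.2) (4 * 2 ^ j)) (Wt ψ J j b) := by
  intro ω ω' h
  refine sum_congr rfl fun x hx => ?_
  have hu : 0 < 2 ^ j := by positivity
  have hb := ti_bd hu (mem_filter.1 hx).2
  have key : ∀ s ≤ 2 ^ j, ns s x ω = ns s x ω' := fun s hs => by
    refine hd.ns s x ω ω' fun v hv => h v ?_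
    generalize 2 ^ j = u at *
    rw [mem_bz] at hv ⊢
    push_cast at hv ⊢
    omega
  rw [nl, nl, key _ le_rfl, key _ (Nat.div_le_self _ _)]

theorem Wt_le (hg : X_geo) {A : ℝ} {J : ℕ} {ψ : Sq → ℝ} (hA : Ad A J ψ) (j : ℕ) (b : Sq)
    (ω : Cf) : |Wt ψ J j b ω| ≤ ((2 ^ j : ℕ) : ℝ) ^ 2 * (|A| / 4 ^ J *
      kb (2 ^ j) (((2 ^ j : ℕ) : ℤ) * b.1, ((2 ^ j : ℕ) : ℤ) * b.2) ω) := by
  have hu : 0 < 2 ^ j := by positivity
  refine (abs_sum_le_sum_abs _ _).trans ((sum_le_card_nsmul _ _ (|A| / 4 ^ J *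
      kb (2 ^ j) (((2 ^ j : ℕ) : ℤ) * b.1, ((2 ^ j : ℕ) : ℤ) * b.2) ω) fun x hx => ?_).trans ?_)
  · have hb := ti_bd hu (mem_filter.1 hx).2
    have h := hg.nlk j (((2 ^ j : ℕ) : ℤ) * b.1, ((2 ^ j : ℕ) : ℤ) * b.2) ω x (by
      generalize 2 ^ j = u at *
      rw [mem_bz]
      dsimp only
      omega)
    rw [abs_of_nonneg (mul_nonneg (hA.nn x) h.1)]
    refine mul_le_mul ((hA.le x).trans ?_) h.2 h.1 (by positivity)
    exact div_le_div_of_nonneg_right (le_abs_self A) (by positivity)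
  · rw [nsmul_eq_mul]
    exact mul_le_mul_of_nonneg_right (by exact_mod_cast ti_card hu _ b) (by positivity)

end XLevx

open XLevx in
theorem clev_pf (hg : X_geo) (hd : X_dep) (hx : X_bd) (hi : X_ind) (hk : K_mom) (h1 : C_one) :
    C_lev := by
  intro A T hT
  have hT' : 0 ≤ 81 * T * |A| := by positivity
  obtain ⟨B, hB⟩ := hk (81 * T * |A| + 2)
  obtain ⟨C, hC0, hC⟩ := h1 (81 * T * |A|) B hT'
  refine ⟨81 * Real.exp (C * (81 * T * |A|) ^ 2 * 49), fun J j ψ τ hA hj hτ => ?_⟩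
  obtain ⟨k, rfl⟩ := Nat.exists_eq_add_of_le hj
  rw [Nat.add_sub_cancel_left] at hτ
  have hu : 0 < 2 ^ j := by positivity
  have hn : (1 : ℝ) ≤ 2 ^ k := one_le_pow₀ (by norm_num)
  have hL := Wt_lc hd ψ (j + k) j
  have hW : ∀ b, Bd (Wt ψ (j + k) j b) := fun b => hx.loc _ _ (hL b)
  have e1 : ∀ ω, LL ψ (j + k) j ω = ∑ b ∈ box (3 * 2 ^ k), Wt ψ (j + k) j b ω := fun ω =>
    (sum_fiberwise_of_maps_to (fun x h => ti_box hu (by rwa [← pow_add])) _).symm
  have e2 : ex (LL ψ (j + k) j) = ∑ b ∈ box (3 * 2 ^ k), ex (Wt ψ (j + k) j b) := by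
    rw [funext e1]
    exact integral_finsetSum _ fun b _ => hx.int _ (hW b)
  have hR : (Ico (0 : ℤ) 9 ×ˢ Ico (0 : ℤ) 9).card = 81 := by simp
  have key := split hx hi (box (3 * 2 ^ k)) (Ico (0 : ℤ) 9 ×ˢ Ico (0 : ℤ) 9)
    (card_pos.1 (by rw [hR]; norm_num)) (fun b => (b.1 % 9, b.2 % 9))
    (fun b => bz (((2 ^ j : ℕ) : ℤ) * b.1, ((2 ^ j : ℕ) : ℤ) * b.2) (4 * 2 ^ j))
    (fun b ω => τ * (Wt ψ (j + k) j b ω - ex (Wt ψ (j + k) j b)))
    (C * (81 * T * |A| / 2 ^ k) ^ 2) (by positivity)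
    (fun b _ ω ω' h => by
      show τ * _ = τ * _
      rw [hL b ω ω' h])
    (fun b _ => by
      simp only [mem_product, mem_Ico]
      omega)
    (fun b _ b' _ hne he => by
      rw [disjoint_left]
      intro y h h'
      have hu' : (0 : ℤ) < (2 ^ j : ℕ) := by exact_mod_cast hu
      generalize 2 ^ j = u at *
      rw [mem_bz] at h h'
      push_cast at h h'
      rw [Prod.mk.injEq] at he
      exact hne (Prod.ext (md hu' he.1 h.1 h.2.1 h'.1 h'.2.1)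
        (md hu' he.2 h.2.2.1 h.2.2.2 h'.2.2.1 h'.2.2.2)))
    (fun b _ => by
      have h := hC (fun ω => 81 * τ * Wt ψ (j + k) j b ω)
        (fun ω => kb (2 ^ j) (((2 ^ j : ℕ) : ℤ) * b.1, ((2 ^ j : ℕ) : ℤ) * b.2) ω)
        (81 * T * |A| / 2 ^ k) (hx.mul _ _ (hx.const _) (hW b)) (hx.kb _ _ fun m => m)
        (by positivity) (div_le_self hT' hn) (fun ω => ?_) (fun ω => by positivity) (hB _ _)
      · have e : (ex fun ω => 81 * τ * Wt ψ (j + k) j b ω) = 81 * τ * ex (Wt ψ (j + k) j b) :=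
          integral_const_mul _ _
        rw [e] at h
        refine le_trans (le_of_eq ?_) h
        rw [hR]
        refine congrArg ex (funext fun ω => congrArg Real.exp ?_)
        push_cast
        ring
      · rw [abs_mul, abs_mul, abs_of_nonneg (by norm_num : (0 : ℝ) ≤ 81)]
        refine (mul_le_mul (mul_le_mul_of_nonneg_left hτ (by norm_num)) (Wt_le hg hA j b ω)
          (abs_nonneg _) (by positivity)).trans (le_of_eq ?_)
        rw [show (4 : ℝ) ^ (j + k) = (2 ^ j * 2 ^ k) ^ 2 by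
          rw [← pow_add, ← pow_mul, mul_comm, pow_mul]; norm_num]
        push_cast
        field_simp)
  rw [hR, card_box] at key
  refine le_trans (le_of_eq ?_) (key.trans ?_)
  · refine congrArg ex (funext fun ω => congrArg Real.exp ?_)
    rw [e1, e2, ← sum_sub_distrib, mul_sum]
  · push_cast
    refine mul_le_mul_of_nonneg_left (Real.exp_le_exp.2 ?_) (by norm_num)
    have h2 : ((2 * (3 * 2 ^ k) + 1 : ℝ)) ^ 2 ≤ 49 * (2 ^ k) ^ 2 := by nlinarith
    refine (mul_le_mul_of_nonneg_left h2 (by positivity)).trans (le_of_eq ?_)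
    field_simp

end Vale.Agent.P167Q
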