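import Vale.Agent.P167Q.XStm

/-! P167Q: no surrounding cluster forces an arm. -/

open Finset MeasureTheory
open scoped Classical

namespace Vale.Agent.P167Q

namespace XMidx

theorem le_of {k b : ℕ} {ω : Cf} (h : NoArm k b ω) : k ≤ b := by
  have h1 : ((k : ℤ), (0 : ℤ)) ∈ box k := mem_box.2 ⟨by simp, le_rfl, by simp, by simp⟩
  have h2 : (k : ℤ) ≤ b := (mem_box.1 (mem_coe.1 (h _ h1 Relation.ReflTransGen.refl))).2.1
  exact_mod_cast h2

theorem cover (ht : T_top) {a b : ℕ} (ha : 1 ≤ a) (hb : a + 1 ≤ b) {ω : Cf} (h0 : mid a b ω = 0)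
    (h1 : NoArm (a + 1) b ω) (i : ℕ)
    (h2 : ∀ j < i, ¬NoArm a (a * 2 ^ j) ω → NoArm (2 * (a * 2 ^ j) + 1) b ω) :
    a * 2 ^ i + 1 ≤ b ∧ ¬NoArm a (a * 2 ^ i) ω := by
  induction i with
  | zero =>
    rw [pow_zero, mul_one]
    exact ⟨hb, fun k => ht a a b ω ha le_rfl hb k h1 h0⟩
  | succ i ih =>
    have k := h2 i (Nat.lt_succ_self i) (ih fun j hj => h2 j (Nat.lt_succ_of_lt hj)).2
    rw [show 2 * (a * 2 ^ i) = a * 2 ^ (i + 1) by ring] at k
    exact ⟨le_of k, fun k' => ht a _ b ω ha (Nat.le_mul_of_pos_right _ (by positivity))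
      (le_of k) k' k h0⟩

theorem one (hs : Q_sub) {a k b : ℕ} (hk : 1 ≤ k) :
    perc.real ({ω | ¬NoArm a k ω} ∩ {ω | ¬NoArm (2 * k + 1) b ω}) =
      pa a k * pa (2 * k + 1) b := by
  by_cases h : 2 * k + 1 ≤ b
  · exact hs.two a k _ b (by omega) h
  · have e : {ω | ¬NoArm (2 * k + 1) b ω} = Set.univ :=
      Set.eq_univ_of_forall fun ω k => h (le_of k)
    unfold pa
    rw [e, Set.inter_univ, perc_eq, probReal_univ, mul_one]

end XMidx

open XMidx in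
theorem qmid_pf (h0 : R_0) (hs : Q_sub) (hk : K_sym) (hi : Q_in) (hg : Q_glue) (ht : T_top) :
    Q_mid := by
  obtain ⟨c, c0, hc⟩ := hi 2
  obtain ⟨C, hC⟩ := hg
  refine ⟨5 / c + C, fun J hJ m hm => ?_⟩
  have j1 : 2 ^ 6 ≤ 2 ^ J := Nat.pow_le_pow_right two_pos hJ
  have j2 : 2 ^ 4 ≤ 2 ^ m := Nat.pow_le_pow_right two_pos hm
  have j3 : 2 ^ J * 2 ^ 4 ≤ 2 ^ J * 2 ^ m := Nat.mul_le_mul_left _ j2
  rw [h0.zero]
  unfold N1
  have b1 : 3 * 2 ^ J + 1 ≤ 2 ^ (J + m) - 1 := by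
    rw [pow_add]
    omega
  have b2 : ¬3 * 2 ^ J * 2 ^ m + 1 ≤ 2 ^ (J + m) - 1 := by
    rw [pow_add, mul_assoc]
    omega
  have a1 : 144 ≤ 3 * 2 ^ J := by omega
  generalize 3 * 2 ^ J = a at b1 b2 a1
  generalize 2 ^ (J + m) - 1 = b at b1 b2
  have : IsProbabilityMeasure perc := perc_eq ▸ fair_prob _
  have s1 : {ω | mid a b ω = 0} ⊆ {ω | ¬NoArm (a + 1) b ω} ∪ ⋃ j ∈ range m,
      {ω | ¬NoArm a (a * 2 ^ j) ω} ∩ {ω | ¬NoArm (2 * (a * 2 ^ j) + 1) b ω} := by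
    intro ω hω
    by_contra k
    simp only [Set.mem_union, Set.mem_iUnion, Set.mem_inter_iff, Set.mem_ofPred_eq, not_or,
      not_exists, not_and, not_not, mem_range] at k
    exact b2 (cover ht (by omega) b1 hω k.1 m k.2).1
  have p0 : 0 ≤ pc true a b := measureReal_nonneg
  have s2 : pa (a + 1) b ≤ 5 / c * pc true a b := by
    have k1 := (hk true (a + 1) b).2
    have k2 := hc a a1 (a + 1 + 1) (by omega) b
    rw [div_mul_eq_mul_div, le_div_iff₀ c0]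
    nlinarith
  have s3 : ∀ j ∈ range m, perc.real ({ω | ¬NoArm a (a * 2 ^ j) ω} ∩
      {ω | ¬NoArm (2 * (a * 2 ^ j) + 1) b ω}) ≤ C * pc true a b := fun j _ => by
    have k : a ≤ a * 2 ^ j := Nat.le_mul_of_pos_right _ (by positivity)
    rw [one hs (by omega)]
    exact hC a _ _ b a1 k (by omega)
  have s4 := (measureReal_biUnion_finset_le _ _).trans (sum_le_card_nsmul _ _ _ s3)
  rw [card_range, nsmul_eq_mul] at s4
  refine (measureReal_mono s1).trans ((measureReal_union_le _ _).trans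
    ((add_le_add s2 s4).trans ?_))
  have m1 : (1 : ℝ) ≤ m := by exact_mod_cast (by omega : 1 ≤ m)
  have s5 : 0 ≤ 5 / c * pc true a b := by positivity
  nlinarith

end Vale.Agent.P167Q
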