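import Vale.Agent.P167Q.XStm

/-! P167Q: locality of the cluster counts and of the arm events. -/

open Finset Relation
open scoped Classical

namespace Vale.Agent.P167Q

namespace XDepx

theorem ed_co (v : Sq) (b i : Bool) :
    v.1 - 1 ≤ (ed v b i).1 ∧ (ed v b i).1 ≤ v.1 ∧ v.2 - 1 ≤ (ed v b i).2 ∧
      (ed v b i).2 ≤ v.2 := by
  unfold ed
  split_ifs <;> simp

theorem ed_ev (v : Sq) (b i : Bool) : Even ((ed v b i).1 + (ed v b i).2) ↔ b = true := by
  unfold ed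
  by_cases h : Even (v.1 + v.2)
  · have h' := Int.even_iff.1 h
    rw [decide_eq_true h, Int.even_iff]
    cases b <;> cases i <;> simp <;> omega
  · have h' : ¬(v.1 + v.2) % 2 = 0 := fun e => h (Int.even_iff.2 e)
    rw [decide_eq_false h, Int.even_iff]
    cases b <;> cases i <;> simp <;> omega

theorem ns_sub (hg : X_geo) (s : ℕ) (x : Sq) (ω ω' : Cf)
    (h : ∀ i ∈ bz x (2 * s + 1), ω i = ω' i) :
    ((cls ω (bz x s)).filter fun C => Sml C s ∧ x ∈ fill ω C) ⊆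
      ((cls ω' (bz x s)).filter fun C => Sml C s ∧ x ∈ fill ω' C) := by
  intro C hC
  rw [mem_filter] at hC ⊢
  obtain ⟨h1, h2, h3⟩ := hC
  unfold cls at h1 ⊢
  obtain ⟨y, hy, rfl⟩ := mem_image.1 h1
  have hsub := hg.sml ω _ s x h2 h3
  have hl := hg.loc ω ω' y (fun v b i hv => h v (by
    have h4 := mem_bz.1 (Finset.mem_coe.1 (hsub hv))
    have h5 := ed_co v b i
    rw [mem_bz]
    push_cast
    omega))
  refine ⟨mem_image.2 ⟨y, hy, hl.1⟩, h2, ?_⟩
  rw [hl.2]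
  exact h3

theorem mid_sub (hb : P_bas) (hg : X_geo) (a b : ℕ) (ha : 1 ≤ a) (ω ω' : Cf)
    (h : ∀ i ∈ box (b + 1) \ box (a - 1), ω i = ω' i) :
    ((cls ω (box b)).filter (IsMid a b ω)) ⊆ ((cls ω' (box b)).filter (IsMid a b ω')) := by
  intro C hC
  rw [mem_filter] at hC ⊢
  obtain ⟨h1, h2, h3, h4⟩ := hC
  unfold cls at h1 ⊢
  obtain ⟨y, hy, rfl⟩ := mem_image.1 h1
  have hl := hg.loc ω ω' y (fun v c i hv => h v (by
    refine mem_sdiff.2 ⟨(hb.edb b v c i).2 (Finset.mem_coe.1 (h2 hv)), fun hv' => ?_⟩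
    have h5 := (hb.edb (a - 1) v c i).1 hv'
    rw [Nat.sub_add_cancel ha] at h5
    exact h3 _ h5 hv))
  refine ⟨mem_image.2 ⟨y, hy, hl.1⟩, h2, h3, ?_⟩
  rw [hl.2]
  exact h4

theorem esc (b : ℕ) (ω ω' : Cf) (S : Sq → Prop)
    (h : ∀ v c i, ed v c i ∈ box b → ¬S (ed v c (!i)) → ω v = ω' v) {u y : Sq}
    (hy : y ∉ box b) (p : ReflTransGen (Op ω) u y) :
    (∃ x, S x ∧ ¬clus ω' x ⊆ box b) ∨ ¬clus ω' u ⊆ box b := by
  induction p using ReflTransGen.head_induction_on with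
  | refl => exact Or.inr fun hh => hy (Finset.mem_coe.1 (hh ReflTransGen.refl))
  | @head u u' h1 h2 ih =>
    rcases ih with ih | ih
    · exact Or.inl ih
    by_cases hu : u ∈ box b
    · by_cases hs : S u'
      · exact Or.inl ⟨u', hs, ih⟩
      · obtain ⟨v, i, e1, e2⟩ := h1
        have e : ω v = ω' v := h v (ω v) i (by rw [← e1]; exact hu) (by rw [← e2]; exact hs)
        refine Or.inr fun hh => ih fun z hz => hh ?_
        exact ReflTransGen.head ⟨v, i, by rw [← e]; exact e1, by rw [← e]; exact e2⟩ hz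
    · exact Or.inr fun hh => hu (Finset.mem_coe.1 (hh ReflTransGen.refl))

theorem esc0 (hb : P_bas) (b : ℕ) (ω ω' : Cf) (h : ∀ i ∈ box (b + 1), ω i = ω' i) (x : Sq)
    (hx : ¬clus ω x ⊆ box b) : ¬clus ω' x ⊆ box b := by
  obtain ⟨y, hy, hy'⟩ := Set.not_subset.1 hx
  rcases esc b ω ω' (fun _ => False) (fun v c i hv _ => h v ((hb.edb b v c i).2 hv))
    (fun e => hy' (Finset.mem_coe.2 e)) hy with ⟨_, h1, _⟩ | h1
  · exact h1.elim
  · exact h1

theorem arm_imp (hb : P_bas) (a b : ℕ) (ha : 1 ≤ a) (ω ω' : Cf)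
    (h : ∀ i ∈ box (b + 1) \ box (a - 1), ω i = ω' i) (hn : ¬NoArm a b ω) : ¬NoArm a b ω' := by
  intro hn'
  apply hn
  intro x hx
  by_contra hc
  obtain ⟨y, hy, hy'⟩ := Set.not_subset.1 hc
  have key := esc b ω ω' (fun z => z ∈ box a) (fun v c i hv hs => h v (by
    refine mem_sdiff.2 ⟨(hb.edb b v c i).2 hv, fun hv' => hs ?_⟩
    have h5 := (hb.edb (a - 1) v c (!i)).1 hv'
    rw [Nat.sub_add_cancel ha] at h5
    exact h5)) (fun e => hy' (Finset.mem_coe.2 e)) hy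
  rcases key with ⟨z, h1, h2⟩ | h1
  · exact h2 (hn' z h1)
  · exact h1 (hn' x hx)

theorem arm0_imp (hb : P_bas) (a b : ℕ) (ω ω' : Cf) (h : ∀ i ∈ box (b + 1), ω i = ω' i)
    (hn : ¬NoArm a b ω) : ¬NoArm a b ω' := by
  intro hn'
  apply hn
  intro x hx
  by_contra hc
  exact esc0 hb b ω ω' h x hc (hn' x hx)

theorem ba_imp (hb : P_bas) (c : Bool) (a b : ℕ) (ω ω' : Cf)
    (h : ∀ i ∈ box (b + 1), ω i = ω' i) (hn : ω ∈ BA c a b) : ω' ∈ BA c a b := by
  obtain ⟨x, hx, h1, h2⟩ := hn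
  exact ⟨x, hx, h1, esc0 hb b ω ω' h x h2⟩

theorem up_path {ω ω' : Cf} (hle : ω ≤ ω') {x y : Sq} (hx : Even (x.1 + x.2))
    (p : ReflTransGen (Op ω) x y) : Even (y.1 + y.2) ∧ ReflTransGen (Op ω') x y := by
  induction p with
  | refl => exact ⟨hx, ReflTransGen.refl⟩
  | tail _ h2 ih =>
    obtain ⟨v, i, e1, e2⟩ := h2
    have hv : ω v = true := (ed_ev v (ω v) i).1 (by rw [← e1]; exact ih.1)
    have hv' : ω' v = true := by
      have h3 : ω v ≤ ω' v := hle v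
      rw [hv] at h3
      exact top_le_iff.1 h3
    have e : ω v = ω' v := hv.trans hv'.symm
    refine ⟨?_, ih.2.tail ⟨v, i, by rw [← e]; exact e1, by rw [← e]; exact e2⟩⟩
    rw [e2]
    exact (ed_ev v (ω v) (!i)).2 hv

end XDepx

open XDepx in
theorem xdep_pf (hb : Base) (hg : X_geo) : X_dep where
  ns := fun s x ω ω' h => by
    unfold ns
    rw [Subset.antisymm (ns_sub hg s x ω ω' h)
      (ns_sub hg s x ω' ω fun i hi => (h i hi).symm)]
  mid := fun a b ha ω ω' h => by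
    unfold mid
    rw [Subset.antisymm (mid_sub hb.bas hg a b ha ω ω' h)
      (mid_sub hb.bas hg a b ha ω' ω fun i hi => (h i hi).symm)]
  arm := fun a b ha _ ω ω' h => propext
    ⟨arm_imp hb.bas a b ha ω ω' h, arm_imp hb.bas a b ha ω' ω fun i hi => (h i hi).symm⟩
  arm0 := fun a b ω ω' h => propext
    ⟨arm0_imp hb.bas a b ω ω' h, arm0_imp hb.bas a b ω' ω fun i hi => (h i hi).symm⟩
  ba := fun c a b ω ω' h => propext
    ⟨ba_imp hb.bas c a b ω ω' h, ba_imp hb.bas c a b ω' ω fun i hi => (h i hi).symm⟩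
  up := fun a b ω ω' hle hω => by
    obtain ⟨x, hx, h1, h2⟩ := hω
    refine ⟨x, hx, h1, fun hh => h2 fun y hy => hh ?_⟩
    exact (up_path hle (of_decide_eq_true h1) hy).2

end Vale.Agent.P167Q
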