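import Vale.Agent.P167Q.XStm

/-! P167Q: elementary geometry of clusters and of their fillings. -/

open Finset Relation
open scoped Classical

namespace Vale.Agent.P167Q

namespace XGeox

theorem nb_ed (v : Sq) (b i j : Bool) : Nb (ed v b i) (ed v (!b) j) := by
  unfold ed Nb
  generalize decide (Even (v.1 + v.2)) = e
  cases b <;> cases e <;> cases i <;> cases j <;> simp

theorem reach {ω ω' : Cf} {C : Set Sq} (h : ∀ v b i, ed v b i ∈ C → ω v = ω' v) (hp : P_bas)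
    {x y : Sq} (hr : ReflTransGen (fun u v => (Nb u v ∨ Op ω u v) ∧ v ∉ C) x y) :
    ReflTransGen (fun u v => (Nb u v ∨ Op ω' u v) ∧ v ∉ C) x y := by
  induction hr with
  | refl => exact .refl
  | @tail u w _ h2 ih =>
    obtain ⟨h2 | ⟨v, i, h3, h4⟩, h5⟩ := h2
    · exact ih.tail ⟨Or.inl h2, h5⟩
    · by_cases k : ∃ b j, ed v b j ∈ C
      · obtain ⟨b, j, k⟩ := k
        refine ih.tail ⟨Or.inr ⟨v, i, ?_, ?_⟩, h5⟩
        · rw [← h v b j k]; exact h3
        · rw [← h v b j k]; exact h4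
      · refine (ih.tail (c := ed v (!ω v) false) ⟨Or.inl ?_, fun k' => k ⟨_, _, k'⟩⟩).tail
          ⟨Or.inl ?_, h5⟩
        · rw [h3]; exact nb_ed _ _ _ _
        · rw [h4]; exact hp.nbs _ _ (nb_ed _ _ _ _)

theorem fill_sub {ω ω' : Cf} {C : Set Sq} (h : ∀ v b i, ed v b i ∈ C → ω v = ω' v)
    (hp : P_bas) : fill ω' C ⊆ fill ω C := by
  rintro x (hx | hx)
  · exact Or.inl hx
  · exact Or.inr (hx.subset fun y hy => reach h hp hy)

theorem loc (hp : P_bas) (ω ω' : Cf) (x : Sq)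
    (h : ∀ v b i, ed v b i ∈ clus ω x → ω v = ω' v) :
    clus ω' x = clus ω x ∧ fill ω' (clus ω x) = fill ω (clus ω x) := by
  refine ⟨Set.Subset.antisymm (fun y hy => ?_) fun y hy => ?_,
    Set.Subset.antisymm (fill_sub h hp) (fill_sub (fun v b i k => (h v b i k).symm) hp)⟩
  · change ReflTransGen (Op ω') x y at hy
    change ReflTransGen (Op ω) x y
    induction hy with
    | refl => exact .refl
    | @tail u w _ h2 ih =>
      obtain ⟨v, i, h3, h4⟩ := h2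
      have k : ω v = ω' v := h v (ω' v) i (by rw [← h3]; exact ih)
      exact ih.tail ⟨v, i, by rw [k]; exact h3, by rw [k]; exact h4⟩
  · change ReflTransGen (Op ω) x y at hy
    change ReflTransGen (Op ω') x y
    induction hy with
    | refl => exact .refl
    | @tail u w h1 h2 ih =>
      obtain ⟨v, i, h3, h4⟩ := h2
      have k : ω v = ω' v := h v (ω v) i (by rw [← h3]; exact h1)
      exact ih.tail ⟨v, i, by rw [← k]; exact h3, by rw [← k]; exact h4⟩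

theorem ray (ω : Cf) (C : Set Sq) (x d : Sq) (hd : |d.1| + |d.2| = 1)
    (hC : ∀ k : ℕ, ((x.1 + k * d.1, x.2 + k * d.2) : Sq) ∉ C) : x ∉ fill ω C := by
  rintro (hx | hx)
  · exact hC 0 (by simpa using hx)
  · refine Set.infinite_of_injective_forall_mem
      (f := fun k : ℕ => ((x.1 + k * d.1, x.2 + k * d.2) : Sq)) (fun k l hkl => ?_) (fun k => ?_) hx
    · have h1 : x.1 + k * d.1 = x.1 + l * d.1 := congrArg Prod.fst hkl
      have h2 : x.2 + k * d.2 = x.2 + l * d.2 := congrArg Prod.snd hkl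
      by_cases h0 : d.1 = 0
      · have h3 : d.2 ≠ 0 := fun h4 => by simp [h0, h4] at hd
        exact_mod_cast mul_right_cancel₀ h3 (add_left_cancel h2)
      · exact_mod_cast mul_right_cancel₀ h0 (add_left_cancel h1)
    · induction k with
      | zero => simpa using ReflTransGen.refl
      | succ k ih =>
        refine ReflTransGen.tail ih ⟨Or.inl ?_, hC (k + 1)⟩
        unfold Nb
        dsimp only
        rw [← hd, ← abs_neg d.1, ← abs_neg d.2]
        congr 2 <;> push_cast <;> ring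

theorem bd (ω : Cf) (C : Set Sq) (x : Sq) (h : x ∈ fill ω C) :
    (∃ y ∈ C, y.1 ≤ x.1) ∧ (∃ y ∈ C, x.1 ≤ y.1) ∧ (∃ y ∈ C, y.2 ≤ x.2) ∧ ∃ y ∈ C, x.2 ≤ y.2 := by
  refine ⟨?_, ?_, ?_, ?_⟩
  · by_contra k
    exact ray ω C x (-1, 0) (by simp) (fun m hm => k ⟨_, hm, by dsimp only; omega⟩) h
  · by_contra k
    exact ray ω C x (1, 0) (by simp) (fun m hm => k ⟨_, hm, by dsimp only; omega⟩) h
  · by_contra k
    exact ray ω C x (0, -1) (by simp) (fun m hm => k ⟨_, hm, by dsimp only; omega⟩) h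
  · by_contra k
    exact ray ω C x (0, 1) (by simp) (fun m hm => k ⟨_, hm, by dsimp only; omega⟩) h

theorem side (hp : P_bas) (ω : Cf) (C : Set Sq) (R : ℕ) (h : ∀ x ∈ box R, x ∉ C) :
    ∀ x ∈ box R, ∀ y ∈ box R, x ∈ fill ω C → y ∈ fill ω C := by
  intro x hx y hy hf
  refine Or.inr ((hf.resolve_left (h x hx)).subset fun z hz => ReflTransGen.trans ?_ hz)
  exact ReflTransGen.mono (fun u v huv => ⟨Or.inl huv.1, h v huv.2⟩) _ _ (hp.cnn R x hx y hy)

theorem sub (hp : P_bas) (ω : Cf) (z x : Sq) (h : x ∈ fill ω (clus ω z)) :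
    clus ω x ⊆ fill ω (clus ω z) := by
  intro y hy
  by_cases k : x ∈ clus ω z
  · exact Or.inl (hp.cleq ω z x k ▸ hy)
  refine Or.inr ((h.resolve_left k).subset fun w hw => ReflTransGen.trans ?_ hw)
  change ReflTransGen (Op ω) x y at hy
  clear hw
  induction hy with
  | refl => exact .refl
  | @tail u v h1 h2 ih =>
    refine ih.tail ⟨Or.inr h2, fun hv => k ?_⟩
    rw [← hp.cleq ω z v hv, hp.cleq ω x v (h1.tail h2)]
    exact hp.self ω x

theorem sml (ω : Cf) (C : Set Sq) (s : ℕ) (x : Sq) (hs : Sml C s) (h : x ∈ fill ω C) :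
    C ⊆ bz x s := by
  obtain ⟨⟨a, ha, h1⟩, ⟨b, hb, h2⟩, ⟨c, hc, h3⟩, d, hd, h4⟩ := bd ω C x h
  intro w hw
  have k1 := (hs w hw a ha).1
  have k2 := (hs b hb w hw).1
  have k3 := (hs w hw c hc).2
  have k4 := (hs d hd w hw).2
  rw [mem_coe, mem_bz]
  omega

theorem card (ω : Cf) (C : Set Sq) (s : ℕ) (W : Finset Sq) (hs : Sml C s) :
    (W.filter fun x => x ∈ fill ω C).card ≤ s ^ 2 := by
  rcases C.eq_empty_or_nonempty with rfl | ⟨w, hw⟩
  · rw [filter_eq_empty_iff.2 fun x _ hx => ?_]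
    · simp
    · obtain ⟨⟨y, hy, -⟩, -⟩ := bd ω _ x hx
      exact hy
  obtain ⟨_, ⟨p, hp, rfl⟩, h1⟩ := Int.exists_least_of_bdd (P := fun z => ∃ y ∈ C, y.1 = z)
    ⟨w.1 - s, by rintro _ ⟨y, hy, rfl⟩; have := (hs w hw y hy).1; omega⟩ ⟨_, w, hw, rfl⟩
  obtain ⟨_, ⟨q, hq, rfl⟩, h2⟩ := Int.exists_least_of_bdd (P := fun z => ∃ y ∈ C, y.2 = z)
    ⟨w.2 - s, by rintro _ ⟨y, hy, rfl⟩; have := (hs w hw y hy).2; omega⟩ ⟨_, w, hw, rfl⟩
  refine (card_le_card (t := Ico p.1 (p.1 + s) ×ˢ Ico q.2 (q.2 + s)) fun x hx => ?_).trans ?_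
  · obtain ⟨⟨a, ha, k1⟩, ⟨b, hb, k2⟩, ⟨c, hc, k3⟩, d, hd, k4⟩ := bd ω C x (mem_filter.1 hx).2
    have l1 := h1 _ ⟨a, ha, rfl⟩
    have l2 := (hs b hb p hp).1
    have l3 := h2 _ ⟨c, hc, rfl⟩
    have l4 := (hs d hd q hq).2
    simp only [mem_product, mem_Ico]
    omega
  · simp [sq]

theorem nsm (s s' : ℕ) (x : Sq) (ω : Cf) (h : s ≤ s') : ns s x ω ≤ ns s' x ω := by
  refine card_le_card fun C hC => ?_
  obtain ⟨h1, h2, h3⟩ := mem_filter.1 hC
  refine mem_filter.2 ⟨image_subset_image (fun y hy => ?_) h1, fun a ha b hb => ?_, h3⟩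
  · rw [mem_bz] at hy ⊢
    omega
  · have := h2 a ha b hb
    omega

theorem nsk (hp : P_bas) (u : ℕ) (z : Sq) (ω : Cf) (x : Sq) (hx : x ∈ bz z u) :
    ns u x ω ≤ ns (u / 2) x ω + kb u z ω := by
  refine (card_le_card fun C hC => ?_).trans (card_union_le _ _)
  obtain ⟨h1, -, h3⟩ := mem_filter.1 hC
  obtain ⟨y, hy, rfl⟩ := mem_image.1 h1
  by_cases k : Sml (clus ω y) (u / 2)
  · exact mem_union_left _ (mem_filter.2
      ⟨mem_image_of_mem _ (sml ω _ _ x k h3 (hp.self ω y)), k, h3⟩)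
  · refine mem_union_right _ (mem_filter.2 ⟨mem_image_of_mem _ ?_, k⟩)
    rw [mem_bz] at hx hy ⊢
    push_cast
    omega

theorem zero (hp : P_bas) (a b : ℕ) (ω : Cf) (h : ¬NoArm a b ω) : mid a b ω = 0 := by
  refine card_eq_zero.2 (filter_eq_empty_iff.2 fun C hC hm => h fun x hx w hw => ?_)
  obtain ⟨z, -, rfl⟩ := mem_image.1 hC
  obtain ⟨⟨p, hp1, k1⟩, ⟨q, hq, k2⟩, ⟨r, hr, k3⟩, t, ht, k4⟩ :=
    bd ω _ w (sub hp ω z x (hm.2.2 x hx) hw)
  have l1 := mem_box.1 (mem_coe.1 (hm.1 hp1))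
  have l2 := mem_box.1 (mem_coe.1 (hm.1 hq))
  have l3 := mem_box.1 (mem_coe.1 (hm.1 hr))
  have l4 := mem_box.1 (mem_coe.1 (hm.1 ht))
  rw [mem_coe, mem_box]
  omega

end XGeox

theorem xgeo_pf (hb : Base) : X_geo where
  loc := XGeox.loc hb.bas
  bd := XGeox.bd
  side := XGeox.side hb.bas
  sub := XGeox.sub hb.bas
  sml := XGeox.sml
  card := XGeox.card
  nsm := XGeox.nsm
  nlk j z ω x hx := by
    have h1 : (ns (2 ^ j / 2) x ω : ℝ) ≤ ns (2 ^ j) x ω := by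
      exact_mod_cast XGeox.nsm _ _ x ω (Nat.div_le_self _ _)
    have h2 : (ns (2 ^ j) x ω : ℝ) ≤ ns (2 ^ j / 2) x ω + kb (2 ^ j) z ω := by
      exact_mod_cast XGeox.nsk hb.bas _ z ω x hx
    unfold nl
    constructor <;> linarith
  zero := XGeox.zero hb.bas

end Vale.Agent.P167Q
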