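import Vale.Agent.P167Q.XStm

/-! P167Q, one arm exponent: translation invariance. -/

open Relation MeasureTheory
open scoped Classical

namespace Vale.Agent.P167Q

namespace XShx

theorem ed_add (v t : Sq) (b i : Bool) :
    ed v (xor (decide (Odd (t.1 + t.2))) b) i + t = ed (v + t) b i := by
  obtain ⟨x, y⟩ := v
  obtain ⟨p, q⟩ := t
  have e : Even (x + p + (y + q)) ↔ (Even (x + y) ↔ ¬Odd (p + q)) := by
    rw [Int.even_iff, Int.even_iff, Int.odd_iff]
    omega
  unfold ed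
  by_cases h : Even (x + y) <;> by_cases k : Odd (p + q) <;> cases b <;> cases i <;>
    simp [h, k, e, sub_add_eq_add_sub]

theorem op (t : Sq) (ω : Cf) (x y : Sq) : Op (sh t ω) x y ↔ Op ω (x + t) (y + t) := by
  constructor
  · rintro ⟨v, i, rfl, rfl⟩
    exact ⟨v + t, i, ed_add v t _ i, ed_add v t _ (!i)⟩
  · rintro ⟨v, i, h1, h2⟩
    obtain ⟨w, rfl⟩ : ∃ w, v = w + t := ⟨v - t, (sub_add_cancel v t).symm⟩
    exact ⟨w, i, add_right_cancel (h1.trans (ed_add w t _ i).symm),
      add_right_cancel (h2.trans (ed_add w t _ (!i)).symm)⟩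

theorem rtg {r r' : Sq → Sq → Prop} (t : Sq) (h : ∀ u v, r u v ↔ r' (u + t) (v + t)) (x y : Sq) :
    ReflTransGen r x y ↔ ReflTransGen r' (x + t) (y + t) := by
  constructor
  · intro k
    induction k with
    | refl => exact ReflTransGen.refl
    | tail _ k ih => exact ih.tail ((h _ _).1 k)
  · have a : ∀ u v, ReflTransGen r' u v → ReflTransGen r (u - t) (v - t) := by
      intro u v k
      induction k with
      | refl => exact ReflTransGen.refl
      | tail _ k ih => exact ih.tail ((h _ _).2 (by simpa only [sub_add_cancel] using k))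
    intro k
    simpa only [add_sub_cancel_right] using a _ _ k

theorem cl (t : Sq) (ω : Cf) (x y : Sq) : y ∈ clus (sh t ω) x ↔ y + t ∈ clus ω (x + t) :=
  rtg t (op t ω) x y

theorem nb (t u v : Sq) : Nb u v ↔ Nb (u + t) (v + t) := by
  simp only [Nb, Prod.fst_add, Prod.snd_add, add_sub_add_right_eq_sub]

theorem fl (t : Sq) (ω : Cf) (C : Set Sq) (x : Sq) :
    x ∈ fill (sh t ω) {y | y + t ∈ C} ↔ x + t ∈ fill ω C := by
  refine or_congr Iff.rfl ?_
  have e : {y | ReflTransGen (fun u v => (Nb u v ∨ Op (sh t ω) u v) ∧ v ∉ {y | y + t ∈ C}) x y} =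
      (· + t) ⁻¹' {y | ReflTransGen (fun u v => (Nb u v ∨ Op ω u v) ∧ v ∉ C) (x + t) y} :=
    Set.ext fun y => rtg t (fun u v => and_congr (or_congr (nb t u v) (op t ω u v)) Iff.rfl) x y
  rw [e]
  exact ⟨fun h => h.of_preimage (add_right_surjective t),
    fun h => h.preimage (add_left_injective t).injOn⟩

theorem bz_add (z x : Sq) (s : ℕ) : x + z ∈ bz z s ↔ x ∈ box s := by
  simp only [mem_bz, mem_box, Prod.fst_add, Prod.snd_add]
  omega

theorem cls_iff (s : ℕ) (x : Sq) (ω : Cf) (C : Set Sq) :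
    C ∈ cls ω (bz x s) ↔ {y | y + x ∈ C} ∈ cls (sh x ω) (bz 0 s) := by
  rw [bz_zero, cls, cls, Finset.mem_image, Finset.mem_image]
  constructor
  · rintro ⟨v, hv, rfl⟩
    obtain ⟨w, rfl⟩ : ∃ w, v = w + x := ⟨v - x, (sub_add_cancel v x).symm⟩
    exact ⟨w, (bz_add x w s).1 hv, Set.ext fun y => cl x ω w y⟩
  · rintro ⟨w, hw, e⟩
    refine ⟨w + x, (bz_add x w s).2 hw, Set.ext fun v => ?_⟩
    obtain ⟨y, rfl⟩ : ∃ y, v = y + x := ⟨v - x, (sub_add_cancel v x).symm⟩
    rw [← cl, e]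
    exact Iff.rfl

theorem sml_iff (s : ℕ) (x : Sq) (C : Set Sq) : Sml C s ↔ Sml {y | y + x ∈ C} s := by
  constructor
  · intro h u hu v hv
    simpa only [Prod.fst_add, Prod.snd_add, add_sub_add_right_eq_sub] using h _ hu _ hv
  · intro h u hu v hv
    simpa only [Prod.fst_sub, Prod.snd_sub, sub_sub_sub_cancel_right] using
      h (u - x) (show u - x + x ∈ C by rwa [sub_add_cancel]) (v - x)
        (show v - x + x ∈ C by rwa [sub_add_cancel])

theorem ns_eq (s : ℕ) (x : Sq) (ω : Cf) : ns s x ω = ns s 0 (sh x ω) := by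
  refine Finset.card_bijective (fun C : Set Sq => {y | y + x ∈ C})
    ⟨Set.preimage_injective.2 (add_right_surjective x),
      Set.preimage_surjective.2 (add_left_injective x)⟩ fun C => ?_
  rw [Finset.mem_filter, Finset.mem_filter, fl, zero_add, ← cls_iff, ← sml_iff]

theorem ev (z : Sq) (a b : ℕ) :
    {ω | ∃ x ∈ bz z a, ¬clus ω x ⊆ bz z b} = sh z ⁻¹' {ω | ¬NoArm a b ω} := by
  ext ω
  have k : ∀ x, clus (sh z ω) x ⊆ box b ↔ clus ω (x + z) ⊆ bz z b := fun x => by
    constructor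
    · intro h v hv
      obtain ⟨y, rfl⟩ : ∃ y, v = y + z := ⟨v - z, (sub_add_cancel v z).symm⟩
      exact (bz_add z y b).2 (h ((cl z ω x y).2 hv))
    · intro h y hy
      exact (bz_add z y b).1 (h ((cl z ω x y).1 hy))
  constructor
  · rintro ⟨v, hv, h⟩ hn
    obtain ⟨x, rfl⟩ : ∃ x, v = x + z := ⟨v - z, (sub_add_cancel v z).symm⟩
    exact h ((k x).1 (hn x ((bz_add z x a).1 hv)))
  · intro h
    by_contra hc
    refine h fun x hx => (k x).2 ?_
    by_contra h1
    exact hc ⟨x + z, (bz_add z x a).2 hx, h1⟩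

end XShx

theorem xsh_pf (hb : Base) (hd : X_dep) : X_sh := by
  have mp : ∀ t, MeasurePreserving (sh t) perc perc := fun t =>
    hb.inv _ _ (Equiv.addRight t) (decide (Odd (t.1 + t.2)))
  refine ⟨mp, XShx.op, XShx.cl, XShx.fl, XShx.ns_eq, fun z a b => ?_⟩
  rw [XShx.ev, pa, Measure.real, Measure.real, (mp z).measure_preimage
    ((hb.loc _ _).2 _ (hd.arm0 a b)).1.nullMeasurableSet]

end Vale.Agent.P167Q
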