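import Vale.Agent.P167Q.XStm

/-! P167Q, one arm exponent: both colours have comparable arm probabilities. -/

open Finset Relation Filter Topology MeasureTheory
open scoped Classical

namespace Vale.Agent.P167Q

namespace XSymx

theorem col_flip {c : Bool} {m m' : ℤ} (h : decide (Even m) ≠ c) (hm : m' = m + 1 ∨ m' = m - 1) :
    decide (Even m') = c := by
  have e : Even m' ↔ ¬Even m := by
    rcases hm with rfl | rfl
    · exact Int.even_add_one
    · exact Int.even_sub_one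
  cases c <;> simp_all

theorem mem_sh (hs : X_sh) {c : Bool} {a b : ℕ} {ω : Cf} {x y : Sq} (t : Sq)
    (hy : y ∈ clus ω x) (h1 : x - t ∈ box a) (h2 : decide (Even ((x - t).1 + (x - t).2)) = c)
    (h3 : y - t ∉ box b) : ω ∈ sh t ⁻¹' BA c a b := by
  refine ⟨x - t, h1, h2, fun h => h3 (h ?_)⟩
  rw [hs.cl, sub_add_cancel, sub_add_cancel]
  exact hy

theorem cover (hs : X_sh) (c : Bool) (a b : ℕ) : {ω | ¬NoArm a b ω} ⊆
    BA c (a + 1) b ∪ sh (1, 0) ⁻¹' BA c (a + 1) b ∪ sh (-1, 0) ⁻¹' BA c (a + 1) b ∪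
      sh (0, 1) ⁻¹' BA c (a + 1) b ∪ sh (0, -1) ⁻¹' BA c (a + 1) b := by
  intro ω hω
  simp only [Set.mem_setOf_eq, NoArm, not_forall] at hω
  obtain ⟨x, hx, hn⟩ := hω
  rw [mem_box] at hx
  by_cases hc : decide (Even (x.1 + x.2)) = c
  · refine Or.inl (Or.inl (Or.inl (Or.inl ⟨x, ?_, hc, hn⟩)))
    rw [mem_box]
    push_cast
    omega
  obtain ⟨y, hy, hb⟩ := Set.not_subset.1 hn
  rw [mem_coe, mem_box] at hb
  have key : ∀ t : Sq, |t.1| + |t.2| = 1 → y - t ∉ box b → ω ∈ sh t ⁻¹' BA c (a + 1) b := by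
    intro t ht h3
    refine mem_sh hs t hy ?_ (col_flip hc ?_) h3
    · rw [mem_box, Prod.fst_sub, Prod.snd_sub]
      push_cast
      rcases abs_cases t.1 with h | h <;> rcases abs_cases t.2 with h' | h' <;> omega
    · rw [Prod.fst_sub, Prod.snd_sub]
      rcases abs_cases t.1 with h | h <;> rcases abs_cases t.2 with h' | h' <;> omega
  by_cases h1 : y.1 < -(b : ℤ)
  · refine Or.inl (Or.inl (Or.inl (Or.inr (key (1, 0) (by simp) ?_))))
    rw [mem_box, Prod.fst_sub]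
    omega
  by_cases h2 : (b : ℤ) < y.1
  · refine Or.inl (Or.inl (Or.inr (key (-1, 0) (by simp) ?_)))
    rw [mem_box, Prod.fst_sub]
    omega
  by_cases h3 : y.2 < -(b : ℤ)
  · refine Or.inl (Or.inr (key (0, 1) (by simp) ?_))
    rw [mem_box, Prod.snd_sub]
    omega
  · refine Or.inr (key (0, -1) (by simp) ?_)
    rw [mem_box, Prod.snd_sub]
    omega

end XSymx

theorem ksym_pf (hb : Base) (hs : X_sh) (hd : X_dep) : K_sym := by
  intro c a b
  haveI : IsProbabilityMeasure perc := fair_prob (ℤ × ℤ)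
  refine ⟨measureReal_mono fun ω ⟨x, hx, _, hn⟩ h => hn (h x hx), ?_⟩
  have hm : MeasurableSet (BA c (a + 1) b) := ((hb.loc _ _).2 _ (hd.ba c (a + 1) b)).1
  have e : ∀ t, perc.real (sh t ⁻¹' BA c (a + 1) b) = pc c (a + 1) b := fun t =>
    (hs.mp t).measureReal_preimage hm.nullMeasurableSet
  have h0 : pa a b ≤ _ := measureReal_mono (μ := perc) (XSymx.cover hs c a b)
  have u1 := measureReal_union_le (μ := perc) (BA c (a + 1) b) (sh (1, 0) ⁻¹' BA c (a + 1) b)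
  have u2 := measureReal_union_le (μ := perc) (BA c (a + 1) b ∪ sh (1, 0) ⁻¹' BA c (a + 1) b)
    (sh (-1, 0) ⁻¹' BA c (a + 1) b)
  have u3 := measureReal_union_le (μ := perc) (BA c (a + 1) b ∪ sh (1, 0) ⁻¹' BA c (a + 1) b ∪
    sh (-1, 0) ⁻¹' BA c (a + 1) b) (sh (0, 1) ⁻¹' BA c (a + 1) b)
  have u4 := measureReal_union_le (μ := perc) (BA c (a + 1) b ∪ sh (1, 0) ⁻¹' BA c (a + 1) b ∪
    sh (-1, 0) ⁻¹' BA c (a + 1) b ∪ sh (0, 1) ⁻¹' BA c (a + 1) b) (sh (0, -1) ⁻¹' BA c (a + 1) b)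
  rw [e] at u1 u2 u3 u4
  have e0 : perc.real (BA c (a + 1) b) = pc c (a + 1) b := rfl
  linarith

end Vale.Agent.P167Q
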