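import Vale.Agent.P167Q.XStm
import Vale.Agent.P167Q.HCir
import Vale.Agent.P167Q.HDet

/-! P167Q: long arms are unlikely. -/

open Filter Topology MeasureTheory
open scoped Classical

namespace Vale.Agent.P167Q

open Vale.Agent.P152 (Vx Site v6)

namespace XArmx

theorem sub (u M : ℕ) (hu : 1 ≤ u) : BA false (u + 1) ((6 * 76 * 4 ^ M + 1) * u) ⊆
    (fun (ω : Cf) (m : Vx) => xor false (ω (Equiv.ofBijective v6 HDetx.v6_bij m))) ⁻¹'
      HCirx.bad (u + 3) M := by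
  rintro ω ⟨x, hx, hc, hn⟩ k hk h3
  apply hn
  obtain ⟨f, rfl⟩ := HDetx.tq_surj (of_decide_eq_false hc)
  have g1 := HCirx.sc_ge (u + 3) k
  have g2 := HCirx.sc_lt (u + 3) hk
  have g3 : HCirx.sc (u + 3) M ≤ 76 * 4 ^ M * u := by
    rw [HCirx.sc, mul_right_comm]
    exact Nat.mul_le_mul_right _ (by omega)
  have g4 : (6 * 76 * 4 ^ M + 1) * u = 6 * (76 * 4 ^ M * u) + u := by ring
  simp only [Bool.false_xor, Equiv.ofBijective_apply] at h3
  obtain ⟨E, e1, e3, -, -, e2⟩ := P145.enc_cir P145.p_enc (O := {m | ω (v6 m) = true}) (z := 0)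
    (by omega) h3
  rw [mem_box] at hx
  simp only [HDetx.tq] at hx
  have hf : f ∈ E := e1 (Finset.mem_coe.2 (P145.mem_sq'.2 (by
    simp only [Prod.fst_zero, Prod.snd_zero]
    omega)))
  have key : ∀ y ∈ clus ω (HDetx.tq f), ∃ g ∈ E, HDetx.tq g = y := fun y hy => by
    induction hy with
    | refl => exact ⟨f, hf, rfl⟩
    | tail _ k ih =>
      obtain ⟨g, hg, rfl⟩ := ih
      exact HDetx.step e2 hg k
  intro y hy
  obtain ⟨g, hg, rfl⟩ := key y hy
  have := P145.mem_sq'.1 (e3 hg)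
  simp only [Prod.fst_zero, Prod.snd_zero] at this
  rw [Finset.mem_coe, mem_box, g4]
  simp only [HDetx.tq]
  omega

end XArmx

theorem karm_pf (hb : Base) (hk : K_sym) : K_arm := by
  intro ε hε
  obtain ⟨c, hc0, hc⟩ := hb.cir
  have hc1 : c ≤ 1 := (hc 72 le_rfl).trans measureReal_le_one
  obtain ⟨M, hM⟩ := exists_pow_lt_of_lt_one (show 0 < ε / 5 by positivity) (sub_lt_self 1 hc0)
  refine ⟨6 * 76 * 4 ^ M + 1, by omega, fun u hu => (hk false u _).2.trans ?_⟩
  have h1 := HCirx.bad_le hb.loc hb.fk hb.ev hc1 hc (u + 3) M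
  have h2 := (hb.inv _ _ (Equiv.ofBijective v6 HDetx.v6_bij) false).measureReal_preimage
    ((hb.loc Vx _).2 _ (HCirx.le_bad hb.ev (u + 3) M)).1.nullMeasurableSet
  have h3 := measureReal_mono (μ := fair (ℤ × ℤ)) (XArmx.sub u M hu)
  rw [pc, perc_eq]
  linarith

end Vale.Agent.P167Q
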