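import Vale.Agent.P167Q.XStm

open Finset Relation Filter Topology MeasureTheory
open scoped Classical

namespace Vale.Agent.P167Q

namespace XFin2x

lemma ind2 (hi : X_ind) {W₁ W₂ : Finset Sq} {G₁ G₂ : Cf → ℝ} (h1 : Lc W₁ G₁) (h2 : Lc W₂ G₂)
    (hd : Disjoint W₁ W₂) : (ex fun ω => G₁ ω * G₂ ω) = ex G₁ * ex G₂ := by
  have h := hi Bool univ (fun b => cond b W₁ W₂) (fun b => cond b G₁ G₂)
    (fun b _ => by cases b; exacts [h2, h1])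
    (fun b _ c _ hbc => by
      cases b <;> cases c
      · exact absurd rfl hbc
      · exact hd.symm
      · exact hd
      · exact absurd rfl hbc)
  simpa only [Fintype.prod_bool, cond_true, cond_false] using h

def Bc (J m : ℕ) : Set Cf := {ω | ¬NoArm (3 * 2 ^ J) (2 ^ (J + m) - 1) ω}

lemma meas (hb : Base) (hd : X_dep) (J m : ℕ) : MeasurableSet (Bc J m) :=
  ((hb.loc (ℤ × ℤ) _).2 _ (hd.arm0 (3 * 2 ^ J) (2 ^ (J + m) - 1))).1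

lemma ex_ind (hb : Base) (hd : X_dep) (J m : ℕ) : ex ((Bc J m).indicator 1) = pp J m :=
  integral_indicator_one (meas hb hd J m)

lemma lc_ind {W : Finset Sq} {B : Set Cf} (h : Le W B) :
    Lc W (B.indicator (1 : Cf → ℝ)) ∧ Lc W (Bᶜ.indicator (1 : Cf → ℝ)) := by
  constructor
  · intro ω ω' hw
    have e : (ω ∈ B) = (ω' ∈ B) := h ω ω' hw
    simp only [Set.indicator_apply, e, Pi.one_apply]
  · intro ω ω' hw
    have e : (ω ∈ B) = (ω' ∈ B) := h ω ω' hw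
    simp only [Set.indicator_apply, Set.mem_compl_iff, e, Pi.one_apply]

lemma ex_sub (hx : X_bd) {G : Cf → ℝ} (hG : Bd G) {B : Set Cf} (hB : MeasurableSet B) :
    (ex fun ω => G ω * Bᶜ.indicator 1 ω) = ex G - ex fun ω => G ω * B.indicator 1 ω := by
  unfold ex
  rw [← integral_sub (hx.int _ hG) (hx.int _ (hx.mul _ _ hG (hx.ind B hB)))]
  refine integral_congr_ae (Eventually.of_forall fun ω => ?_)
  by_cases h : ω ∈ B <;> simp [h]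

lemma key (hb : Base) (hq : X_geo) (hd : X_dep) (hx : X_bd) (hi : X_ind) (J m₁ m₂ : ℕ)
    (hm : 4 ≤ m₂) (s t : ℝ) :
    (ex fun ω => s ^ N1 J m₁ ω * t ^ N1 (J + m₁) m₂ ω * (Bc (J + m₁) m₂)ᶜ.indicator 1 ω) =
      FF s J m₁ * (FF t (J + m₁) m₂ - pp (J + m₁) m₂) ∧
    (ex fun ω => s ^ N1 J m₁ ω * t ^ N1 (J + m₁) m₂ ω * (Bc (J + m₁) m₂).indicator 1 ω) =
      FF s J m₁ * pp (J + m₁) m₂ := by
  have p1 : 0 < 2 ^ J := Nat.two_pow_pos J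
  have p2 : 0 < 2 ^ (J + m₁) := Nat.two_pow_pos _
  have p3 : 2 ^ (J + m₁) * 16 ≤ 2 ^ (J + m₁ + m₂) := by
    rw [pow_add 2 (J + m₁) m₂]
    exact Nat.mul_le_mul_left _ (Nat.pow_le_pow_right (by norm_num) hm : 2 ^ 4 ≤ 2 ^ m₂)
  have l1 : Lc (box (2 ^ (J + m₁) - 1 + 1) \ box (3 * 2 ^ J - 1)) fun ω => s ^ N1 J m₁ ω :=
    fun ω ω' hw => congrArg (fun k => s ^ k) (hd.mid _ _ (by omega) ω ω' hw)
  have l2 : Lc (box (2 ^ (J + m₁ + m₂) - 1 + 1) \ box (3 * 2 ^ (J + m₁) - 1))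
      fun ω => t ^ N1 (J + m₁) m₂ ω :=
    fun ω ω' hw => congrArg (fun k => t ^ k) (hd.mid _ _ (by omega) ω ω' hw)
  have l3 := lc_ind (B := Bc (J + m₁) m₂)
    (hd.arm (3 * 2 ^ (J + m₁)) (2 ^ (J + m₁ + m₂) - 1) (by omega) (by omega))
  have dj : Disjoint (box (2 ^ (J + m₁) - 1 + 1) \ box (3 * 2 ^ J - 1))
      (box (2 ^ (J + m₁ + m₂) - 1 + 1) \ box (3 * 2 ^ (J + m₁) - 1)) := by
    refine Finset.disjoint_left.mpr fun x h1 h2 => (Finset.mem_sdiff.mp h2).2 ?_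
    exact hb.bas.mono _ _ (by omega) (Finset.mem_sdiff.mp h1).1
  have z : (fun ω => t ^ N1 (J + m₁) m₂ ω * (Bc (J + m₁) m₂).indicator 1 ω) =
      (Bc (J + m₁) m₂).indicator 1 := by
    funext ω
    by_cases h : ω ∈ Bc (J + m₁) m₂
    · have e : N1 (J + m₁) m₂ ω = 0 := hq.zero _ _ ω h
      rw [e, pow_zero, one_mul]
    · rw [Set.indicator_of_notMem h, mul_zero]
  have bt : Bd fun ω => t ^ N1 (J + m₁) m₂ ω := hx.mid _ _ fun k => t ^ k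
  simp only [mul_assoc]
  constructor
  · rw [ind2 hi l1 (G₂ := fun ω => t ^ N1 (J + m₁) m₂ ω * (Bc (J + m₁) m₂)ᶜ.indicator 1 ω)
      (fun ω ω' hw => congrArg₂ (· * ·) (l2 ω ω' hw) (l3.2 ω ω' hw)) dj,
      ex_sub hx bt (meas hb hd _ _), z, ex_ind hb hd]
    rfl
  · rw [ind2 hi l1 (G₂ := fun ω => t ^ N1 (J + m₁) m₂ ω * (Bc (J + m₁) m₂).indicator 1 ω)
      (fun ω ω' hw => congrArg₂ (· * ·) (l2 ω ω' hw) (l3.1 ω ω' hw)) dj, z, ex_ind hb hd]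
    rfl

lemma ww_pos {θ : ℝ} (h1 : -(Real.pi / 3) < θ) (h2 : θ < 0) : 0 < ww θ := by
  have := Real.pi_pos
  exact mul_pos two_pos (Real.cos_pos_of_mem_Ioo ⟨by linarith, by linarith⟩)

lemma fin (C₁ C₂ C₃ g b X : ℝ) (hX : 0 ≤ X) :
    Real.exp (C₃ - b) * (Real.exp (-g + C₁) + Real.exp (C₂ + b) * X) ≤
      Real.exp (C₃ + |C₁| + |C₂|) * (Real.exp (-g - b) + X) := by
  have a1 := le_abs_self C₁
  have a2 := le_abs_self C₂
  have a3 := abs_nonneg C₁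
  have a4 := abs_nonneg C₂
  rw [mul_add, mul_add, ← mul_assoc, ← Real.exp_add, ← Real.exp_add, ← Real.exp_add]
  refine add_le_add (Real.exp_le_exp.mpr (by linarith)) ?_
  exact mul_le_mul_of_nonneg_right (Real.exp_le_exp.mpr (by linarith)) hX

end XFin2x

open XFin2x in
theorem il2_pf (hb : Base) (hq : X_geo) (hd : X_dep) (hx : X_bd) (hi : X_ind) (hg : G_gff)
    (hu : I_up) (hl : I_lo) (ho : D_good) : I_l2 := by
  intro θ p h1 h2 hp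
  have hπ := Real.pi_pos
  have w1 : 0 < ww θ := ww_pos h1 h2
  have w2 : 0 < ww (θ / 2) := ww_pos (by linarith) (by linarith)
  obtain ⟨A, hA⟩ := hg
  obtain ⟨C₁, hC₁⟩ := hA (θ / 2) (θ / 2)
  obtain ⟨C₂, hC₂⟩ := hu A (θ / 2) (θ / 2) p hp
  obtain ⟨C₃, hC₃⟩ := hl A (θ / 2) (θ / 2) (Real.pi / 6 + θ / 2) p (by linarith) hp
    (by rw [add_halves]; exact w1) w2
  refine ⟨C₃ + |C₁| + |C₂|, fun m₁ m₂ hm₁ hm₂ => ?_⟩
  filter_upwards [hC₁ m₁ m₂ hm₁ hm₂] with J hJ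
  obtain ⟨ψ₀, ψ₁, ψ₂, hok, -, hup⟩ := hJ
  have hm := meas hb hd (J + m₁) m₂
  have k1 := hC₃ _ hok (Bc (J + m₁) m₂)ᶜ hm.compl fun ω hω =>
    (ho A θ _ hok ω).2 h1 h2 (not_not.mp hω)
  have k2 := hC₂ _ hok (Bc (J + m₁) m₂) hm
  simp only [Tri.Z, Tri.b, Tri.J₁, add_halves] at k1 k2 hup
  rw [(key hb hq hd hx hi J m₁ m₂ hm₂ _ _).1] at k1
  rw [(key hb hq hd hx hi J m₁ m₂ hm₂ _ _).2, abs_of_pos w1] at k2
  have bn : Bd (Tri.nn ⟨J, m₁, m₂, ψ₀, ψ₁, ψ₂⟩ (θ / 2) (θ / 2)) := hx.nb _ _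
  generalize Tri.nn ⟨J, m₁, m₂, ψ₀, ψ₁, ψ₂⟩ (θ / 2) (θ / 2) = nn at k1 k2 hup bn
  rw [ex_sub hx bn hm] at k1
  have k3 : -(ex fun ω => nn ω * (Bc (J + m₁) m₂).indicator 1 ω) ≤
      ex fun ω => |nn ω| * (Bc (J + m₁) m₂).indicator 1 ω := by
    unfold ex
    rw [← integral_neg]
    refine integral_mono (hx.int _ (hx.mul _ _ bn (hx.ind _ hm))).neg
      (hx.int _ (hx.mul _ _ (hx.cont _ _ bn continuous_abs) (hx.ind _ hm))) fun ω => ?_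
    by_cases h : ω ∈ Bc (J + m₁) m₂
    · simp only [Set.indicator_of_mem h, Pi.one_apply, mul_one]
      exact neg_le_abs _
    · simp [Set.indicator_of_notMem h]
  have hX : 0 ≤ (FF (ww θ ^ p) J m₁ * pp (J + m₁) m₂) ^ (1 / p) := by
    refine Real.rpow_nonneg (mul_nonneg (integral_nonneg fun ω => ?_) measureReal_nonneg) _
    exact pow_nonneg (Real.rpow_nonneg w1.le _) _
  have e : -(aa * θ ^ 2 * m₁) - θ * be J m₁ +
      (-(aa * (θ / 2) ^ 2 * m₂) - θ / 2 * be (J + m₁) m₂) =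
      -(aa * (θ ^ 2 * m₁ + (θ / 2) ^ 2 * m₂)) - (θ * be J m₁ + θ / 2 * be (J + m₁) m₂) := by
    ring
  rw [e]
  refine k1.trans (le_trans ?_ (fin C₁ C₂ C₃ _ _ _ hX))
  refine mul_le_mul_of_nonneg_left ?_ (Real.exp_pos _).le
  linarith

end Vale.Agent.P167Q
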