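import Vale.Agent.P167Q.XStm

/-! P167Q, one arm exponent: exponential moments of the number of surrounding clusters. -/

open Finset MeasureTheory
open scoped Classical

namespace Vale.Agent.P167Q

namespace XKmidx

theorem step (p : ℕ → Prop) (h0 : ¬p 0) (m : ℕ) : p m → ∃ i < m, ¬p i ∧ p (i + 1) := by
  induction m with
  | zero => exact fun h => absurd h h0
  | succ m ih =>
    intro h
    by_cases hm : p m
    · obtain ⟨i, h1, h2⟩ := ih hm
      exact ⟨i, h1.trans (Nat.lt_succ_self m), h2⟩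
    · exact ⟨m, Nat.lt_succ_self m, hm, h⟩

theorem geo (hb : Base) (hq : X_geo) {J m : ℕ} {ω : Cf} {C : Set Sq}
    (h : IsMid (3 * 2 ^ J) (2 ^ (J + m) - 1) ω C) :
    ∃ i < m, (∃ x ∈ bz 0 (3 * 2 ^ (J + i + 1)), x ∈ C) ∧ ¬Sml C (2 ^ (J + i + 1) / 2) := by
  obtain ⟨⟨a, ha, a1⟩, ⟨b, hb', b1⟩, ⟨c, hc, c1⟩, d, hd, d1⟩ :=
    hq.bd ω C 0 (h.2.2 0 (by simp [mem_box]))
  obtain ⟨i, hi, h1, h2⟩ := step (fun i => a ∈ box (3 * 2 ^ (J + i))) (fun h' => h.2.1 a h' ha) m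
    (hb.bas.mono _ _ (by omega) (h.1 ha))
  refine ⟨i, hi, ⟨a, by rw [bz_zero]; exact h2, ha⟩, fun hS => h1 ?_⟩
  rw [pow_succ, Nat.mul_div_cancel _ two_pos] at hS
  have e1 := (hS b hb' a ha).1
  have e2 := (hS d hd a ha).2
  have e3 := (hS a ha c hc).2
  simp only [Prod.fst_zero, Prod.snd_zero] at a1 b1 c1 d1
  rw [mem_box]
  omega

end XKmidx

open XKmidx

theorem kmid_pf (hb : Base) (ht : K_tile) (hx : X_bd) (hq : X_geo) (ha : K_arm) (hg : K_gen) :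
    K_mid := by
  intro t h1
  obtain ⟨g, g1, g2⟩ := ha (1 / (4 * t ^ 2)) (by positivity)
  obtain ⟨n₀, s₀, h2⟩ := ht g g1
  refine ⟨(n₀ + 1 : ℕ), s₀, fun J hJ m hm => ?_⟩
  choose I i1 i2 i3 using fun i : ℕ => h2 (2 ^ (J + i + 1))
    (le_trans (by omega) Nat.lt_two_pow_self.le) 0
  have h3 := hg t _ g h1 g1 (by rw [mul_one_div_cancel (by positivity)]) g2
    (box (2 ^ (J + m) - 1)) ((range m).biUnion I) fun i hi => by
      obtain ⟨k, -, hk⟩ := mem_biUnion.1 hi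
      exact i2 k i hk
  have h4 : ((range m).biUnion I).card ≤ m * n₀ := by
    simpa using card_biUnion_le_card_mul (range m) I n₀ fun k _ => i1 k
  have h5 : ∀ ω, N1 J m ω ≤ kI g (box (2 ^ (J + m) - 1)) ((range m).biUnion I) ω := by
    intro ω
    refine card_le_card fun C hC => ?_
    rw [mem_filter] at hC ⊢
    obtain ⟨k, k1, k2, k3⟩ := geo hb hq hC.2
    obtain ⟨i, j1, j2⟩ := i3 k C k2 k3
    exact ⟨hC.1, i, mem_biUnion.2 ⟨k, mem_range.2 k1, j1⟩, j2⟩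
  refine le_trans (integral_mono (hx.int _ (hx.mid _ _ fun k => t ^ k))
    (hx.int _ (hx.kI _ _ _ fun k => t ^ k)) fun ω => pow_le_pow_right₀ h1 (h5 ω)) (h3.trans ?_)
  have h6 : (2 : ℝ) ≤ Real.exp 1 := by linarith [Real.add_one_le_exp 1]
  rw [← pow_succ', ← Nat.cast_mul, ← Real.exp_one_pow]
  refine (pow_le_pow_right₀ one_le_two ?_).trans
    (pow_le_pow_left₀ zero_le_two h6 _)
  rw [add_mul, mul_comm n₀]
  omega

end Vale.Agent.P167Q
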