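import Vale.Agent.P167Q.Abs

/-! P167Q: the elementary facts on abstract systems. -/

open Finset Relation
open scoped Classical

namespace Vale.Agent.P167Q

namespace ABasx

variable {X E : Type} [Fintype X] [DecidableEq X] [Fintype E] [DecidableEq E] (S : Sys X E)

omit [Fintype X] [DecidableEq X] [Fintype E] [DecidableEq E] in
theorem incs (x y : X) (h : S.inc x y) : S.inc y x := by
  obtain ⟨v, b, i, j, h1, h2⟩ := h
  exact ⟨v, !b, j, i, h2, by rw [Bool.not_not]; exact h1⟩

omit [Fintype X] [DecidableEq X] [Fintype E] [DecidableEq E] in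
theorem ops (ω : E → Bool) (x y : X) (h : S.op ω x y) : S.op ω y x := by
  obtain ⟨v, i, h1, h2⟩ := h
  exact ⟨v, !i, h2, by rw [Bool.not_not]; exact h1⟩

omit [Fintype X] [DecidableEq X] [Fintype E] [DecidableEq E] in
theorem rsym (ω : E → Bool) (x y : X) (h : ReflTransGen (S.op ω) x y) :
    ReflTransGen (S.op ω) y x := by
  induction h with
  | refl => exact ReflTransGen.refl
  | tail _ h2 ih => exact ReflTransGen.head (ops S ω _ _ h2) ih

omit [DecidableEq X] [Fintype E] [DecidableEq E] in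
theorem mcl (ω : E → Bool) (x y : X) : y ∈ S.cl ω x ↔ ReflTransGen (S.op ω) x y := by
  simp [Sys.cl]

omit [DecidableEq X] [Fintype E] [DecidableEq E] in
theorem self (ω : E → Bool) (x : X) : x ∈ S.cl ω x := (mcl S ω x x).2 ReflTransGen.refl

omit [DecidableEq X] [Fintype E] [DecidableEq E] in
theorem cleq (ω : E → Bool) (x y : X) (h : y ∈ S.cl ω x) : S.cl ω y = S.cl ω x := by
  rw [mcl] at h
  ext z
  rw [mcl, mcl]
  exact ⟨fun h' => h.trans h', fun h' => (rsym S ω x y h).trans h'⟩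

omit [Fintype E] [DecidableEq E] in
theorem mCl (ω : E → Bool) (C : Finset X) : C ∈ S.Cl ω ↔ (∃ x, C = S.cl ω x) ∧ S.r ∉ C := by
  simp only [Sys.Cl, mem_erase, mem_image, mem_univ, true_and]
  constructor
  · rintro ⟨h1, x, rfl⟩
    exact ⟨⟨x, rfl⟩, fun h => h1 (cleq S ω x _ h).symm⟩
  · rintro ⟨⟨x, rfl⟩, h⟩
    exact ⟨fun h' => h (h' ▸ self S ω _), x, rfl⟩

omit [Fintype E] [DecidableEq E] in
theorem mD (ω : E → Bool) (C : Finset X) (x : X) :
    x ∈ S.D ω C ↔ x ∈ C ∨ ¬S.av ω C x S.r := by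
  simp [Sys.D]

omit [Fintype E] [DecidableEq E] in
theorem rD (ω : E → Bool) (C : Finset X) (h : S.r ∉ C) : S.r ∉ S.D ω C := by
  rw [mD]
  rintro (h' | h')
  · exact h h'
  · exact h' ReflTransGen.refl

omit [Fintype E] [DecidableEq E] in
theorem step (ω : E → Bool) (C : Finset X) (x y : X) (h : S.inc x y ∨ S.op ω x y)
    (hx : x ∈ S.D ω C) (hy : y ∉ S.D ω C) : x ∈ C := by
  rw [mD] at hx hy
  rw [not_or, not_not] at hy
  rcases hx with hx | hx
  · exact hx
  · exact absurd (ReflTransGen.head ⟨h, hy.1⟩ hy.2) hx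

omit [Fintype E] [DecidableEq E] in
theorem opD1 (ω : E → Bool) (z x y : X) (h : S.op ω x y) (hx : x ∈ S.D ω (S.cl ω z)) :
    y ∈ S.D ω (S.cl ω z) := by
  by_contra hy
  have h1 := step S ω _ x y (Or.inr h) hx hy
  exact hy ((mD S ω _ y).2 (Or.inl ((mcl S ω z y).2 (((mcl S ω z x).1 h1).tail h))))

omit [Fintype X] [DecidableEq X] [Fintype E] [DecidableEq E] in
theorem find {r : X → X → Prop} {p : X → Prop} {a b : X} (h : ReflTransGen r a b) (ha : p a)
    (hb : ¬p b) : ∃ x y, r x y ∧ p x ∧ ¬p y := by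
  induction h with
  | refl => exact absurd ha hb
  | @tail c e _ h2 ih =>
    by_cases hc : p c
    · exact ⟨c, e, h2, hc, hb⟩
    · exact ih hc

omit [DecidableEq X] [Fintype E] [DecidableEq E] in
theorem fin (hn : S.PConn) : {h | S.Adm h}.Finite := by
  refine Set.Finite.of_injOn (f := fun (h : X → ℤ) (x y : X) => decide (h x = h y + 1))
    (t := Set.univ) (Set.mapsTo_univ _ _) ?_ Set.finite_univ
  intro h hh h' hh' e
  funext x
  have hx := hn x
  induction hx using ReflTransGen.head_induction_on with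
  | refl => rw [hh.1, hh'.1]
  | @head a c h1 _ ih =>
    have e1 := hh.2 a c h1
    have e2 := hh'.2 a c h1
    have e3 : decide (h a = h c + 1) = decide (h' a = h' c + 1) := congrFun (congrFun e a) c
    rw [decide_eq_decide] at e3
    rw [abs_eq (by norm_num)] at e1 e2
    omega

end ABasx

open ABasx in
theorem bas_of {X E : Type} [Fintype X] [DecidableEq X] [Fintype E] [DecidableEq E] (S : Sys X E)
    (hc : S.PCol) (hn : S.PConn) : S.Bas where
  incs := incs S
  ops := ops S
  incc := by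
    rintro x y ⟨v, b, i, j, rfl, rfl⟩
    rw [hc.1, hc.1]
  mcl := mcl S
  self := self S
  cleq := cleq S
  clc := by
    intro ω x y h
    rw [mcl] at h
    induction h with
    | refl => rfl
    | tail _ h2 ih =>
      obtain ⟨v, i, h3, h4⟩ := h2
      rw [← ih, h3, h4, hc.1, hc.1]
  mCl := mCl S
  disj := by
    intro ω C hC C' hC' hne
    obtain ⟨⟨x, rfl⟩, -⟩ := (mCl S ω C).1 hC
    obtain ⟨⟨x', rfl⟩, -⟩ := (mCl S ω C').1 hC'
    rw [Finset.disjoint_left]
    intro z h1 h2
    exact hne ((cleq S ω x z h1).symm.trans (cleq S ω x' z h2))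
  mD := mD S
  rD := rD S
  allD := by
    intro ω C x hr
    rw [mD]
    by_cases h : S.av ω C x S.r
    · rcases ReflTransGen.cases_tail h with h1 | ⟨c, -, h2⟩
      · exact Or.inl (h1 ▸ hr)
      · exact absurd hr h2.2
    · exact Or.inr h
  opD := fun ω z x y h => ⟨opD1 S ω z x y h, opD1 S ω z y x (ops S ω x y h)⟩
  subD := by
    intro ω z x
    refine ⟨fun hx y hy => ?_, fun h => h (self S ω x)⟩
    rw [mcl] at hy
    induction hy with
    | refl => exact hx
    | tail _ h2 ih => exact opD1 S ω z _ _ h2 ih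
  cross := fun ω C x y h => step S ω C x y (Or.inl h)
  exit := by
    intro ω C hC
    obtain ⟨⟨z, hz⟩, hr⟩ := (mCl S ω C).1 hC
    have hzD : z ∈ S.D ω C := (mD S ω C z).2 (Or.inl (hz ▸ self S ω z))
    obtain ⟨x, y, h1, h2, h3⟩ := find (p := fun x => x ∈ S.D ω C) (hn z) hzD (rD S ω C hr)
    exact ⟨x, step S ω C x y (Or.inl h1) h2 h3, y, h1, h3⟩
  side := by
    intro ω C T hT hd
    by_cases h : T ⊆ S.D ω C
    · exact Or.inl h
    · refine Or.inr (Finset.disjoint_left.2 fun x hx hxD => h fun y hy => ?_)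
      by_contra hyD
      obtain ⟨a, b, h1, h2, h3⟩ := find (p := fun x => x ∈ T ∧ x ∈ S.D ω C) (hT x hx y hy)
        ⟨hx, hxD⟩ (fun h' => hyD h'.2)
      exact Finset.disjoint_left.1 hd
        (step S ω C a b (Or.inl h1.1) h2.2 fun h' => h3 ⟨h1.2, h'⟩) h2.1
  mHs := by
    intro h
    unfold Sys.Hs
    rw [dif_pos (fin S hn)]
    simp

end Vale.Agent.P167Q
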