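import Vale.Agent.P152.CDefs

/-! P167Q: abstract planar pairs of graphs, clusters and heights. See `skel/P167Q/PROOF.md`. -/

open Finset Relation
open scoped Classical BigOperators

namespace Vale.Agent.P167Q

open Vale.Agent.P152 (w6)

/-- faces `X` with a colour, vertices `E`; `e v b i` is the end `i` of the edge of colour `b`
through `v`; `r` is the black root, `g` the white ghost -/
structure Sys (X E : Type) where
  col : X → Bool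
  e : E → Bool → Bool → X
  r : X
  g : X

namespace Sys

noncomputable section

variable {X E : Type} [Fintype X] [DecidableEq X] [Fintype E] [DecidableEq E] (S : Sys X E)

def inc (x y : X) : Prop := ∃ v b i j, x = S.e v b i ∧ y = S.e v (!b) j

def op (ω : E → Bool) (x y : X) : Prop := ∃ v i, x = S.e v (ω v) i ∧ y = S.e v (ω v) (!i)

def cl (ω : E → Bool) (x : X) : Finset X := univ.filter fun y => ReflTransGen (S.op ω) x y

/-- paths that never enter `C` -/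
def av (ω : E → Bool) (C : Finset X) : X → X → Prop :=
  ReflTransGen fun u v => (S.inc u v ∨ S.op ω u v) ∧ v ∉ C

/-- `C` and everything it separates from the root -/
def D (ω : E → Bool) (C : Finset X) : Finset X := univ.filter fun x => x ∈ C ∨ ¬S.av ω C x S.r

def Cl (ω : E → Bool) : Finset (Finset X) := (univ.image (S.cl ω)).erase (S.cl ω S.r)

/-- separating clusters -/
def Sp (ω : E → Bool) : Finset (Finset X) := (S.Cl ω).filter fun C => S.g ∈ S.D ω C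

def N (ω : E → Bool) : ℕ := (S.Sp ω).card

def Adm (h : X → ℤ) : Prop := h S.r = 0 ∧ ∀ x y, S.inc x y → |h x - h y| = 1

def Cp (ω : E → Bool) (h : X → ℤ) : Prop := ∀ v, h (S.e v (ω v) false) = h (S.e v (ω v) true)

def Hs : Finset (X → ℤ) := if hf : {h | S.Adm h}.Finite then hf.toFinset else ∅

/-- six vertex weight -/
def W (c : ℝ) (h : X → ℤ) : ℝ :=
  ∏ v, w6 c (decide (h (S.e v true false) = h (S.e v true true)))
    (decide (h (S.e v false false) = h (S.e v false true)))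

/-- boundary phase -/
def Th (h : X → ℤ) : ℝ :=
  (∑ x, if x = S.g then 0 else (h x : ℝ)) - (1 / 4) * ∑ v, ∑ b, ∑ i, (h (S.e v b i) : ℝ)

def deg (z : X) : ℕ := ∑ v, ∑ b, ∑ i, if S.e v b i = z then 1 else 0

def fac (lam : ℝ) (ψ : X → ℝ) (ω : E → Bool) (C : Finset X) : ℝ :=
  2 * Real.cos ((if S.g ∈ S.D ω C then 0 else lam) + ∑ x ∈ S.D ω C, ψ x)

def Zw (lam : ℝ) (ψ : X → ℝ) (ω : E → Bool) : ℝ := ∏ C ∈ S.Cl ω, S.fac lam ψ ω C

/-- connected sets of faces -/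
def Cnn (T : Finset X) : Prop :=
  ∀ x ∈ T, ∀ y ∈ T, ReflTransGen (fun u v => S.inc u v ∧ v ∈ T) x y

/-- a separating cluster meets `T` -/
def Yev (T : Finset X) (ω : E → Bool) : Prop := ∃ C ∈ S.Sp ω, ¬Disjoint C T

def PCol : Prop := (∀ v b i, S.col (S.e v b i) = b) ∧ S.col S.r = true ∧ S.col S.g = false

def PConn : Prop := ∀ x, ReflTransGen S.inc x S.r

def PEx : Prop := ∀ p : X → X → ZMod 2, (∀ v, ∑ i, ∑ j, p (S.e v true i) (S.e v false j) = 0) →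
  ∃ T : X → ZMod 2, ∀ v i j,
    T (S.e v true i) + T (S.e v false j) = p (S.e v true i) (S.e v false j)

def PLink : Prop := ∀ y x x', S.inc y x → S.inc y x' →
  ReflTransGen (fun u u' => ∃ v b i j, S.e v b i = y ∧ u = S.e v (!b) j ∧ u' = S.e v (!b) (!j))
    x x'

def PBd : Prop := ∀ x y, ∑ v, (∑ i, if S.e v true i = x then (1 : ZMod 2) else 0) *
  (∑ j, if S.e v false j = y then (1 : ZMod 2) else 0) = 0

def PEul (_ : Sys X E) : Prop := Fintype.card X = Fintype.card E + 2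

/-- the pair of graphs lives on the sphere -/
structure Pl : Prop where
  col : S.PCol
  conn : S.PConn
  ex : S.PEx
  link : S.PLink
  bd : S.PBd
  eul : S.PEul

/-- elementary facts -/
structure Bas : Prop where
  incs : ∀ x y, S.inc x y → S.inc y x
  ops : ∀ ω x y, S.op ω x y → S.op ω y x
  incc : ∀ x y, S.inc x y → S.col y = !S.col x
  mcl : ∀ ω x y, y ∈ S.cl ω x ↔ ReflTransGen (S.op ω) x y
  self : ∀ ω x, x ∈ S.cl ω x
  cleq : ∀ ω x y, y ∈ S.cl ω x → S.cl ω y = S.cl ω x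
  clc : ∀ ω x y, y ∈ S.cl ω x → S.col y = S.col x
  mCl : ∀ ω C, C ∈ S.Cl ω ↔ (∃ x, C = S.cl ω x) ∧ S.r ∉ C
  disj : ∀ ω, ∀ C ∈ S.Cl ω, ∀ C' ∈ S.Cl ω, C ≠ C' → Disjoint C C'
  mD : ∀ ω C x, x ∈ S.D ω C ↔ x ∈ C ∨ ¬S.av ω C x S.r
  rD : ∀ ω C, S.r ∉ C → S.r ∉ S.D ω C
  allD : ∀ ω C x, S.r ∈ C → x ∈ S.D ω C
  opD : ∀ ω z x y, S.op ω x y → (x ∈ S.D ω (S.cl ω z) ↔ y ∈ S.D ω (S.cl ω z))
  subD : ∀ ω z x, x ∈ S.D ω (S.cl ω z) ↔ S.cl ω x ⊆ S.D ω (S.cl ω z)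
  cross : ∀ ω C x y, S.inc x y → x ∈ S.D ω C → y ∉ S.D ω C → x ∈ C
  exit : ∀ ω, ∀ C ∈ S.Cl ω, ∃ x ∈ C, ∃ y, S.inc x y ∧ y ∉ S.D ω C
  side : ∀ ω C T, S.Cnn T → Disjoint C T → T ⊆ S.D ω C ∨ Disjoint T (S.D ω C)
  mHs : ∀ h, h ∈ S.Hs ↔ S.Adm h

/-- order and locality -/
structure Bas2 : Prop where
  excl : ∀ ω x y, S.cl ω x ≠ S.cl ω y → y ∈ S.D ω (S.cl ω x) → x ∉ S.D ω (S.cl ω y)
  ord : ∀ ω, ∀ C ∈ S.Sp ω, ∀ C' ∈ S.Sp ω, C ≠ C' → C' ⊆ S.D ω C ∨ C ⊆ S.D ω C'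
  loc : ∀ ω ω', ∀ C ∈ S.Cl ω, (∀ v b i, S.e v b i ∈ C → ω v = ω' v) →
    C ∈ S.Cl ω' ∧ S.D ω' C = S.D ω C

def Tree : Prop := ∀ ω x y, S.inc x y → y ∈ S.D ω (S.cl ω x) ∨ x ∈ S.D ω (S.cl ω y)

def Par : Prop := ∀ ω, ∀ C ∈ S.Cl ω, ∀ x ∈ C, ∀ x' ∈ C, ∀ y y', S.inc x y → S.inc x' y' →
  y ∉ S.D ω C → y' ∉ S.D ω C → S.cl ω y = S.cl ω y'

/-- one half of the Euler relation -/
def EU : Prop := ∀ (ω : E → Bool) (T : Finset X) (b : Bool) (x₀ : X),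
  (∀ x y, S.op ω x y → x ∈ T → y ∈ T) → (∀ x ∈ T, S.col x = !b → ∀ y, S.inc x y → y ∈ T) →
  (∀ x ∈ T, ReflTransGen (fun u v => (S.inc u v ∨ S.op ω u v) ∧ u ∈ T ∧ v ∈ T) x x₀) →
  (∃ y, y ∉ T ∧ S.col y = !b) →
  T.card ≤ (univ.filter fun v => S.e v (ω v) false ∈ T).card + 1

def Eul : Prop := ∀ ω, ∀ C ∈ S.Cl ω,
  (S.D ω C).card = (univ.filter fun v => S.e v (ω v) false ∈ S.D ω C).card + 1

def Bij : Prop := ∀ (ω : E → Bool) (u : X → ℝ),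
  ∑ h ∈ S.Hs.filter (S.Cp ω), Real.cos (∑ x, u x * h x) =
    ∏ C ∈ S.Cl ω, 2 * Real.cos (∑ x ∈ S.D ω C, u x)

def Bkw : Prop := ∀ (lam : ℝ) (ψ : X → ℝ),
  ∑ h ∈ S.Hs, S.W (2 * Real.cos (lam / 2)) h * Real.cos (lam * S.Th h + ∑ x, ψ x * h x) =
    ∑ ω, S.Zw lam ψ ω

def Ovl : Prop := (∀ ω, S.Zw (Real.pi / 3) 0 ω = 2 ^ S.N ω) ∧ ∀ B : Finset X,
  (∀ z, z ∉ B → z ≠ S.r → z ≠ S.g → S.deg z = 4) → (∀ z ∈ B, S.inc z S.r ∨ S.inc z S.g) →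
  ∑ h ∈ S.Hs, S.W (Real.sqrt 3) h ≤ 2 ^ B.card * ∑ ω, (2 : ℝ) ^ S.N ω

def Bnd : Prop := ∀ (ψ : X → ℝ) (T : Finset X) (ω : E → Bool), S.Cnn T →
  (∀ z, z ∉ T → ψ z = 0) → ∑ z, ψ z = 0 →
  |S.Zw (Real.pi / 3) ψ ω| ≤ 2 ^ T.card * 2 ^ S.N ω ∧
  (¬S.Yev T ω → S.Zw (Real.pi / 3) ψ ω = 2 ^ S.N ω *
    ∏ C ∈ (S.Cl ω).filter fun C => ¬Disjoint C T,
      2 * Real.cos (Real.pi / 3 + ∑ x ∈ S.D ω C, ψ x))

/-- at most four separating clusters lie next to the clusters of `T` without meeting `T` -/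
def Four : Prop := ∀ (T : Finset X) (ω : E → Bool), S.Cnn T →
  ((S.Sp ω).filter fun C => Disjoint C T ∧
    ∃ v b i b' i', S.e v b i ∈ C ∧ S.e v b' i' ∈ T.biUnion (S.cl ω)).card ≤ 4

def Stop : Prop := ∀ T : Finset X, S.Cnn T →
  𝔼 ω, (if S.Yev T ω then (2 : ℝ) ^ S.N ω else 0) ≤
    16 * 2 ^ T.card * (𝔼 ω, if S.Yev T ω then (1 : ℝ) else 0) * 𝔼 ω, (2 : ℝ) ^ S.N ω

def Tv : Prop := ∀ (T : Finset X) (G : (E → Bool) → ℝ) (K : ℝ), (∀ ω, |G ω| ≤ K) →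
  (∀ ω ω', (∀ v, (∀ b i, S.e v b i ∈ T) → ω v = ω' v) → G ω = G ω') →
  |𝔼 ω, G ω * 2 ^ S.N ω - (𝔼 ω, G ω) * 𝔼 ω, (2 : ℝ) ^ S.N ω| ≤
    2 * K * 𝔼 ω, if S.Yev T ω then (2 : ℝ) ^ S.N ω else 0

/-- the output of the abstract part -/
structure Out : Prop where
  bas : S.Bas
  bkw : S.Bkw
  ovl : S.Ovl
  bnd : S.Bnd
  stop : S.Stop
  tv : S.Tv

end

end Sys

/-- independence -/
theorem ind_pi {E : Type} [Fintype E] [DecidableEq E] (A : E → Prop) (f g : (E → Bool) → ℝ)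
    (hf : ∀ ω ω', (∀ v, A v → ω v = ω' v) → f ω = f ω')
    (hg : ∀ ω ω', (∀ v, ¬A v → ω v = ω' v) → g ω = g ω') :
    𝔼 ω, f ω * g ω = (𝔼 ω, f ω) * 𝔼 ω, g ω := by
  let m : (E → Bool) × (E → Bool) → (E → Bool) × (E → Bool) := fun p =>
    (fun v => if A v then p.1 v else p.2 v, fun v => if A v then p.2 v else p.1 v)
  have hm : Function.Involutive m := fun p => by
    ext v <;> by_cases h : A v <;> simp [m, h]
  have h1 : 𝔼 ω, f ω * g ω = 𝔼 p : (E → Bool) × (E → Bool), f p.1 * g p.1 := by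
    rw [← univ_product_univ, expect_product]
    simp
  have h2 : (𝔼 ω, f ω) * 𝔼 ω, g ω = 𝔼 p : (E → Bool) × (E → Bool), f p.1 * g p.2 := by
    rw [← univ_product_univ, expect_product, expect_mul_expect]
  rw [h1, h2]
  refine Fintype.expect_equiv hm.toPerm _ _ fun p => ?_
  rw [hf p.1 (m p).1 fun v h => by simp [m, h], hg p.1 (m p).2 fun v h => by simp [m, h]]
  rfl

end Vale.Agent.P167Q
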