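import Vale.Agent.P167Q.Stm

/-! P167Q: the arrows of a height function on the capped cylinder. -/

open Finset Relation
open scoped Classical BigOperators

namespace Vale.Agent.P167Q

open Vale.Agent.P152

namespace CArr1x

variable {l n : ℕ}

theorem w_eq (w : Bool → Bool → ℝ) (e : Bool) {W E S N p q : Bool} {a b c d : ℤ}
    (h1 : |a - b| = 1) (h2 : |a - c| = 1) (h3 : |d - b| = 1) (h4 : |d - c| = 1)
    (hW : W = true ↔ c = a + 1) (hE : E = true ↔ d = b + 1) (hS : S = true ↔ a = b + 1)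
    (hN : N = true ↔ c = d + 1) (hp : p = true ↔ a = d) (hq : q = true ↔ c = b) :
    w8c w e W E S N = if e then w p q else w q p := by
  rw [abs_eq zero_le_one] at h1 h2 h3 h4
  have e1 : (E == S) = p := by
    cases E <;> cases S <;> cases p <;> simp at hE hS hp ⊢ <;> omega
  have e2 : (W == N) = p := by
    cases W <;> cases N <;> cases p <;> simp at hW hN hp ⊢ <;> omega
  have e3 : (W != S) = q := by
    cases W <;> cases S <;> cases q <;> simp at hW hS hq ⊢ <;> omega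
  unfold w8c ab4
  rw [e1, e2, e3, if_pos rfl]
  cases e <;> rfl

theorem val_cast {k : ℤ} (h0 : 0 ≤ k) (h1 : k ≤ n) : (((k : ZMod (n + 1)).val : ℕ) : ℤ) = k := by
  rw [ZMod.val_intCast]
  exact Int.emod_eq_of_lt h0 (by push_cast; omega)

theorem arr_t (h : XC l n → ℤ) {k : ℤ} (h0 : 0 ≤ k) (h1 : k ≤ n) (y : ZMod (2 * l + 2)) :
    arr h (k : ZMod (n + 1)) (y, true) = true ↔
      h (pj l n (k, y)) = h (pj l n (k, y - 1)) + 1 := by
  simp only [arr, if_true, val_cast h0 h1, decide_eq_true_eq]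

theorem arr_f (h : XC l n → ℤ) {k : ℤ} (h0 : 1 ≤ k) (h1 : k ≤ n) (y : ZMod (2 * l + 2)) :
    arr h (k : ZMod (n + 1)) (y, false) = true ↔
      h (pj l n (k - 1, y)) = h (pj l n (k, y)) + 1 := by
  have e := val_cast (n := n) (by omega : 0 ≤ k) h1
  have e2 : (k : ZMod (n + 1)).val ≠ 0 := by omega
  simp only [arr, Bool.false_eq_true, if_false, e, decide_eq_true_eq, e2, ne_eq, not_false_eq_true,
    true_and]

theorem mem_cE {v : Cy l} : v ∈ cE l n ↔ 1 ≤ v.1 ∧ v.1 ≤ n := by simp [cE]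

theorem c1 (v : Cy l) : ced v (cev v) true = v := by simp [ced]
theorem c2 (v : Cy l) : ced v (cev v) false = (v.1 - 1, v.2 - 1) := by simp [ced]
theorem c3 (v : Cy l) : ced v (!cev v) true = (v.1, v.2 - 1) := by simp [ced]
theorem c4 (v : Cy l) : ced v (!cev v) false = (v.1 - 1, v.2) := by simp [ced]

theorem loc {h : XC l n → ℤ} (ha : (cs l n).Adm h) {x : ℤ} (y : ZMod (2 * l + 2)) (h0 : 1 ≤ x)
    (h1 : x ≤ n) :
    |h (pj l n (x - 1, y - 1)) - h (pj l n (x, y - 1))| = 1 ∧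
    |h (pj l n (x - 1, y - 1)) - h (pj l n (x - 1, y))| = 1 ∧
    |h (pj l n (x, y)) - h (pj l n (x, y - 1))| = 1 ∧
    |h (pj l n (x, y)) - h (pj l n (x - 1, y))| = 1 := by
  have k : ∀ i j, |h (pj l n (ced (x, y) (cev (x, y)) i)) -
      h (pj l n (ced (x, y) (!cev (x, y)) j))| = 1 := fun i j =>
    ha.2 _ _ ⟨⟨(x, y), mem_cE.2 ⟨h0, h1⟩⟩, cev (x, y), i, j, rfl, rfl⟩
  have k1 := k false true
  have k2 := k false false
  have k3 := k true true
  have k4 := k true false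
  rw [c2] at k1 k2
  rw [c1] at k3 k4
  rw [c3] at k1 k3
  rw [c4] at k2 k4
  exact ⟨k1, k2, k3, k4⟩

theorem pj_r {y : ZMod (2 * l + 2)} (hy : cev ((0, y) : Cy l) = true) :
    pj l n (0, y) = none := by
  have : ((0, y) : Cy l) ∉ fr l n := by simp [fr, hy]
  rw [pj, dif_neg this, hy, if_pos rfl]

theorem pj_g {y : ZMod (2 * l + 2)} (hy : cev (((n : ℤ), y) : Cy l) = false) :
    pj l n (n, y) = some none := by
  have : (((n : ℤ), y) : Cy l) ∉ fr l n := by simp [fr, hy]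
  rw [pj, dif_neg this, hy, if_neg (by simp)]

theorem u_L (hn : 0 < n) {h : XC l n → ℤ} (ha : (cs l n).Adm h) : uL (arr h 0) = 1 := by
  refine if_pos ⟨fun y => by simp [arr], fun y hy q => ?_⟩
  have r0 : h none = 0 := ha.1
  have a1 := arr_t h le_rfl (by omega) y
  have a2 := arr_t h le_rfl (by omega) (y + 1)
  have a3 := (loc ha (x := 1) y le_rfl (by omega)).2.1
  rw [Int.cast_zero] at a1 a2
  rw [add_sub_cancel_right, pj_r (by rw [cev_y, hy]; rfl), ← q, a1] at a2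
  rw [sub_self] at a3
  rw [pj_r (y := y - 1) (by rw [cev_y', hy]; rfl), r0] at a2 a3
  rw [abs_eq zero_le_one] at a3
  omega

theorem u_R (he : Even n) (hn : 0 < n) {h : XC l n → ℤ} (ha : (cs l n).Adm h) :
    uR (arr h (n : ZMod (n + 1))) = 1 := by
  refine if_pos fun y hy q => ?_
  have hy' : cev (((n : ℤ), y) : Cy l) = true := by
    have := cev_add (l := l) 0 n 0 y
    simpa [hy, he] using this
  have a1 := arr_t h (k := n) (by omega) le_rfl y
  have a2 := arr_t h (k := n) (by omega) le_rfl (y + 1)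
  have a3 := (loc ha (x := n) y (by omega) le_rfl).2.2.1
  rw [Int.cast_natCast] at a1 a2
  rw [add_sub_cancel_right, pj_g (by rw [cev_y, hy']; rfl), ← q, a1] at a2
  rw [pj_g (y := y - 1) (by rw [cev_y', hy']; rfl)] at a2 a3
  rw [abs_eq zero_le_one] at a3
  omega

theorem wgt (c : ℝ) {h : XC l n → ℤ} (ha : (cs l n).Adm h) :
    cw8 n (fun _ => w6 c) (arr h) = (cs l n).W c h := by
  rw [cw8, ← Finset.prod_coe_sort, Sys.W]
  refine Finset.prod_congr rfl fun v _ => ?_
  obtain ⟨⟨x, y⟩, hv⟩ := v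
  obtain ⟨h0, h1⟩ : 1 ≤ x ∧ x ≤ n := mem_cE.1 hv
  obtain ⟨k1, k2, k3, k4⟩ := loc ha y h0 h1
  refine (w_eq _ _ k1 k2 k3 k4 (arr_t h (by omega) (by omega) y) (arr_t h (by omega) h1 y)
    (arr_f h h0 h1 (y - 1)) (arr_f h h0 h1 y) decide_eq_true_iff decide_eq_true_iff).trans ?_
  have e1 := c1 ((x, y) : Cy l)
  have e2 := c2 ((x, y) : Cy l)
  have e3 := c3 ((x, y) : Cy l)
  have e4 := c4 ((x, y) : Cy l)
  change _ = w6 c (decide (h (pj l n (ced (x, y) true false)) = h (pj l n (ced (x, y) true true))))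
    (decide (h (pj l n (ced (x, y) false false)) = h (pj l n (ced (x, y) false true))))
  cases hc : cev ((x, y) : Cy l) <;> rw [hc] at e1 e2 e3 e4
  · rw [Bool.not_false] at e3 e4
    rw [e1, e2, e3, e4]
    rfl
  · rw [Bool.not_true] at e3 e4
    rw [e1, e2, e3, e4]
    rfl

theorem dif {h h' : XC l n → ℤ} (ha : (cs l n).Adm h) (ha' : (cs l n).Adm h')
    (e : arr h = arr h') (v : EC l n) (i j : Bool) :
    h (pj l n (ced v.1 (cev v.1) i)) - h' (pj l n (ced v.1 (cev v.1) i)) =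
      h (pj l n (ced v.1 (!cev v.1) j)) - h' (pj l n (ced v.1 (!cev v.1) j)) := by
  obtain ⟨⟨x, y⟩, hv⟩ := v
  obtain ⟨h0, h1⟩ : 1 ≤ x ∧ x ≤ n := mem_cE.1 hv
  obtain ⟨k1, k2, k3, k4⟩ := loc ha y h0 h1
  obtain ⟨m1, m2, m3, m4⟩ := loc ha' y h0 h1
  rw [abs_eq zero_le_one] at k1 k2 k3 k4 m1 m2 m3 m4
  have a1 := (arr_t h (k := x - 1) (by omega) (by omega) y).symm.trans
    (e ▸ arr_t h' (k := x - 1) (by omega) (by omega) y)
  have a2 := (arr_t h (k := x) (by omega) h1 y).symm.trans (e ▸ arr_t h' (k := x) (by omega) h1 y)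
  have a3 := (arr_f h h0 h1 (y - 1)).symm.trans (e ▸ arr_f h' h0 h1 (y - 1))
  have a4 := (arr_f h h0 h1 y).symm.trans (e ▸ arr_f h' h0 h1 y)
  cases i <;> cases j <;> simp only [c1, c2, c3, c4] <;> omega

end CArr1x

open CArr1x in
theorem carr1_pf (hc : C_col) : C_arr1 := by
  intro l n he hn
  refine ⟨fun c h ha => ⟨u_L hn ha, u_R he hn ha, wgt c ha⟩, fun h h' ha ha' e => funext fun z => ?_⟩
  have k : ∀ u u', (cs l n).inc u u' → h u - h' u = h u' - h' u' := by
    rintro _ _ ⟨v, b, i, j, rfl, rfl⟩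
    by_cases q : b = cev v.1
    · subst q
      exact dif ha ha' e v i j
    · have q' : b = !cev v.1 := Bool.eq_not_iff.2 q
      subst q'
      have := dif ha ha' e v j i
      rw [Bool.not_not]
      exact this.symm
  have k2 : ∀ u, ReflTransGen (cs l n).inc u (cs l n).r → h u - h' u = 0 := fun u hu => by
    induction hu using ReflTransGen.head_induction_on with
    | refl => rw [ha.1, ha'.1, sub_self]
    | head q _ ih => rw [k _ _ q, ih]
  exact sub_eq_zero.1 (k2 z ((hc l n he hn).2.1 z))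

end Vale.Agent.P167Q
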