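import Vale.Agent.P152.Defs

open MeasureTheory

namespace Vale.Agent.P167Q

/-- Unit squares of the chessboard, indexed by their lower left corner; also lattice points.
A square `x` is black when `x.1 + x.2` is even. -/
abbrev Sq := ℤ × ℤ

/-- A bond configuration. Every lattice point `v` is the midpoint of one edge between two black
squares and of the dual edge between two white squares; `true`: the black edge is open,
`false`: the white (dual) edge is open. -/
abbrev Cf := ℤ × ℤ → Bool

/-- The ends `i = false, true` of the black (`b = true`) or white edge with midpoint `v`. -/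
def ed (v : Sq) (b i : Bool) : Sq :=
  if b = decide (Even (v.1 + v.2)) then (if i then v else (v.1 - 1, v.2 - 1))
  else (if i then (v.1, v.2 - 1) else (v.1 - 1, v.2))

/-- `x` and `y` are the ends of an open primal or dual edge. -/
def Op (ω : Cf) (x y : Sq) : Prop := ∃ v i, x = ed v (ω v) i ∧ y = ed v (ω v) (!i)

/-- Squares with a common side. -/
def Nb (x y : Sq) : Prop := |x.1 - y.1| + |x.2 - y.2| = 1

/-- The primal or dual open cluster of `x`. -/
def clus (ω : Cf) (x : Sq) : Set Sq := {y | Relation.ReflTransGen (Op ω) x y}

/-- The squares inside the outer boundary loop of `C`: those of `C` and those from which only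
finitely many squares can be reached without entering `C`. -/
def fill (ω : Cf) (C : Set Sq) : Set Sq :=
  {x | x ∈ C ∨
    {y | Relation.ReflTransGen (fun u v => (Nb u v ∨ Op ω u v) ∧ v ∉ C) x y}.Finite}

/-- The union of the squares of `S` at mesh `δ`. -/
def region (δ : ℝ) (S : Set Sq) : Set (ℝ × ℝ) := {z | (⌊z.1 / δ⌋, ⌊z.2 / δ⌋) ∈ S}

/-- The finite primal and dual clusters; each stands for its outer boundary loop. -/
def loops (ω : Cf) : Set (Set Sq) := {C | C.Finite ∧ ∃ x, C = clus ω x}

/-- Weight of the loop round `C`. -/
noncomputable def wt (δ : ℝ) (f : ℝ × ℝ → ℝ) (ω : Cf) (C : Set Sq) : ℝ :=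
  2 * Real.cos (Real.pi / 3 + ∫ z in region δ (fill ω C), f z)

/-- Product of the weights of all loops. -/
noncomputable def nest (δ : ℝ) (f : ℝ × ℝ → ℝ) (ω : Cf) : ℝ := ∏ᶠ C ∈ loops ω, wt δ f ω C

/-- Critical bond percolation: independent fair coins. -/
noncomputable def perc : Measure Cf :=
  Measure.infinitePi fun _ : ℤ × ℤ => (PMF.uniformOfFintype Bool).toMeasure

end Vale.Agent.P167Q
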