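import Vale.Agent.P167Q.PBas
import Vale.Agent.P152.FRiem

/-! P167Q: test functions as lattice charges. -/

open Finset MeasureTheory
open scoped Classical

namespace Vale.Agent.P167Q

open Vale.Agent.P152

theorem fint_pf : F_int := by
  intro δ f hδ hf
  have hs : Sm f := ⟨hf.1, hf.2.1⟩
  obtain ⟨R, hR⟩ := pbas_pf.fin _ (cellw_fin hδ hs)
  have key : ∀ g : Sq → ℝ, ∫ p : ℝ × ℝ, g (⌊p.1 / δ⌋, ⌊p.2 / δ⌋) * f p =
      ∑ x ∈ box R, g x * cellw δ f x := fun g => by
    rw [int_floor hδ hs g]
    exact finsum_eq_sum_of_support_subset _ fun x hx => hR (right_ne_zero_of_mul hx)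
  refine ⟨cellw δ f, R, ?_, fun o => ?_, fun T => ?_⟩
  · have h := key fun _ => 1
    simp only [one_mul] at h
    rw [← h, hf.2.2]
  · rw [hInt, key (ht o), XH]
    exact sum_congr rfl fun x _ => mul_comm _ _
  · have hm : MeasurableSet (region δ T) :=
      ((measurable_fst.div_const δ).floor.prodMk (measurable_snd.div_const δ).floor)
        (T.to_countable.measurableSet)
    have h := key fun x => if x ∈ T then 1 else 0
    simp only [ite_mul, one_mul, zero_mul] at h
    rw [ms, ← h, ← integral_indicator hm]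
    rfl

end Vale.Agent.P167Q
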