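import Vale.Agent.P167Q.Stm
import Vale.Agent.P145.RiDefs

/-! P167Q: no infinite cluster at criticality, statements. See `skel/P167Q/PROOF.md`. -/

open Finset Filter Topology MeasureTheory
open scoped Classical BigOperators

namespace Vale.Agent.P167Q

open Vale.Agent.P152 (Vx Site v6 src)
open Vale.Agent.P145 (eo)
open Vale.Agent.P153.RSW (Ev)

noncomputable section

/-- independent fair coins -/
def fair (ι : Type) : Measure (ι → Bool) :=
  Measure.infinitePi fun _ : ι => (PMF.uniformOfFintype Bool).toMeasure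

instance fair_prob (ι : Type) : IsProbabilityMeasure (fair ι) := by
  unfold fair
  infer_instance

theorem perc_eq : perc = fair (ℤ × ℤ) := rfl

/-- `G` only depends on the coins in `W` -/
def Lc {ι β : Type} (W : Finset ι) (G : (ι → Bool) → β) : Prop :=
  ∀ ω ω', (∀ i ∈ W, ω i = ω' i) → G ω = G ω'

/-- local events -/
def Le {ι : Type} (W : Finset ι) (A : Set (ι → Bool)) : Prop := Lc W fun ω => ω ∈ A

/-- extension by `false` -/
def xt {ι : Type} (W : Finset ι) (η : W → Bool) : ι → Bool :=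
  fun i => if h : i ∈ W then η ⟨i, h⟩ else false

/-- open edges -/
def e2 (ω : Vx → Bool) : Site → Site → Prop := eo {m | ω m = true}

/-- four crossings of an annulus -/
def Ci (n N : ℕ) : Set (Vx → Bool) := P145.Rs.Cir e2 0 ((n : ℤ) - 1) N

end

def H_inv : Prop := ∀ (ι κ : Type) (g : ι ≃ κ) (b : Bool),
  MeasurePreserving (fun (ω : κ → Bool) (i : ι) => xor b (ω (g i))) (fair κ) (fair ι)

def H_loc : Prop := ∀ (ι : Type) (W : Finset ι),
  (∀ G : (ι → Bool) → ℝ, Lc W G →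
    Measurable G ∧ ∫ ω, G ω ∂fair ι = 𝔼 η : W → Bool, G (xt W η)) ∧
  ∀ A : Set (ι → Bool), Le W A → MeasurableSet A ∧
    (fair ι).real A = 𝔼 η : W → Bool, if xt W η ∈ A then (1 : ℝ) else 0

def H_fk : Prop := ∀ (ι : Type) (V W : Finset ι) (A B : Set (ι → Bool)), Le V A → Le W B →
  (IsUpperSet A → IsUpperSet B → (fair ι).real A * (fair ι).real B ≤ (fair ι).real (A ∩ B)) ∧
  (Disjoint V W → (fair ι).real (A ∩ B) = (fair ι).real A * (fair ι).real B)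

/-- a finitely additive extension to all sets -/
structure PUs {ι : Type} (P : Set (ι → Bool) → ℝ) : Prop where
  nonneg : ∀ A, 0 ≤ P A
  univ : P Set.univ = 1
  add : ∀ A B, Disjoint A B → P (A ∪ B) = P A + P B
  fkg : ∀ A B, IsUpperSet A → IsUpperSet B → P A * P B ≤ P (A ∩ B)
  loc : ∀ W A, Le W A → P A = (fair ι).real A

def H_pu : Prop := ∀ ι : Type, ∃ P : Set (ι → Bool) → ℝ, PUs P

def H_ev : Prop :=
  (∀ (S A B : Set Site) (W : Finset Vx), (∀ m, src m ∈ S → m ∈ W) → Le W (Ev e2 S A B)) ∧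
  (∀ A, P153.RSW.Up e2 A → IsUpperSet A) ∧
  ∀ (n N : ℕ) (W : Finset Vx),
    (∀ m, src m ∈ P145.Rs.sq 0 N → src m ∉ P145.Rs.sq 0 ((n : ℤ) - 1) → m ∈ W) → Le W (Ci n N)

def H_sym : Prop := ∀ g : Site → Site,
  ((∃ t : Site, g = fun v => (v.1 + t.1, v.2 + t.2)) ∨ (g = fun v => (-v.1, v.2)) ∨
    g = fun v => (v.2, v.1)) → ∀ S A B : Set Site, S.Finite →
  (fair Vx).real (Ev e2 (g ⁻¹' S) (g ⁻¹' A) (g ⁻¹' B)) = (fair Vx).real (Ev e2 S A B)

def H_cr : Prop := ∀ n : ℕ, 1 / 2 ≤ (fair Vx).real (P145.Rs.HC e2 0 n 0 n)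

def H_cir : Prop := ∃ c > 0, ∀ n : ℕ, 72 ≤ n → c ≤ (fair Vx).real (Ci n (3 * n))

def H_io : Prop := ∀ᵐ ω ∂fair Vx, ∀ n0 : ℕ, ∃ n N : ℕ, n0 ≤ n ∧ n ≤ N ∧ ω ∈ Ci n N

def H_det : Prop := ∀ ω : Cf,
  (∀ n0 : ℕ, ∃ n N : ℕ, n0 ≤ n ∧ n ≤ N ∧ (fun m => ω (v6 m)) ∈ Ci n N) →
  ∀ x : Sq, ¬Even (x.1 + x.2) → (clus ω x).Finite

end Vale.Agent.P167Q
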