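import Vale.Agent.P167Q.Defs
import Vale.Agent.P167Q.Abs
import Vale.Agent.P152.CStm

/-! P167Q: the capped cylinder, local observables, statements. See `skel/P167Q/PROOF.md`. -/

open Finset Relation Filter Topology MeasureTheory
open scoped Classical BigOperators

namespace Vale.Agent.P167Q

open Vale.Agent.P152

noncomputable section

/-! ### The plane -/

def box (R : ℕ) : Finset Sq := Icc (-(R : ℤ)) R ×ˢ Icc (-(R : ℤ)) R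

theorem mem_box {R : ℕ} {x : Sq} :
    x ∈ box R ↔ -(R : ℤ) ≤ x.1 ∧ x.1 ≤ R ∧ -(R : ℤ) ≤ x.2 ∧ x.2 ≤ R := by
  simp only [box, mem_product, mem_Icc, and_assoc]

def ms (φ : Sq → ℝ) (R : ℕ) (T : Set Sq) : ℝ := ∑ x ∈ box R, if x ∈ T then φ x else 0

def nb (φ : Sq → ℝ) (R : ℕ) (ω : Cf) : ℝ :=
  ∏ C ∈ (box R).image (clus ω),
    if C.Finite then 2 * Real.cos (Real.pi / 3 + ms φ R (fill ω C)) else 1

def NoArm (R K : ℕ) (ω : Cf) : Prop := ∀ x ∈ box R, clus ω x ⊆ box K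

def GG (φ : Sq → ℝ) (R K : ℕ) (ω : Cf) : ℝ := if NoArm R K ω then nb φ R ω else 0

def ai (R K : ℕ) (ω : Cf) : ℝ := if NoArm R K ω then 0 else 1

def Dep (K : ℕ) (G : Cf → ℝ) : Prop := ∀ ω ω', (∀ v ∈ box K, ω v = ω' v) → G ω = G ω'

/-- escape from the box without entering `C` -/
def Esc (ω : Cf) (C : Set Sq) (K : ℕ) (x : Sq) : Prop :=
  ∃ y, y ∉ box K ∧
    ReflTransGen (fun u v => (Nb u v ∨ Op ω u v) ∧ v ∉ C ∧ u ∈ box K) x y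

def XH (φ : Sq → ℝ) (R : ℕ) (o : Ori) : ℝ := ∑ x ∈ box R, φ x * ht o x

/-! ### The cylinder -/

def fr (l n : ℕ) : Finset (Cy l) :=
  (Icc (0 : ℤ) n ×ˢ univ).filter fun p => (cev p = true → 1 ≤ p.1) ∧ (cev p = false → p.1 < n)

abbrev XC (l n : ℕ) : Type := Option (Option (fr l n))

abbrev EC (l n : ℕ) : Type := cE l n

def pj (l n : ℕ) (p : Cy l) : XC l n :=
  if h : p ∈ fr l n then some (some ⟨p, h⟩) else if cev p then none else some none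

def ced {l : ℕ} (v : Cy l) (b i : Bool) : Cy l :=
  if b = cev v then (if i then v else (v.1 - 1, v.2 - 1))
  else (if i then (v.1, v.2 - 1) else (v.1 - 1, v.2))

def cs (l n : ℕ) : Sys (XC l n) (EC l n) where
  col z := z.elim true fun w => w.elim false fun p => cev p.1
  e v b i := pj l n (ced v.1 b i)
  r := none
  g := some none

/-- arrows of a height function -/
def arr {l n : ℕ} (h : XC l n → ℤ) (i : ZMod (n + 1)) : Colc l := fun q =>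
  if q.2 then decide (h (pj l n (i.val, q.1)) = h (pj l n (i.val, q.1 - 1)) + 1)
  else decide (i.val ≠ 0 ∧ h (pj l n ((i.val : ℤ) - 1, q.1)) = h (pj l n (i.val, q.1)) + 1)

def th {l : ℕ} (s t : Colc l) : ℝ :=
  (1 / 2) * ∑ y, if cev ((0, y) : Cy l) then sg (t (y, true)) else sg (s (y, true))

def io (l a : ℕ) (x : Sq) : Cy l := (x.1 + a, (x.2 : ZMod (2 * l + 2)))

def em (l n a : ℕ) (x : Sq) : XC l n := pj l n (io l a x)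

def pb (l n a : ℕ) (ω : EC l n → Bool) : Cf :=
  fun v => if h : io l a v ∈ cE l n then ω ⟨_, h⟩ else false

def im (l n a R : ℕ) : Finset (XC l n) := (box R).image (em l n a)

def push (l n a : ℕ) (φ : Sq → ℝ) (R : ℕ) (z : XC l n) : ℝ :=
  ∑ x ∈ box R, if em l n a x = z then φ x else 0

def Fit (l n a K : ℕ) : Prop := Even n ∧ Even a ∧ K + 2 ≤ l ∧ K + 2 ≤ a ∧ a + K + 2 ≤ n

/-- the ratio of the two partition functions -/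
def rat (l n a : ℕ) (φ : Sq → ℝ) (R : ℕ) : ℝ :=
  (𝔼 ω, (cs l n).Zw (Real.pi / 3) (push l n a φ R) ω) / 𝔼 ω, (2 : ℝ) ^ (cs l n).N ω

end

/-! ### Statements: cylinder -/

def C_col : Prop := ∀ l n : ℕ, Even n → 0 < n → (cs l n).PCol ∧ (cs l n).PConn ∧ (cs l n).PEul

def C_ex : Prop := ∀ l n : ℕ, Even n → 0 < n → (cs l n).PEx

def C_link : Prop := ∀ l n : ℕ, Even n → 0 < n → (cs l n).PLink

def C_bd : Prop := ∀ l n : ℕ, Even n → 0 < n → (cs l n).PBd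

def C_out : Prop := ∀ l n : ℕ, Even n → 0 < n → (cs l n).Out

def C_arr1 : Prop := ∀ l n : ℕ, Even n → 0 < n →
  (∀ (c : ℝ) (h : XC l n → ℤ), (cs l n).Adm h → uL (arr h 0) = 1 ∧
    uR (arr h (n : ZMod (n + 1))) = 1 ∧ cw8 n (fun _ => w6 c) (arr h) = (cs l n).W c h) ∧
  ∀ h h' : XC l n → ℤ, (cs l n).Adm h → (cs l n).Adm h' → arr h = arr h' → h = h'

def C_arr2 : Prop := ∀ l n : ℕ, Even n → 0 < n → ∀ (c : ℝ) (o : ZMod (n + 1) → Colc l),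
  uL (o 0) * uR (o (n : ZMod (n + 1))) * cw8 n (fun _ => w6 c) o ≠ 0 →
  ∃ h : XC l n → ℤ, (cs l n).Adm h ∧ arr h = o

def C_arr : Prop := ∀ l n : ℕ, Even n → 0 < n → ∀ (c : ℝ) (a : ℕ) (k : Colc l → Colc l → ℝ)
  (G : (ℤ → Colc l) → ℝ), chn (tm c l) (fun s t => uL s * uR t * k s t) n a G =
    ∑ h ∈ (cs l n).Hs, (cs l n).W c h * k (arr h 0) (arr h (n : ZMod (n + 1))) *
      G fun x => arr h ((x + a : ℤ) : ZMod (n + 1))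

def C_deg : Prop := ∀ l n : ℕ, Even n → 0 < n →
  (∀ p ∈ fr l n, (cs l n).deg (pj l n p) = if p.1 = 0 ∨ p.1 = n then 2 else 4) ∧
  (cs l n).deg (cs l n).g = 2 * l + 2

def C_th : Prop := ∀ l n : ℕ, Even n → 0 < n →
  (∀ h : XC l n → ℤ, (cs l n).Adm h →
    (cs l n).Th h = th (arr h 0) (arr h (n : ZMod (n + 1)))) ∧
  ∃ B : Finset (XC l n), B.card ≤ 4 * l + 4 ∧
    (∀ z, z ∉ B → z ≠ (cs l n).r → z ≠ (cs l n).g → (cs l n).deg z = 4) ∧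
    ∀ z ∈ B, (cs l n).inc z (cs l n).r ∨ (cs l n).inc z (cs l n).g

def C_ht : Prop := ∀ l n a R : ℕ, R + 1 ≤ a → a + R + 1 ≤ n → ∀ φ : Sq → ℝ,
  ∑ x ∈ box R, φ x = 0 → ∀ h : XC l n → ℤ, (cs l n).Adm h →
  XH φ R (ori fun x => arr h ((x + a : ℤ) : ZMod (n + 1))) = ∑ z, push l n a φ R z * h z

structure Lift (l n a K : ℕ) : Prop where
  inc : ∀ u ∈ box (K + 1), ∀ z, (cs l n).inc (em l n a u) z ↔ ∃ u', Nb u u' ∧ z = em l n a u'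
  op : ∀ ω, ∀ u ∈ box (K + 1), ∀ z,
    (cs l n).op ω (em l n a u) z ↔ ∃ u', Op (pb l n a ω) u u' ∧ z = em l n a u'
  inj : ∀ x ∈ box (K + 1), ∀ y ∈ box (K + 2), em l n a x = em l n a y → x = y
  nr : ∀ x ∈ box (K + 1), em l n a x ≠ (cs l n).r ∧ em l n a x ≠ (cs l n).g
  vt : ∀ v ∈ box (K + 1), ∃ h : io l a v ∈ cE l n,
    ∀ b i, (cs l n).e ⟨_, h⟩ b i = em l n a (ed v b i)

def C_lift : Prop := ∀ l n a K, Fit l n a K → Lift l n a K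

def C_ext : Prop := ∀ l n a K, Fit l n a K →
  (∀ z, z ∉ im l n a K →
    ReflTransGen (fun u v => (cs l n).inc u v ∧ v ∉ im l n a K) z (cs l n).r) ∧
  ∀ R ≤ K + 1, (cs l n).Cnn (im l n a R)

def C_cl : Prop := ∀ l n a R K, Fit l n a K → R ≤ K → ∀ ω : EC l n → Bool,
  NoArm R K (pb l n a ω) → ∀ x ∈ box R,
    (∀ z, z ∈ (cs l n).cl ω (em l n a x) ↔ ∃ y ∈ clus (pb l n a ω) x, z = em l n a y) ∧
    (cs l n).r ∉ (cs l n).cl ω (em l n a x) ∧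
    (cs l n).g ∉ (cs l n).D ω ((cs l n).cl ω (em l n a x)) ∧
    ∀ y ∈ box K, em l n a y ∈ (cs l n).D ω ((cs l n).cl ω (em l n a x)) ↔
      y ∈ fill (pb l n a ω) (clus (pb l n a ω) x)

def C_cmp : Prop := ∀ l n a R K, Fit l n a K → R ≤ K → ∀ ω : EC l n → Bool,
  (NoArm R K (pb l n a ω) → ¬(cs l n).Yev (im l n a R) ω) ∧
  ∀ φ : Sq → ℝ, ∑ x ∈ box R, φ x = 0 →
    |(cs l n).Zw (Real.pi / 3) (push l n a φ R) ω| ≤ 2 ^ (box R).card * 2 ^ (cs l n).N ω ∧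
    (NoArm R K (pb l n a ω) → (cs l n).Zw (Real.pi / 3) (push l n a φ R) ω =
      2 ^ (cs l n).N ω * nb φ R (pb l n a ω))

/-! ### Statements: plane and measure -/

structure P_bas : Prop where
  nbs : ∀ x y, Nb x y → Nb y x
  ops : ∀ ω x y, Op ω x y → Op ω y x
  self : ∀ ω x, x ∈ clus ω x
  cleq : ∀ ω x y, y ∈ clus ω x → clus ω y = clus ω x
  nbb : ∀ (K : ℕ) x y, Nb x y → x ∈ box K → y ∈ box (K + 1)
  opb : ∀ (K : ℕ) ω x y, Op ω x y → x ∈ box K → y ∈ box (K + 1)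
  edb : ∀ (K : ℕ) v b i, (v ∈ box K → ed v b i ∈ box (K + 1)) ∧
    (ed v b i ∈ box K → v ∈ box (K + 1))
  mono : ∀ R K : ℕ, R ≤ K → box R ⊆ box K
  cnn : ∀ (R : ℕ), ∀ x ∈ box R, ∀ y ∈ box R, ReflTransGen (fun u v => Nb u v ∧ v ∈ box R) x y
  fin : ∀ T : Set Sq, T.Finite → ∃ K, T ⊆ box K
  fil : ∀ ω (C : Set Sq) (K : ℕ) x, C ⊆ box K → (x ∈ fill ω C ↔ x ∈ C ∨ ¬Esc ω C K x)

def P_loc : Prop := ∀ (φ : Sq → ℝ) (R K : ℕ), R ≤ K →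
  Dep (K + 1) (GG φ R K) ∧ Dep (K + 1) (ai R K) ∧ ∀ ω, |nb φ R ω| ≤ 2 ^ (box R).card

def M_avg : Prop :=
  (∀ K G, Dep K G → Measurable G) ∧
  ∀ l n a K, Fit l n a K → ∀ G, Dep (K + 1) G → 𝔼 ω, G (pb l n a ω) = ∫ ω, G ω ∂perc

def H_fin : Prop := ∀ᵐ ω ∂perc, ∀ x, (clus ω x).Finite

def P_lim : Prop := ∀ (φ : Sq → ℝ) (R : ℕ),
  Tendsto (fun K => ∫ ω, GG φ R K ω ∂perc) atTop (𝓝 (∫ ω, nb φ R ω ∂perc)) ∧
  Tendsto (fun K => ∫ ω, ai R K ω ∂perc) atTop (𝓝 0)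

/-! ### Statements: limits -/

def D_ch : Prop := ∀ (c : ℝ) (l : ℕ) (F₁ F₂ : Ori → ℝ), 0 < c → IsLocal F₁ → IsLocal F₂ →
  (∀ o, F₂ (rev o) = -F₂ o) → ∀ m : ℝ,
  Tendsto (fun M : ℕ => texp c (M + 1) (2 * l + 2) F₁) atTop (𝓝 m) →
  ∀ (e₁ e₂ : Colc l → Colc l → ℝ) (K : ℝ),
  (∀ᶠ j : ℕ in atTop, chn (tm c l) (fun s t => uL s * uR t) (2 * j + 2 * j) (2 * j) 1 ≤
    K * chn (tm c l) e₁ (2 * j + 2 * j) (2 * j) 1) →
  Tendsto (fun j : ℕ => (chn (tm c l) e₁ (2 * j + 2 * j) (2 * j) (F₁ ∘ ori) -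
    chn (tm c l) e₂ (2 * j + 2 * j) (2 * j) (F₂ ∘ ori)) /
      chn (tm c l) e₁ (2 * j + 2 * j) (2 * j) 1) atTop (𝓝 m)

def X_loc : Prop := ∀ (φ : Sq → ℝ) (R : ℕ),
  IsLocal (XH φ R) ∧ ∀ o, XH φ R (rev o) = -XH φ R o

def L_ch : Prop := ∀ (l R : ℕ) (φ : Sq → ℝ), ∑ x ∈ box R, φ x = 0 → ∀ m : ℝ,
  Tendsto (fun M : ℕ => texp (Real.sqrt 3) (M + 1) (2 * l + 2) fun o => Real.cos (XH φ R o))
    atTop (𝓝 m) →
  Tendsto (fun j : ℕ => rat l (2 * j + 2 * j) (2 * j) φ R) atTop (𝓝 m)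

def L_one : Prop := ∀ (l n a R K K' : ℕ) (φ : Sq → ℝ), ∑ x ∈ box R, φ x = 0 → Fit l n a K' →
  R ≤ K → K + 2 ≤ K' →
  |rat l n a φ R - ∫ ω, GG φ R K ω ∂perc| ≤ 2 ^ (box R).card *
    (∫ ω, ai R K ω ∂perc + 64 * 2 ^ (box (K + 2)).card * ∫ ω, ai (K + 2) K' ω ∂perc)

def L_lat : Prop := ∀ P : Measure Ori, IsLimit (Real.sqrt 3) P → ∀ (φ : Sq → ℝ) (R : ℕ),
  ∑ x ∈ box R, φ x = 0 → ∫ o, Real.cos (XH φ R o) ∂P = ∫ ω, nb φ R ω ∂perc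

def F_int : Prop := ∀ (δ : ℝ) (f : ℝ × ℝ → ℝ), 0 < δ → IsTest f → ∃ (φ : Sq → ℝ) (R : ℕ),
  ∑ x ∈ box R, φ x = 0 ∧ (∀ o, hInt δ f o = XH φ R o) ∧
    ∀ T : Set Sq, ∫ z in region δ T, f z = ms φ R T

def F_prod : Prop := ∀ (δ : ℝ) (f : ℝ × ℝ → ℝ) (φ : Sq → ℝ) (R : ℕ), ∑ x ∈ box R, φ x = 0 →
  (∀ T : Set Sq, ∫ z in region δ T, f z = ms φ R T) → ∀ ω,
  {C ∈ loops ω | wt δ f ω C ≠ 1}.Finite ∧ nest δ f ω = nb φ R ω

def F_gau : Prop := ∀ (P : Measure Ori) (σ : ℝ) (f : ℝ × ℝ → ℝ), ConvGFF P σ → IsTest f →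
  Tendsto (fun δ : ℝ => ∫ o, Real.cos (hInt δ f o) ∂P) (𝓝[>] 0)
    (𝓝 (Real.exp (-(σ ^ 2 * gcov f f) / 2)))

/-- the final statement -/
def Goal : Prop := (∀ᵐ ω ∂perc, ∀ x, (clus ω x).Finite) ∧ ∀ f : ℝ × ℝ → ℝ, IsTest f →
  (∀ δ : ℝ, 0 < δ → ∀ ω, {C ∈ loops ω | wt δ f ω C ≠ 1}.Finite) ∧
  Tendsto (fun δ : ℝ => ∫ ω, nest δ f ω ∂perc) (𝓝[>] 0)
    (𝓝 (Real.exp (-(3 / (2 * Real.pi)) * gcov f f)))

theorem goal_of (hG : ∃ P : Measure Ori, IsLimit (Real.sqrt 3) P ∧ ∃ σ : ℝ,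
      σ ^ 2 = 1 / Real.arcsin (Real.sqrt 3 / 2) ∧ ConvGFF P σ)
    (h1 : H_fin) (h2 : L_lat) (h3 : F_int) (h4 : F_prod) (h5 : F_gau) : Goal := by
  obtain ⟨P, hP, σ, hσ, hc⟩ := hG
  refine ⟨h1, fun f hf => ⟨fun δ hδ ω => ?_, ?_⟩⟩
  · obtain ⟨φ, R, a1, -, a3⟩ := h3 δ f hδ hf
    exact (h4 δ f φ R a1 a3 ω).1
  · have e : Real.arcsin (Real.sqrt 3 / 2) = Real.pi / 3 := by
      rw [← Real.sin_pi_div_three]
      exact Real.arcsin_sin (by linarith [Real.pi_pos]) (by linarith [Real.pi_pos])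
    have e2 : -(σ ^ 2 * gcov f f) / 2 = -(3 / (2 * Real.pi)) * gcov f f := by
      rw [hσ, e]
      field_simp
    have t := h5 P σ f hc hf
    rw [e2] at t
    refine t.congr' ?_
    filter_upwards [self_mem_nhdsWithin] with δ hδ
    obtain ⟨φ, R, a1, a2, a3⟩ := h3 δ f hδ hf
    simp only [a2, fun ω => (h4 δ f φ R a1 a3 ω).2]
    exact h2 P hP φ R a1

end Vale.Agent.P167Q
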