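import Vale.Agent.P167Q.XStm

/-! P167Q: the inequality for disjoint occurrence of finitely many events. -/

open Finset MeasureTheory
open scoped Classical BigOperators

namespace Vale.Agent.P167Q

namespace XBkx

/-- indicator -/
noncomputable def ind (p : Prop) : ℝ := if p then 1 else 0

theorem ite_ind (p : Prop) {_ : Decidable p} : (if p then (1 : ℝ) else 0) = ind p := by
  unfold ind
  by_cases h : p
  · rw [if_pos h, if_pos h]
  · rw [if_neg h, if_neg h]

theorem ind_nonneg (p : Prop) : 0 ≤ ind p := by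
  unfold ind
  split_ifs
  · exact zero_le_one
  · exact le_rfl

theorem ind_mono {p q : Prop} (h : p → q) : ind p ≤ ind q := by
  by_cases hp : p
  · unfold ind
    rw [if_pos hp, if_pos (h hp)]
  · refine le_trans (le_of_eq ?_) (ind_nonneg q)
    unfold ind
    rw [if_neg hp]

/-- disjoint witnesses -/
def Ev {E κ : Type} (s : Finset κ) (A : κ → Set (E → Bool)) : Set (E → Bool) :=
  {ω | ∃ al : κ → E → Bool, (∀ i ∈ s, al i ∈ A i ∧ al i ≤ ω) ∧
    ∀ i ∈ s, ∀ j ∈ s, i ≠ j → ∀ v, ¬(al i v = true ∧ al j v = true)}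

theorem fin (h : K_bk2) {E κ : Type} [Fintype E] [DecidableEq E] (A : κ → Set (E → Bool))
    (s : Finset κ) : 𝔼 ω, ind (ω ∈ Ev s A) ≤ ∏ i ∈ s, 𝔼 ω, ind (∃ α ∈ A i, α ≤ ω) := by
  induction s using Finset.induction_on with
  | empty =>
    rw [prod_empty]
    refine expect_le univ_nonempty (fun ω _ => ?_)
    unfold ind
    split_ifs
    · exact le_rfl
    · exact zero_le_one
  | insert i s hi ih =>
    have h1 := h E (A i) (Ev s A)
    simp only [ite_ind] at h1
    rw [prod_insert hi]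
    refine le_trans (expect_le_expect (fun ω _ => ind_mono ?_)) (h1.trans
      (mul_le_mul_of_nonneg_left (le_trans (expect_le_expect (fun ω _ => ind_mono ?_)) ih)
        (expect_nonneg (fun ω _ => ind_nonneg _))))
    · rintro ⟨al, h2, h3⟩
      refine ⟨al i, (h2 i (mem_insert_self _ _)).1, fun v => decide (∃ j ∈ s, al j v = true),
        ⟨al, fun j hj => ⟨(h2 j (mem_insert_of_mem hj)).1, fun v => ?_⟩,
          fun j hj k hk => h3 j (mem_insert_of_mem hj) k (mem_insert_of_mem hk)⟩,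
        (h2 i (mem_insert_self _ _)).2, fun v => ?_, fun v hv => ?_⟩
      · exact Bool.le_iff_imp.mpr (fun hv => decide_eq_true ⟨j, hj, hv⟩)
      · refine Bool.le_iff_imp.mpr (fun hv => ?_)
        obtain ⟨j, hj, hv⟩ := of_decide_eq_true hv
        exact Bool.le_iff_imp.mp ((h2 j (mem_insert_of_mem hj)).2 v) hv
      · obtain ⟨j, hj, hv'⟩ := of_decide_eq_true hv.2
        exact h3 i (mem_insert_self _ _) j (mem_insert_of_mem hj) (fun e => hi (e ▸ hj)) v
          ⟨hv.1, hv'⟩
    · rintro ⟨β, ⟨al, h2, h3⟩, hβ⟩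
      exact ⟨al, fun j hj => ⟨(h2 j hj).1, (h2 j hj).2.trans hβ⟩, h3⟩

theorem flp {E : Type} [Fintype E] [DecidableEq E] (b : Bool) (F : (E → Bool) → ℝ) :
    𝔼 η : E → Bool, F (fun v => η v == b) = 𝔼 η, F η := by
  have hm : Function.Involutive (fun (η : E → Bool) v => η v == b) := fun η => by
    funext v
    cases b <;> simp
  exact Fintype.expect_equiv hm.toPerm _ _ (fun _ => rfl)

/-- indicator of a finite set inside `W` -/
noncomputable def ch {ι : Type} (W S : Finset ι) : W → Bool := fun v => decide (v.1 ∈ S)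

theorem key {ι : Type} {W S : Finset ι} (h : S ⊆ W) (b : Bool) (η : W → Bool) :
    (∀ v ∈ S, xt W η v = b) ↔ ch W S ≤ fun v => η v == b := by
  constructor
  · intro h1 v
    refine Bool.le_iff_imp.mpr (fun hv => ?_)
    have := h1 v.1 (of_decide_eq_true hv)
    unfold xt at this
    rw [dif_pos v.2] at this
    exact beq_iff_eq.mpr this
  · intro h1 v hv
    unfold xt
    rw [dif_pos (h hv)]
    exact beq_iff_eq.mp (Bool.le_iff_imp.mp (h1 ⟨v, h hv⟩) (decide_eq_true hv))

end XBkx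

open XBkx in
theorem kbk_pf (hb : Base) (h : K_bk2) : K_bk := by
  intro ι κ _ W b A hA
  have tr : ∀ (ω ω' : ι → Bool) (S : Finset ι), S ⊆ W → (∀ i ∈ W, ω i = ω' i) →
      ((∀ v ∈ S, ω v = b) ↔ ∀ v ∈ S, ω' v = b) := fun ω ω' S hS e =>
    forall₂_congr fun v hv => by rw [e v (hS hv)]
  have l1 : Le W {ω | ∃ S : κ → Finset ι, (∀ i, S i ∈ A i ∧ ∀ v ∈ S i, ω v = b) ∧
      ∀ i j, i ≠ j → Disjoint (S i) (S j)} := fun ω ω' e => propext
    (exists_congr fun S => and_congr_left' (forall_congr' fun i =>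
      and_congr_right fun hS => tr ω ω' _ (hA i _ hS) e))
  have l2 : ∀ i, Le W (wi b (A i)) := fun i ω ω' e => propext
    (exists_congr fun S => and_congr_right fun hS => tr ω ω' _ (hA i _ hS) e)
  have h1 := fin h (fun i => ch W '' A i) (univ : Finset κ)
  rw [((hb.loc ι W).2 _ l1).2, prod_congr rfl (fun i _ => ((hb.loc ι W).2 _ (l2 i)).2)]
  simp only [ite_ind]
  rw [← flp b] at h1
  refine le_trans (expect_le_expect (fun η _ => ind_mono ?_)) (h1.trans (le_of_eq ?_))
  · rintro ⟨S, h2, h3⟩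
    refine ⟨fun i => ch W (S i), fun i _ => ⟨⟨S i, (h2 i).1, rfl⟩,
      (key (hA i _ (h2 i).1) b η).mp (h2 i).2⟩, fun i _ j _ hij v hv => ?_⟩
    exact disjoint_left.mp (h3 i j hij) (of_decide_eq_true hv.1) (of_decide_eq_true hv.2)
  · refine prod_congr rfl (fun i _ => ?_)
    rw [← flp b]
    refine expect_congr rfl (fun η _ => congrArg ind (propext ?_))
    constructor
    · rintro ⟨_, ⟨S, hS, rfl⟩, h2⟩
      exact ⟨S, hS, (key (hA i _ hS) b η).mpr h2⟩
    · rintro ⟨S, hS, h2⟩
      exact ⟨_, ⟨S, hS, rfl⟩, (key (hA i _ hS) b η).mp h2⟩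

end Vale.Agent.P167Q
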