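import Vale.Agent.P167Q.XStm

/-! P167Q: the van den Berg-Kesten inequality. -/

open Finset
open scoped Classical BigOperators

namespace Vale.Agent.P167Q

namespace XBk2x

variable {E : Type} [DecidableEq E] {A B : Set (E → Bool)} {U : Finset E} {e : E}
  {p : (E → Bool) × (E → Bool)}

def D (A B : Set (E → Bool)) (U : Finset E) (p : (E → Bool) × (E → Bool)) : Prop :=
  ∃ α ∈ A, ∃ β ∈ B, α ≤ p.1 ∧ (∀ v, β v ≤ if v ∈ U then p.2 v else p.1 v) ∧
    ∀ v ∉ U, ¬(α v = true ∧ β v = true)

def sig (e : E) (p : (E → Bool) × (E → Bool)) : (E → Bool) × (E → Bool) :=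
  (Function.update p.1 e (p.2 e), Function.update p.2 e (p.1 e))

theorem sig_sig (e : E) : Function.Involutive (sig e) := fun p => by simp [sig]

theorem wit (he : e ∉ U) (h : D A B U p) : ∃ a b : Bool, a ≤ p.1 e ∧ b ≤ p.1 e ∧
    ¬(a = true ∧ b = true) ∧ (b = false → D A B (insert e U) p) ∧
    (a = false → D A B (insert e U) (sig e p)) := by
  obtain ⟨α, hα, β, hβ, h1, h2, h3⟩ := h
  have k : β e ≤ p.1 e := by simpa [he] using h2 e
  have h4 : ∀ v ∉ insert e U, ¬(α v = true ∧ β v = true) := fun v hv =>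
    h3 v fun h => hv (mem_insert_of_mem h)
  refine ⟨α e, β e, h1 e, k, h3 e he, fun hb => ⟨α, hα, β, hβ, h1, fun v => ?_, h4⟩,
    fun ha => ⟨α, hα, β, hβ, fun v => ?_, fun v => ?_, h4⟩⟩ <;> by_cases hv : v = e
  · rw [hv, hb]
    exact Bool.false_le _
  · simpa [hv] using h2 v
  · rw [hv, ha]
    exact Bool.false_le _
  · simpa [sig, hv] using h1 v
  · simpa [sig, hv] using k
  · simpa [sig, hv] using h2 v

theorem k1 (he : e ∉ U) (h : D A B U p) :
    D A B (insert e U) p ∨ D A B (insert e U) (sig e p) := by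
  obtain ⟨a, b, -, -, h3, h4, h5⟩ := wit he h
  cases a
  · exact Or.inr (h5 rfl)
  · exact Or.inl (h4 (by simpa using h3))

theorem k2 (he : e ∉ U) (h : D A B U p) (h0 : p.1 e = false) :
    D A B (insert e U) p ∧ D A B (insert e U) (sig e p) := by
  obtain ⟨a, b, h1, h2, -, h4, h5⟩ := wit he h
  rw [h0] at h1 h2
  exact ⟨h4 (le_bot_iff.1 h2), h5 (le_bot_iff.1 h1)⟩

theorem k3 (he : e ∉ U) (h : D A B U p) (h' : D A B U (sig e p)) :
    D A B (insert e U) p ∧ D A B (insert e U) (sig e p) := by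
  cases h1 : p.1 e
  · exact k2 he h h1
  cases h2 : p.2 e
  · have := k2 he h' (by simp [sig, h2])
    rw [sig_sig] at this
    exact this.symm
  · have s : sig e p = p := by
      rw [sig, h1, h2]
      exact Prod.ext (h1 ▸ Function.update_eq_self _ _) (h2 ▸ Function.update_eq_self _ _)
    have := k1 he h
    rw [s, or_self] at this
    rw [s]
    exact ⟨this, this⟩

theorem step [Fintype E] (he : e ∉ U) : 𝔼 p, (if D A B U p then (1 : ℝ) else 0) ≤
    𝔼 p, if D A B (insert e U) p then (1 : ℝ) else 0 := by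
  have s : ∀ V, 𝔼 p, (if D A B V (sig e p) then (1 : ℝ) else 0) =
      𝔼 p, if D A B V p then (1 : ℝ) else 0 := fun V =>
    Fintype.expect_equiv (sig_sig e).toPerm _ _ fun _ => rfl
  have : 𝔼 p, ((if D A B U p then (1 : ℝ) else 0) + if D A B U (sig e p) then (1 : ℝ) else 0) ≤
      𝔼 p, ((if D A B (insert e U) p then (1 : ℝ) else 0) +
        if D A B (insert e U) (sig e p) then (1 : ℝ) else 0) := expect_le_expect fun p _ => by
    have a1 := k1 (A := A) (B := B) (p := p) he
    have a2 := k1 (A := A) (B := B) (p := sig e p) he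
    have a3 := k3 (A := A) (B := B) (p := p) he
    rw [sig_sig] at a2
    split_ifs <;> first | linarith | tauto
  rw [expect_add_distrib, expect_add_distrib, s, s] at this
  linarith

end XBk2x

open XBk2x in
theorem kbk2_pf : K_bk2 := by
  intro E _ _ A B
  have h : ∀ U : Finset E, 𝔼 p, (if D A B ∅ p then (1 : ℝ) else 0) ≤
      𝔼 p, if D A B U p then (1 : ℝ) else 0 := fun U => by
    induction U using Finset.induction_on with
    | empty => exact le_rfl
    | insert e U he ih => exact ih.trans (step he)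
  refine le_of_eq_of_le ?_ ((h univ).trans_eq ?_)
  · rw [← univ_product_univ, expect_product]
    refine expect_congr rfl fun ω _ => ?_
    rw [← Fintype.expect_const (ι := E → Bool) (if ω ∈ dj A B then (1 : ℝ) else 0)]
    exact expect_congr rfl fun ω' _ => if_congr (by simp [D, dj, Pi.le_def]) rfl rfl
  · rw [← univ_product_univ, expect_product, expect_mul_expect]
    refine expect_congr rfl fun ω _ => expect_congr rfl fun ω' _ => ?_
    rw [ite_zero_mul_ite_zero, one_mul]
    refine if_congr ⟨fun ⟨α, a, β, b, h1, h2, _⟩ => ⟨⟨α, a, h1⟩, β, b, fun v => ?_⟩,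
      fun ⟨⟨α, a, h1⟩, β, b, h2⟩ => ⟨α, a, β, b, h1, fun v => ?_, by simp⟩⟩ rfl rfl <;>
      simpa using h2 v

end Vale.Agent.P167Q
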