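import Vale.Agent.P167Q.XStm

/-! P167Q: the lattice charges of a rescaled bump. -/

open Finset MeasureTheory
open scoped Classical

namespace Vale.Agent.P167Q

namespace XCelx

theorem meas (δ : ℝ) (S : Set Sq) : MeasurableSet (region δ S) :=
  (((measurable_fst.div_const δ).floor).prodMk ((measurable_snd.div_const δ).floor))
    (Set.to_countable S).measurableSet

theorem cell {δ : ℝ} (h : 0 < δ) (x : Sq) : region δ {x} =
    Set.Ico (x.1 * δ) ((x.1 + 1) * δ) ×ˢ Set.Ico (x.2 * δ) ((x.2 + 1) * δ) := by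
  ext z
  simp only [region, Set.mem_ofPred_eq, Set.mem_singleton_iff, Prod.ext_iff, Int.floor_eq_iff,
    Set.mem_prod, Set.mem_Ico, le_div_iff₀ h, div_lt_iff₀ h]

theorem vol {δ : ℝ} (h : 0 < δ) (x : Sq) :
    volume (region δ {x}) = ENNReal.ofReal δ * ENNReal.ofReal δ := by
  rw [cell h, Measure.volume_eq_prod, Measure.prod_prod, Real.volume_Ico, Real.volume_Ico]
  congr 2 <;> ring

variable {A : ℝ} {ρ : ℝ × ℝ → ℝ}

theorem supp (h : Bump A ρ) {m : ℕ} {z : ℝ × ℝ} (hz : bmp ρ m z ≠ 0) :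
    2 ^ m < z.1 ∧ z.1 < 3 * 2 ^ m ∧ -2 ^ m < z.2 ∧ z.2 < 2 ^ m := by
  have p : (0 : ℝ) < 2 ^ m := by positivity
  obtain ⟨h1, h2⟩ := h.supp _ fun k => hz (by rw [bmp, k, zero_div])
  obtain ⟨a1, a2⟩ := abs_lt.1 h1
  obtain ⟨a3, a4⟩ := abs_lt.1 h2
  simp only at a1 a2 a3 a4
  rw [lt_sub_iff_add_lt, lt_div_iff₀ p] at a1
  rw [sub_lt_iff_lt_add, div_lt_iff₀ p] at a2
  rw [lt_div_iff₀ p] at a3
  rw [div_lt_iff₀ p] at a4
  exact ⟨by linarith, by linarith, by linarith, by linarith⟩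

theorem flo (h : Bump A ρ) (J : ℕ) {m : ℕ} {z : ℝ × ℝ} (hz : bmp ρ m z ≠ 0) :
    ((⌊z.1 / (1 / 2 ^ J)⌋, ⌊z.2 / (1 / 2 ^ J)⌋) : Sq) ∈ box (3 * 2 ^ (J + m)) ∧
      (2 : ℤ) ^ (J + m) ≤ ⌊z.1 / (1 / 2 ^ J)⌋ := by
  obtain ⟨a1, a2, a3, a4⟩ := supp h hz
  have p : (0 : ℝ) < 2 ^ J := by positivity
  have q : (0 : ℝ) < 2 ^ m := by positivity
  have pq := mul_pos p q
  have b1 := mul_lt_mul_of_pos_left a1 p
  have b2 := mul_lt_mul_of_pos_left a2 p
  have b3 := mul_lt_mul_of_pos_left a3 p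
  have b4 := mul_lt_mul_of_pos_left a4 p
  simp only [mem_box, one_div, div_inv_eq_mul, Int.le_floor, Int.floor_le_iff]
  push_cast
  rw [pow_add]
  refine ⟨⟨?_, ?_, ?_, ?_⟩, ?_⟩ <;> nlinarith

theorem intg (h : Bump A ρ) (m : ℕ) : Integrable (bmp ρ m) := by
  have c := h.sm.continuous
  have c' : Continuous (bmp ρ m) := by
    unfold bmp
    fun_prop
  refine c'.integrable_of_hasCompactSupport (HasCompactSupport.intro
    ((isCompact_Icc (a := (2 : ℝ) ^ m) (b := 3 * 2 ^ m)).prod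
      (isCompact_Icc (a := -(2 : ℝ) ^ m) (b := 2 ^ m))) fun z hz => ?_)
  by_contra k
  obtain ⟨a1, a2, a3, a4⟩ := supp h k
  exact hz ⟨⟨a1.le, a2.le⟩, a3.le, a4.le⟩

theorem tot (h : Bump A ρ) (m : ℕ) : ∫ z, bmp ρ m z = 1 := by
  have e : ∀ z, bmp ρ m z = (fun w => ρ (w - (2, 0))) (((2 : ℝ) ^ m)⁻¹ • z) / 4 ^ m := fun z => by
    rw [bmp]
    congr 2
    ext <;> simp [div_eq_inv_mul]
  simp only [e]
  rw [integral_div, Measure.integral_comp_smul volume (fun w : ℝ × ℝ => ρ (w - (2, 0))),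
    integral_sub_right_eq_self, h.one, Module.finrank_prod, Module.finrank_self, inv_pow, inv_inv,
    abs_of_pos (by positivity), smul_eq_mul, mul_one, ← pow_mul, mul_comm, pow_mul,
    div_eq_one_iff_eq (by positivity)]
  norm_num

theorem form (h : Bump A ρ) (J m R : ℕ) (hR : R ≥ 3 * 2 ^ (J + m)) (S : Set Sq) :
    ∫ z in region (1 / 2 ^ J) S, bmp ρ m z = ms (cel J (bmp ρ m)) R S := by
  have e : ∀ z, (region (1 / 2 ^ J) S).indicator (bmp ρ m) z = ∑ x ∈ box R,
      if x ∈ S then (region (1 / 2 ^ J) {x}).indicator (bmp ρ m) z else 0 := by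
    intro z
    by_cases hz : bmp ρ m z = 0
    · simp [Set.indicator_apply, hz]
    · have k := mem_box.1 (flo h J hz).1
      have hR' : ((3 * 2 ^ (J + m) : ℕ) : ℤ) ≤ R := by exact_mod_cast hR
      rw [sum_eq_single_of_mem (⌊z.1 / (1 / 2 ^ J)⌋, ⌊z.2 / (1 / 2 ^ J)⌋)
        (mem_box.2 ⟨by omega, by omega, by omega, by omega⟩) fun x _ hx => ?_]
      · rw [Set.indicator_of_mem (s := region _ {_}) (Set.mem_singleton _), Set.indicator_apply]
        rfl
      · rw [Set.indicator_of_notMem (s := region _ {x}) fun k => hx (Eq.symm k), ite_self]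
  rw [← integral_indicator (meas _ S)]
  simp only [e]
  rw [integral_finsetSum _ fun x _ => ?_]
  · refine sum_congr rfl fun x _ => ?_
    split_ifs
    · exact integral_indicator (meas _ _)
    · simp
  · split_ifs
    · exact (intg h m).indicator (meas _ _)
    · simp

end XCelx

open XCelx in
theorem gcel_pf : G_cel := by
  intro A ρ h J m
  refine ⟨⟨fun x => ?_, fun x => ?_, fun x hx => ?_, ?_⟩,
    fun R hR S => ⟨(intg h m).integrableOn, form h J m R hR S⟩⟩
  · exact integral_nonneg fun z => div_nonneg (h.nn _) (by positivity)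
  · have p : (0 : ℝ) < 1 / 2 ^ J := by positivity
    have k := norm_setIntegral_le_of_norm_le_const (μ := volume) (s := region (1 / 2 ^ J) {x})
      (f := bmp ρ m) (C := A / 4 ^ m)
      (by rw [vol p]; exact ENNReal.mul_lt_top ENNReal.ofReal_lt_top ENNReal.ofReal_lt_top)
      fun z _ => by
        rw [bmp, Real.norm_of_nonneg (div_nonneg (h.nn _) (by positivity))]
        exact div_le_div_of_nonneg_right (h.le _) (by positivity)
    rw [Measure.real, vol p, ENNReal.toReal_mul, ENNReal.toReal_ofReal p.le] at k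
    refine ((le_abs_self _).trans k).trans (le_of_eq ?_)
    rw [pow_add, show (4 : ℝ) ^ J = 2 ^ J * 2 ^ J by rw [← mul_pow]; norm_num]
    field_simp
  · by_contra k
    refine hx (setIntegral_eq_zero_of_forall_eq_zero fun z hz => ?_)
    by_contra hz'
    have e : ((⌊z.1 / (1 / 2 ^ J)⌋, ⌊z.2 / (1 / 2 ^ J)⌋) : Sq) = x := hz
    exact k (e ▸ flo h J hz')
  · have k := form h J m _ le_rfl Set.univ
    rw [show region (1 / 2 ^ J) Set.univ = Set.univ from rfl, Measure.restrict_univ, tot h] at k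
    simpa [ms] using k.symm

end Vale.Agent.P167Q
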