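import Vale.Agent.P167Q.XStm

/-! P167Q: classification of the clusters for three charges. -/

open Finset
open scoped Classical

namespace Vale.Agent.P167Q

namespace XClsx

theorem lin (T : Tri) (θ₁ θ₂ : ℝ) (ω : Cf) (C : Set Sq) : T.xx θ₁ θ₂ ω C =
    (θ₁ + θ₂) * T.mu T.ψ₀ ω C - θ₁ * T.mu T.ψ₁ ω C - θ₂ * T.mu T.ψ₂ ω C := by
  simp only [Tri.xx, Tri.mu, ms, mul_sum, ← sum_sub_distrib]
  refine sum_congr rfl fun x _ => ?_
  split_ifs <;> simp [Tri.ch]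

theorem bmono {a b : ℕ} (h : a ≤ b) {x : Sq} (hx : x ∈ box a) : x ∈ box b := by
  rw [mem_box] at hx ⊢
  omega

theorem one {A : ℝ} {j R : ℕ} {ψ : Sq → ℝ} (h : Ad A j ψ) (hR : 3 * 2 ^ j ≤ R) {F : Set Sq}
    (hF : ∀ x ∈ box (3 * 2 ^ j), x ∈ F) : ms ψ R F = 1 := by
  rw [ms, ← h.one, ← sum_subset (s₁ := box (3 * 2 ^ j)) fun x hx => bmono hR hx]
  · exact sum_congr rfl fun x hx => if_pos (hF x hx)
  · intro x _ hx
    have : ψ x = 0 := by_contra fun h0 => hx (h.supp x h0).1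
    rw [this, ite_self]

theorem nz {A : ℝ} {j R : ℕ} {ψ : Sq → ℝ} (h : Ad A j ψ) {F : Set Sq} (h0 : ms ψ R F ≠ 0) :
    ∃ x ∈ F, x ∈ box (3 * 2 ^ j) ∧ ((2 ^ j : ℕ) : ℤ) ≤ x.1 := by
  obtain ⟨x, -, hx⟩ := exists_ne_zero_of_sum_ne_zero h0
  have hF : x ∈ F := by_contra fun hn => hx (if_neg hn)
  rw [if_pos hF] at hx
  exact ⟨x, hF, (h.supp x hx).1, by exact_mod_cast (h.supp x hx).2⟩

theorem zero (hg : X_geo) {A : ℝ} {j R : ℕ} {ψ : Sq → ℝ} (h : Ad A j ψ) {ω : Cf} {C : Set Sq}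
    {k : ℕ} (hk : k ≤ j) (hC : C ⊆ box (2 ^ k - 1)) : ms ψ R (fill ω C) = 0 := by
  by_contra h0
  obtain ⟨x, hx, -, h1⟩ := nz h h0
  obtain ⟨y, hy, h2⟩ := (hg.bd ω C x hx).2.1
  have h3 := mem_box.1 (mem_coe.1 (hC hy))
  have h4 := Nat.two_pow_pos k
  have h5 : 2 ^ k ≤ 2 ^ j := Nat.pow_le_pow_right two_pos hk
  omega

theorem big (hg : X_geo) {ω : Cf} {C : Set Sq} {s : ℕ} (h : ∀ x ∈ box (3 * s), x ∈ fill ω C) :
    ¬Sml C s := fun hs => by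
  obtain ⟨u, hu, h1⟩ := (hg.bd ω C (3 * s, 0) (h _ (mem_box.2 (by simp only; omega)))).2.1
  obtain ⟨v, hv, h2⟩ := (hg.bd ω C (-(3 * s), 0) (h _ (mem_box.2 (by simp only; omega)))).1
  have := (hs u hu v hv).1
  simp only at h1 h2
  omega

theorem far (hg : X_geo) {ω : Cf} {C : Set Sq} {s : ℕ} (h1 : 0 < s) (h0 : (0 : Sq) ∈ fill ω C)
    (h : ¬C ⊆ box (s - 1)) : ¬Sml C s := fun hs => by
  obtain ⟨y, hy, hn⟩ := Set.not_subset.1 h
  obtain ⟨⟨a, ha, a1⟩, ⟨b, hb, b1⟩, ⟨c, hc, c1⟩, d, hd, d1⟩ := hg.bd ω C 0 h0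
  have e1 := (hs y hy a ha).1
  have e2 := (hs b hb y hy).1
  have e3 := (hs y hy c hc).2
  have e4 := (hs d hd y hy).2
  simp only [Prod.fst_zero, Prod.snd_zero] at a1 b1 c1 d1
  refine hn (mem_coe.2 (mem_box.2 ?_))
  omega

theorem zmem (a : ℕ) : (0 : Sq) ∈ box a := by simp [mem_box]

end XClsx

open XClsx

theorem dcls_pf (hb : Base) (hg : X_geo) : D_cls := by
  intro A θ₁ θ₂ T ⟨_, _, a0, a1, a2⟩ ω C hC
  obtain ⟨z, hz, hzC⟩ := mem_image.1 hC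
  have zC : z ∈ C := hzC ▸ hb.bas.self ω z
  have j1 : T.J ≤ T.J₁ := Nat.le_add_right _ _
  have j2 : T.J₁ ≤ T.J₂ := Nat.le_add_right _ _
  have p1 : 3 * 2 ^ T.J ≤ 3 * 2 ^ T.J₁ := Nat.mul_le_mul_left 3 (Nat.pow_le_pow_right two_pos j1)
  have p2 : 3 * 2 ^ T.J₁ ≤ T.R := Nat.mul_le_mul_left 3 (Nat.pow_le_pow_right two_pos j2)
  refine ⟨fun ⟨m1, _, m3⟩ => ?_, fun ⟨m1, _, m3⟩ => ?_, fun n1 n2 => ?_⟩
  · have e0 : T.mu T.ψ₀ ω C = 1 := one a0 (p1.trans p2) m3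
    have e1 : T.mu T.ψ₁ ω C = 0 := zero hg a1 le_rfl m1
    have e2 : T.mu T.ψ₂ ω C = 0 := zero hg a2 j2 m1
    refine ⟨fun h => h.2.1 z (bmono (by omega) (mem_coe.1 (m1 zC))) zC, ?_, ?_⟩
    · rw [lin, e0, e1, e2]
      ring
    · simp only [Tri.xs, Tri.sm, if_neg (big hg m3), e1, e2, ite_self]
      ring
  · have m4 : ∀ x ∈ box (3 * 2 ^ T.J), x ∈ fill ω C := fun x hx => m3 x (bmono p1 hx)
    have e0 : T.mu T.ψ₀ ω C = 1 := one a0 (p1.trans p2) m4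
    have e1 : T.mu T.ψ₁ ω C = 1 := one a1 p2 m3
    have e2 : T.mu T.ψ₂ ω C = 0 := zero hg a2 le_rfl m1
    refine ⟨?_, ?_⟩
    · rw [lin, e0, e1, e2]
      ring
    · simp only [Tri.xs, Tri.sm, if_neg (big hg m3), if_neg (big hg m4), e2, ite_self]
      ring
  · refine or_iff_not_imp_left.2 fun nc => ?_
    have dis : ∀ j, (j = T.J ∨ j = T.J₁ ∨ j = T.J₂) → ¬Sml C (2 ^ j) →
        ∀ x ∈ box (3 * 2 ^ j), x ∉ C := fun j hj hs x hx hxC => by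
      refine nc ⟨j, hj, mem_image.2 ⟨x, by rwa [bz_zero], ?_⟩, fun h => hs fun u hu v hv => ?_⟩
      · rw [← hzC] at hxC ⊢
        exact hb.bas.cleq ω z x hxC
      · have := h u hu v hv
        generalize 2 ^ j = s at this ⊢
        omega
    have s2 : Sml C (2 ^ T.J₂) := by_contra fun h => dis _ (Or.inr (Or.inr rfl)) h z hz zC
    have cl1 : (0 : Sq) ∈ fill ω C → Sml C (2 ^ T.J₁) := fun h0 => by_contra fun h => by
      have d := dis _ (Or.inr (Or.inl rfl)) h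
      exact far hg (Nat.two_pow_pos _) h0
        (fun hs => n2 ⟨hs, d, fun x hx => hg.side ω C _ d 0 (zmem _) x hx h0⟩) s2
    have e1 : T.sm T.ψ₁ T.J₁ ω C = T.mu T.ψ₁ ω C := by
      unfold Tri.sm
      split_ifs with h
      · rfl
      · by_contra h0
        obtain ⟨x, hx, hx', -⟩ := nz a1 (Ne.symm h0)
        exact h (cl1 (hg.side ω C _ (dis _ (Or.inr (Or.inl rfl)) h) x hx' 0 (zmem _) hx))
    have e0 : T.sm T.ψ₀ T.J ω C = T.mu T.ψ₀ ω C := by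
      unfold Tri.sm
      split_ifs with h
      · rfl
      · by_contra h0
        obtain ⟨x, hx, hx', -⟩ := nz a0 (Ne.symm h0)
        have d := dis _ (Or.inl rfl) h
        have z0 := hg.side ω C _ d x hx' 0 (zmem _) hx
        exact far hg (Nat.two_pow_pos _) z0
          (fun hs => n1 ⟨hs, d, fun y hy => hg.side ω C _ d x hx' y hy hx⟩) (cl1 z0)
    have e2 : T.sm T.ψ₂ T.J₂ ω C = T.mu T.ψ₂ ω C := if_pos s2
    rw [lin, Tri.xs, e0, e1, e2]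

end Vale.Agent.P167Q
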