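import Vale.Agent.P167Q.XStm

open Finset Relation Filter Topology MeasureTheory
open scoped Classical

namespace Vale.Agent.P167Q

namespace XDecx

theorem pa_le (a b : ℕ) : pa a b ≤ 1 := by
  unfold pa
  rw [perc_eq]
  exact measureReal_le_one

theorem pa_nn (a b : ℕ) : 0 ≤ pa a b := measureReal_nonneg

theorem iter (hs : Q_sub) (g : ℕ) (hg1 : 1 ≤ g) (hg : ∀ u, 1 ≤ u → pa u (g * u) ≤ 1 / 2)
    (d t : ℕ) :
    ∀ J : ℕ, 3 * 2 ^ (J + t * (g + 1)) ≤ d → pa (3 * 2 ^ J) d ≤ (1 / 2) ^ t := by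
  induction t with
  | zero => intro J _; simpa using pa_le _ _
  | succ t ih =>
    intro J hJ
    have h1 : 1 ≤ 2 ^ J := Nat.one_le_two_pow
    have h2 : g + 1 ≤ 2 ^ (g + 1) := Nat.lt_two_pow_self.le
    have h3 : g * (3 * 2 ^ J) + 2 ≤ 3 * 2 ^ (J + (g + 1)) := by
      rw [pow_add]
      have := Nat.mul_le_mul_left (3 * 2 ^ J) h2
      nlinarith
    have h4 : 3 * 2 ^ (J + (g + 1) + t * (g + 1)) ≤ d := by
      have : J + (g + 1) + t * (g + 1) = J + (t + 1) * (g + 1) := by ring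
      rw [this]
      exact hJ
    have h5 : 3 * 2 ^ (J + (g + 1)) ≤ d :=
      le_trans (Nat.mul_le_mul_left 3 (Nat.pow_le_pow_right (by norm_num) (by omega))) h4
    have h6 := hs.sub (3 * 2 ^ J) (g * (3 * 2 ^ J)) _ d (Nat.le_mul_of_pos_left _ hg1) h3 h5
    calc pa (3 * 2 ^ J) d ≤ _ := h6
      _ ≤ 1 / 2 * (1 / 2) ^ t :=
        mul_le_mul (hg _ (by omega)) (ih _ h4) (pa_nn _ _) (by norm_num)
      _ = (1 / 2) ^ (t + 1) := by ring

end XDecx

open XDecx in
theorem qdec_pf (hs : Q_sub) (ha : K_arm) : Q_dec := by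
  obtain ⟨g, hg1, hg⟩ := ha (1 / 2) (by norm_num)
  have hl : 0 < Real.log 2 := Real.log_pos (by norm_num)
  have hr : (0 : ℝ) < g + 1 := by positivity
  refine ⟨Real.log 2 / (g + 1), by positivity, 3 * Real.log 2, fun J m => ?_⟩
  have h1 : pp J m ≤ (1 / 2) ^ ((m - 2) / (g + 1)) := by
    by_cases hm : m < 2
    · have : m - 2 = 0 := by omega
      rw [this, Nat.zero_div, pow_zero]
      exact pa_le _ _
    · apply iter hs g hg1 hg
      have h2 : (m - 2) / (g + 1) * (g + 1) ≤ m - 2 := Nat.div_mul_le_self _ _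
      have h3 : 2 ^ (J + (m - 2) / (g + 1) * (g + 1)) ≤ 2 ^ (J + (m - 2)) :=
        Nat.pow_le_pow_right (by norm_num) (by omega)
      have h4 : 2 ^ (J + m) = 4 * 2 ^ (J + (m - 2)) := by
        have : J + m = J + (m - 2) + 2 := by omega
        rw [this, pow_add]
        ring
      have h5 : 1 ≤ 2 ^ (J + (m - 2)) := Nat.one_le_two_pow
      omega
  refine h1.trans ?_
  generalize ht : (m - 2) / (g + 1) = t
  have h6 : m ≤ (t + 3) * (g + 1) := by
    have h7 : m - 2 < (m - 2) / (g + 1) * (g + 1) + (g + 1) :=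
      Nat.lt_div_mul_add (by omega)
    rw [ht] at h7
    have : (t + 3) * (g + 1) = t * (g + 1) + 3 * (g + 1) := by ring
    omega
  have h8 : (m : ℝ) ≤ (t + 3) * (g + 1) := by exact_mod_cast h6
  have h9 : ((1 : ℝ) / 2) ^ t = Real.exp (-(t * Real.log 2)) := by
    rw [Real.exp_neg, Real.exp_nat_mul, Real.exp_log (by norm_num), one_div, inv_pow]
  rw [h9]
  apply Real.exp_le_exp.2
  have h10 : Real.log 2 / (g + 1) * m ≤ Real.log 2 * (t + 3) := by
    rw [div_mul_eq_mul_div, div_le_iff₀ hr, mul_assoc]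
    exact mul_le_mul_of_nonneg_left h8 hl.le
  linarith

end Vale.Agent.P167Q
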