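import Vale.Agent.P167Q.XStm

/-! Upper bound for the one arm probability. -/

open Filter Topology MeasureTheory
open scoped Classical

namespace Vale.Agent.P167Q

namespace XEupx

theorem pa_le (a b : ℕ) : pa a b ≤ 1 := by
  unfold pa
  rw [perc_eq]
  exact measureReal_le_one

theorem pa_nn (a b : ℕ) : 0 ≤ pa a b := measureReal_nonneg

theorem iter (hs : Q_sub) {m J₀ : ℕ} {q : ℝ} (hm : 2 ≤ m) (hq : 0 ≤ q)
    (h : ∀ J ≥ J₀, pp J m ≤ q) (n t : ℕ) :
    ∀ J ≥ J₀, 3 * 2 ^ (J + t * m) ≤ n → pa (3 * 2 ^ J) n ≤ q ^ t := by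
  induction t with
  | zero => intro J _ _; simpa using pa_le _ _
  | succ t ih =>
    intro J hJ hn
    have e : J + (t + 1) * m = J + m + t * m := by ring
    rw [e] at hn
    have h1 : 0 < 2 ^ J := by positivity
    have h2 : 2 ^ J * 4 ≤ 2 ^ (J + m) := by
      rw [pow_add]
      exact Nat.mul_le_mul_left _ (Nat.pow_le_pow_right (n := 2) (by norm_num) hm)
    have h3 : 2 ^ (J + m) ≤ 2 ^ (J + m + t * m) :=
      Nat.pow_le_pow_right (by norm_num) (Nat.le_add_right _ _)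
    have h4 := hs.sub (3 * 2 ^ J) (2 ^ (J + m) - 1) (3 * 2 ^ (J + m)) n (by omega) (by omega)
      (by omega)
    have h5 := ih (J + m) (by omega) hn
    rw [pow_succ']
    exact h4.trans (mul_le_mul (h J hJ) h5 (pa_nn _ _) hq)

theorem cross (f : ℕ → ℕ) (n : ℕ) (h0 : f 0 ≤ n) (h1 : n < f n) :
    ∃ t, f t ≤ n ∧ n < f (t + 1) := by
  by_contra hc
  have : ∀ t, f t ≤ n := fun t => by
    induction t with
    | zero => exact h0
    | succ t ih => exact not_lt.1 fun h => hc ⟨t, ih, h⟩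
  exact absurd (this n) (not_le.2 h1)

end XEupx

open XEupx in
theorem eup_pf (hs : Q_sub) (hk : K_sym) (h : R_3) : E_up := by
  intro ε hε
  have l2 : 0 < Real.log 2 := Real.log_pos (by norm_num)
  rcases le_or_gt (5 / 48) ε with hb | hb
  · refine Eventually.of_forall fun n => ((hk true 0 n).1.trans (pa_le _ _)).trans ?_
    refine Real.one_le_exp ?_
    nlinarith [Real.log_natCast_nonneg n]
  obtain ⟨m₀, hm₀⟩ := h (ε / 2 * Real.log 2) (by positivity)
  set m := max m₀ 2 with hm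
  have hm2 : 2 ≤ m := le_max_right _ _
  obtain ⟨J₀, hJ⟩ := eventually_atTop.1 (hm₀ m (le_max_left _ _))
  have hlog : Tendsto (fun n : ℕ => Real.log n) atTop atTop :=
    Real.tendsto_log_atTop.comp tendsto_natCast_atTop_atTop
  filter_upwards [eventually_ge_atTop (3 * 2 ^ J₀),
    hlog.eventually_ge_atTop (((J₀ : ℝ) + 2 + m) * Real.log 2 / (ε / 2))] with n hn hl
  obtain ⟨t, t1, t2⟩ := cross (fun t => 3 * 2 ^ (J₀ + t * m)) n (by simpa using hn) (by
    have h1 : n < 2 ^ n := Nat.lt_two_pow_self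
    have h2 : 2 ^ n ≤ 2 ^ (J₀ + n * m) := Nat.pow_le_pow_right (by norm_num) (by nlinarith)
    show n < 3 * 2 ^ (J₀ + n * m)
    omega)
  have h1 := iter hs hm2 (Real.exp_pos _).le hJ n t J₀ le_rfl t1
  have h2 : pc true 0 n ≤ pa (3 * 2 ^ J₀) n :=
    (hk true 0 n).1.trans (hs.ma _ _ _ _ (Nat.zero_le _) le_rfl)
  refine h2.trans (h1.trans ?_)
  rw [← Real.exp_nat_mul, Real.exp_le_exp]
  have hn0 : (0 : ℝ) < n := by
    have : 0 < 3 * 2 ^ J₀ := by positivity
    exact_mod_cast lt_of_lt_of_le this hn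
  have h3 : n ≤ 2 ^ (J₀ + (t + 1) * m + 2) := by
    have : n < 3 * 2 ^ (J₀ + (t + 1) * m) := t2
    rw [pow_add _ _ 2]
    omega
  have h4 : Real.log n ≤ ((J₀ : ℝ) + (t + 1) * m + 2) * Real.log 2 := by
    have h5 : (n : ℝ) ≤ 2 ^ (J₀ + (t + 1) * m + 2) := by exact_mod_cast h3
    have h6 := Real.log_le_log hn0 h5
    rw [Real.log_pow] at h6
    push_cast at h6
    exact h6
  rw [div_le_iff₀ (by positivity)] at hl
  have h7 : 0 ≤ ((J₀ : ℝ) + 2 + m) * Real.log 2 := by positivity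
  have h8 : 0 ≤ 5 / 48 - ε / 2 := by linarith
  have h9 := mul_le_mul_of_nonneg_left h4 h8
  nlinarith [mul_nonneg hε.le h7]

end Vale.Agent.P167Q
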