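import Vale.Agent.P167Q.XStm

/-! P167Q, one arm exponent: the integrated inequalities for one charge. -/

open Finset Relation Filter Topology MeasureTheory
open scoped Classical

namespace Vale.Agent.P167Q

namespace XFin1x

theorem ww0 : ww 0 = 1 := by
  rw [ww, add_zero, Real.cos_pi_div_three]
  norm_num

theorem ww_pos {θ : ℝ} (h : |θ| < Real.pi / 6) : 0 < ww θ := by
  obtain ⟨h1, h2⟩ := abs_lt.1 h
  have := Real.pi_pos
  exact mul_pos two_pos (Real.cos_pos_of_mem_Ioo ⟨by linarith, by linarith⟩)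

theorem exZ (T : Tri) (s : ℝ) :
    (ex fun ω => T.Z s 1 ω * (Set.univ : Set Cf).indicator 1 ω) = FF s T.J T.m₁ := by
  simp only [Tri.Z, FF, one_pow, mul_one, Set.indicator_univ, Pi.one_apply]

theorem b0 (T : Tri) (θ : ℝ) : T.b θ 0 = θ * be T.J T.m₁ := by
  simp only [Tri.b, add_zero, zero_mul]

end XFin1x

open XFin1x in
theorem iu1_pf (hx : X_bd) (hg : G_gff) (hu : I_up) : I_u1 := by
  intro θ p hp
  obtain ⟨A, hA⟩ := hg
  obtain ⟨C₁, h1⟩ := hA θ 0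
  obtain ⟨C₂, h2⟩ := hu A θ 0 p hp
  refine ⟨C₁ + C₂, fun m hm => ?_⟩
  filter_upwards [h1 m 4 hm le_rfl] with J ⟨ψ₀, ψ₁, ψ₂, ok, k1, _⟩
  have k2 := h2 _ ok Set.univ MeasurableSet.univ
  rw [ww0, abs_one, Real.one_rpow, exZ, b0, add_zero] at k2
  have i1 : Integrable (Tri.nn ⟨J, m, 4, ψ₀, ψ₁, ψ₂⟩ θ 0) perc := hx.int _ (hx.nb _ _)
  have k3 : ex (Tri.nn ⟨J, m, 4, ψ₀, ψ₁, ψ₂⟩ θ 0) ≤
      ex fun ω => |Tri.nn ⟨J, m, 4, ψ₀, ψ₁, ψ₂⟩ θ 0 ω| * (Set.univ : Set Cf).indicator 1 ω := by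
    simp only [Set.indicator_univ, Pi.one_apply, mul_one]
    exact integral_mono i1 i1.abs fun ω => le_abs_self _
  have k4 := k1.trans (k3.trans k2)
  refine le_of_mul_le_mul_left ?_ (Real.exp_pos (C₂ + θ * be J m))
  refine le_trans (le_of_eq ?_) k4
  rw [← Real.exp_add]
  congr 1
  ring

open XFin1x in
theorem il1_pf (hg : G_gff) (hl : I_lo) (hd : D_good) : I_l1 := by
  intro θ p hθ hp
  obtain ⟨A, hA⟩ := hg
  obtain ⟨C₁, h1⟩ := hA θ 0
  obtain ⟨C₂, h2⟩ := hl A θ 0 (Real.pi / 6 - |θ|) p (by linarith) hp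
    (by rw [add_zero]; exact ww_pos hθ) (by rw [ww0]; exact one_pos)
  refine ⟨C₁ + C₂, fun m hm => ?_⟩
  filter_upwards [h1 m 4 hm le_rfl] with J ⟨ψ₀, ψ₁, ψ₂, ok, _, k1⟩
  have k2 := h2 _ ok Set.univ MeasurableSet.univ fun ω _ => (hd A θ _ ok ω).1 hθ
  rw [ww0, Real.one_rpow, exZ, b0, add_zero] at k2
  simp only [Set.indicator_univ, Pi.one_apply, mul_one] at k2
  refine k2.trans ((mul_le_mul_of_nonneg_left k1 (Real.exp_pos _).le).trans (le_of_eq ?_))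
  rw [← Real.exp_add]
  congr 1
  ring

end Vale.Agent.P167Q
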