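import Vale.Agent.P167Q.XStm

open Finset Relation Filter Topology MeasureTheory
open scoped Classical BigOperators

namespace Vale.Agent.P167Q

namespace XGenx

def col (x : Sq) : Bool := decide (Even (x.1 + x.2))

theorem col_ed (v : Sq) (b i : Bool) : col (ed v b i) = b := by
  obtain ⟨x, y⟩ := v
  have e1 : x - 1 + (y - 1) = x + y - 1 - 1 := by ring
  have e2 : x + (y - 1) = x + y - 1 := by ring
  have e3 : x - 1 + y = x + y - 1 := by ring
  by_cases h : Even (x + y) <;> cases b <;> cases i <;>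
    simp only [col, ed, h, e1, e2, e3, Int.even_sub_one, decide_true, decide_false, if_true,
      if_false, Bool.false_eq_true, Bool.true_eq_false, not_true, not_false_iff]

theorem ed_bz {v z : Sq} {b i : Bool} {s : ℕ} (h : ed v b i ∈ bz z s) : v ∈ bz z (s + 1) := by
  rw [mem_bz] at h ⊢
  unfold ed at h
  split_ifs at h <;> push_cast <;> omega

def AA (g : ℕ) (c : Bool) (i : Sq × ℕ) : Set (Finset Sq) :=
  {S | S ⊆ bz i.1 (g * i.2 + 1) ∧ ∀ ω : Cf, (∀ v ∈ S, ω v = c) →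
    ∃ x ∈ bz i.1 i.2, ¬clus ω x ⊆ bz i.1 (g * i.2)}

def Evn (g : ℕ) (c : Bool) (I : Finset (Sq × ℕ)) (n : I → ℕ) : Set Cf :=
  {ω | ∃ S : (Σ i : I, Fin (n i)) → Finset Sq, (∀ k, S k ∈ AA g c k.1 ∧ ∀ v ∈ S k, ω v = c) ∧
    ∀ k k', k ≠ k' → Disjoint (S k) (S k')}

theorem path (ω ω' : Cf) (c : Bool) (z : Sq) (s : ℕ) (x₀ y : Sq) (hy : y ∉ bz z s)
    (h : ∀ v ∈ bz z (s + 1), ω v = c → ed v c false ∈ clus ω x₀ → ω' v = c) {x : Sq}
    (hp : ReflTransGen (Op ω) x y) : col x = c → x ∈ clus ω x₀ → ¬clus ω' x ⊆ bz z s := by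
  induction hp using ReflTransGen.head_induction_on with
  | refl => exact fun _ _ hs => hy (hs ReflTransGen.refl)
  | @head a b hab _ ih =>
    intro hc ha hs
    have hb : b ∈ clus ω x₀ := ReflTransGen.tail ha hab
    have haz : a ∈ bz z s := hs ReflTransGen.refl
    obtain ⟨v, i, e1, e2⟩ := hab
    have hv : ω v = c := by rw [← hc, e1, col_ed]
    have hv' : ω' v = c := by
      refine h v (ed_bz (e1 ▸ haz)) hv ?_
      cases i
      · rw [← hv, ← e1]; exact ha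
      · rw [← hv]; exact (show b = ed v (ω v) false from e2) ▸ hb
    have hop : Op ω' a b := ⟨v, i, by rw [e1, hv, hv'], by rw [e2, hv, hv']⟩
    exact ih (by rw [e2, col_ed, hv]) hb fun w hw => hs (ReflTransGen.head hop hw)

theorem fib {α β : Type} [Fintype β] (T : Finset α) (f : α → β) :
    ∃ n : β → ℕ, (∀ i, n i ≤ T.card) ∧ T.card = ∑ i, n i ∧
      ∃ e : (Σ i, Fin (n i)) → α, Function.Injective e ∧ ∀ k, e k ∈ T ∧ f (e k) = k.1 := by
  refine ⟨fun i => (T.filter fun a => f a = i).card, fun i => card_filter_le _ _,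
    card_eq_sum_card_fiberwise fun a _ => mem_coe.2 (mem_univ _),
    fun k => ((T.filter fun a => f a = k.1).equivFin.symm k.2).1, ?_,
    fun k => mem_filter.1 ((T.filter fun a => f a = k.1).equivFin.symm k.2).2⟩
  rintro ⟨i, j⟩ ⟨i', j'⟩ h
  have h1 := (mem_filter.1 ((T.filter fun a => f a = i).equivFin.symm j).2).2
  have h2 := (mem_filter.1 ((T.filter fun a => f a = i').equivFin.symm j').2).2
  have h3 : i = i' := h1.symm.trans ((congrArg f h).trans h2)
  subst h3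
  exact congrArg (Sigma.mk i)
    ((T.filter fun a => f a = i).equivFin.symm.injective (Subtype.ext h))

theorem pw {α : Type} {t : ℝ} (ht : 1 ≤ t) {T T₁ T₂ : Finset α} (h : T ⊆ T₁ ∪ T₂) :
    t ^ T.card ≤ (t ^ 2) ^ T₁.card + (t ^ 2) ^ T₂.card := by
  have ht0 : 0 ≤ t := by linarith
  refine le_trans (pow_le_pow_right₀ ht (le_trans (card_le_card h) (card_union_le _ _))) ?_
  rw [pow_add, ← pow_mul, ← pow_mul, mul_comm 2, mul_comm 2, pow_mul, pow_mul]
  nlinarith [sq_nonneg (t ^ T₁.card - t ^ T₂.card),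
    mul_nonneg (pow_nonneg ht0 T₁.card) (pow_nonneg ht0 T₂.card)]

theorem point (hb : P_bas) (g : ℕ) (c : Bool) (I : Finset (Sq × ℕ)) (ω : Cf) (T : Finset (Set Sq))
    (hT : ∀ C ∈ T, ∃ i : I, ∃ x ∈ bz i.1.1 i.1.2, C = clus ω x ∧ col x = c ∧
      ¬C ⊆ bz i.1.1 (g * i.1.2)) :
    ∃ n : I → ℕ, (∀ i, n i ≤ T.card) ∧ T.card = ∑ i, n i ∧ ω ∈ Evn g c I n := by
  choose f hf using fun C : T => hT C.1 C.2
  obtain ⟨n, h1, h2, e, he, h3⟩ := fib (univ : Finset T) f
  rw [card_univ, Fintype.card_coe] at h1 h2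
  refine ⟨n, h1, h2, fun k => (bz k.1.1.1 (g * k.1.1.2 + 1)).filter
    fun v => ω v = c ∧ ed v c false ∈ (e k).1, fun k => ⟨⟨filter_subset _ _, fun ω' h' => ?_⟩,
      fun v hv => (mem_filter.1 hv).2.1⟩, fun k k' hk => disjoint_left.2 fun v hv hv' => ?_⟩
  · obtain ⟨x, hx, e1, e2, e3⟩ := hf (e k)
    rw [(h3 k).2] at hx e3
    obtain ⟨y, hy, hy'⟩ := Set.not_subset.1 e3
    rw [e1] at hy
    exact ⟨x, hx, path ω ω' c _ _ x y hy'
      (fun v hv h4 h5 => h' v (mem_filter.2 ⟨hv, h4, e1 ▸ h5⟩)) hy e2 ReflTransGen.refl⟩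
  · obtain ⟨x, -, e1, -⟩ := hf (e k)
    obtain ⟨x', -, e1', -⟩ := hf (e k')
    have m1 := (mem_filter.1 hv).2.2
    have m2 := (mem_filter.1 hv').2.2
    rw [e1] at m1
    rw [e1'] at m2
    refine hk (he (Subtype.ext ?_))
    rw [e1, e1', ← hb.cleq ω _ _ m1, hb.cleq ω _ _ m2]

theorem meas (hl : H_loc) (g : ℕ) (c : Bool) (I : Finset (Sq × ℕ)) (n : I → ℕ) :
    MeasurableSet (Evn g c I n) := by
  have key : ∀ ω ω' : Cf, (∀ v ∈ I.biUnion fun i => bz i.1 (g * i.2 + 1), ω v = ω' v) →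
      ω ∈ Evn g c I n → ω' ∈ Evn g c I n := by
    rintro ω ω' h ⟨S, h1, h2⟩
    refine ⟨S, fun k => ⟨(h1 k).1, fun v hv => ?_⟩, h2⟩
    rw [← h v (mem_biUnion.2 ⟨k.1.1, k.1.2, (h1 k).1.1 hv⟩), (h1 k).2 v hv]
  exact ((hl Sq (I.biUnion fun i => bz i.1 (g * i.2 + 1))).2 _ fun ω ω' h =>
    propext ⟨key ω ω' h, key ω' ω fun v hv => (h v hv).symm⟩).1

theorem prob (hs : X_sh) (hk : K_bk) {g : ℕ} {ε : ℝ} (hε : ∀ u, 1 ≤ u → pa u (g * u) ≤ ε)
    (c : Bool) (I : Finset (Sq × ℕ)) (hI : ∀ i ∈ I, 1 ≤ i.2) (n : I → ℕ) :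
    perc.real (Evn g c I n) ≤ ∏ i, ε ^ n i := by
  have h := hk Sq (Σ i : I, Fin (n i)) (I.biUnion fun i => bz i.1 (g * i.2 + 1)) c
    (fun k => AA g c k.1) fun k S hS v hv => mem_biUnion.2 ⟨k.1.1, k.1.2, hS.1 hv⟩
  refine le_trans h (le_trans (prod_le_prod (g := fun _ => ε) (fun _ _ => measureReal_nonneg)
    fun k _ => ?_) (le_of_eq ?_))
  · refine le_trans ?_ (hε k.1.1.2 (hI _ k.1.2))
    rw [← hs.arm k.1.1.1, perc_eq]
    refine measureReal_mono ?_
    rintro ω ⟨S, hS, h'⟩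
    exact hS.2 ω h'
  · rw [Fintype.prod_sigma]
    simp

end XGenx

open XGenx in
theorem kgen_pf (hb : Base) (hs : X_sh) (hx : X_bd) (hk : K_bk) : K_gen := by
  intro t ε g ht _ htε hε W I hI
  haveI : IsProbabilityMeasure perc := fair_prob _
  have hε0 : 0 ≤ ε := le_trans measureReal_nonneg (hε 1 le_rfl)
  have ht0 : 0 ≤ t := by linarith
  obtain ⟨G, hG⟩ : ∃ G : Bool → Cf → ℝ, ∀ c ω, G c ω =
      ∑ n ∈ Fintype.piFinset fun _ : I => range (W.card + 1),
        (Evn g c I n).indicator (fun _ => ∏ i, (t ^ 2) ^ n i) ω := ⟨_, fun _ _ => rfl⟩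
  have hi : ∀ c (n : I → ℕ),
      Integrable ((Evn g c I n).indicator fun _ => ∏ i, (t ^ 2) ^ n i) perc :=
    fun c n => (integrable_const _).indicator (meas hb.loc g c I n)
  have hGi : ∀ c, Integrable (G c) perc := fun c => by
    rw [funext (hG c)]
    exact integrable_finset_sum _ fun n _ => hi c n
  have hGe : ∀ c, ∫ ω, G c ω ∂perc ≤ 2 ^ I.card := fun c => by
    simp only [hG]
    rw [integral_finset_sum _ fun n _ => hi c n]
    refine le_trans (sum_le_sum (g := fun n : I → ℕ => ∏ i, (t ^ 2 * ε) ^ n i) fun n _ => ?_) ?_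
    · rw [integral_indicator_const _ (meas hb.loc g c I n), smul_eq_mul]
      simp only [mul_pow, prod_mul_distrib]
      rw [mul_comm]
      exact mul_le_mul_of_nonneg_left (prob hs hk hε c I hI n) (by positivity)
    · rw [← prod_univ_sum (fun _ : I => range (W.card + 1)) fun _ j => (t ^ 2 * ε) ^ j]
      refine le_trans (prod_le_prod (g := fun _ => 2) (fun _ _ => by positivity) fun _ _ => ?_)
        (by simp)
      refine le_trans (sum_le_sum fun j _ => ?_) (sum_geometric_two_le (W.card + 1))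
      exact pow_le_pow_left₀ (by positivity) (by linarith [mul_nonneg (sq_nonneg t) hε0]) j
  have hp : ∀ c ω, (t ^ 2) ^ ((cls ω W).filter fun C : Set Sq => ∃ i : I, ∃ x ∈ bz i.1.1 i.1.2,
      C = clus ω x ∧ col x = c ∧ ¬C ⊆ bz i.1.1 (g * i.1.2)).card ≤ G c ω := fun c ω => by
    obtain ⟨n, h1, h2, h3⟩ := point hb.bas g c I ω _ fun C hC => (mem_filter.1 hC).2
    rw [hG, h2, ← prod_pow_eq_pow_sum]
    refine le_trans (le_of_eq ?_) (single_le_sum (a := n) (fun m _ =>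
      Set.indicator_nonneg (fun _ _ => by positivity) _) (Fintype.mem_piFinset.2 fun i =>
        mem_range.2 (Nat.lt_succ_of_le ((h1 i).trans ((card_filter_le _ _).trans card_image_le)))))
    rw [Set.indicator_of_mem h3]
  have hle : ∀ ω, t ^ kI g W I ω ≤ G true ω + G false ω := fun ω => by
    refine le_trans (pw ht fun C hC => ?_) (add_le_add (hp true ω) (hp false ω))
    obtain ⟨h1, i, hi, ⟨x, hx1, hx2⟩, h2⟩ := mem_filter.1 hC
    obtain ⟨w, -, rfl⟩ := mem_image.1 h1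
    have h3 := (hb.bas.cleq ω _ _ hx2).symm
    cases hc : col x
    · exact mem_union_right _ (mem_filter.2 ⟨h1, ⟨i, hi⟩, x, hx1, h3, hc, h2⟩)
    · exact mem_union_left _ (mem_filter.2 ⟨h1, ⟨i, hi⟩, x, hx1, h3, hc, h2⟩)
  refine le_trans (integral_mono (hx.int _ (hx.kI g W I fun k => t ^ k))
    ((hGi true).add (hGi false)) hle) ?_
  refine le_trans (le_of_eq (integral_add (hGi true) (hGi false))) ?_
  linarith [hGe true, hGe false]

end Vale.Agent.P167Q
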