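import Vale.Agent.P167Q.XStm

/-! P167Q, one arm exponent: changing the inner radius and gluing two arms. -/

open MeasureTheory
open scoped Classical

namespace Vale.Agent.P167Q

namespace XGluex

theorem le1 (s : Set Cf) : perc.real s ≤ 1 := by
  rw [perc_eq]
  exact measureReal_le_one

theorem pc0 (c : Bool) (a b : ℕ) : 0 ≤ pc c a b := measureReal_nonneg

theorem pc1 (c : Bool) (a b : ℕ) : pc c a b ≤ 1 := le1 _

theorem pa0 (a b : ℕ) : 0 ≤ pa a b := measureReal_nonneg

theorem pa1 (a b : ℕ) : pa a b ≤ 1 := le1 _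

end XGluex

open XGluex

theorem qin_pf (hs : Q_sub) (hr : Q_ring) (hw : Q_rsw) : Q_in := by
  intro g
  obtain ⟨c, hc, hR⟩ := hr
  obtain ⟨c', hc', hW⟩ := hw.1 (6 * g + 12)
  refine ⟨min 1 c * c', by positivity, fun a ha a' ha' d => ?_⟩
  have e : (6 * g + 12) * a = 6 * (g * a) + 12 * a := by ring
  have h0 := pc0 true a' d
  have h1 := hW a ha
  have m1 := min_le_left 1 c
  have m2 := min_le_right 1 c
  have m0 : 0 ≤ min 1 c := by positivity
  rcases lt_or_ge d (6 * (g * a + a + 1)) with h | h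
  · have h2 := hs.mc true a a ((6 * g + 12) * a) d le_rfl (by omega)
    have h3 : min 1 c * c' * pc true a' d ≤ 1 * c' * 1 := by
      gcongr
      exact pc1 _ _ _
    linarith
  · have h2 := hR a (g * a + a + 1) d (by omega) (by omega) h
    have h3 := hs.mc true a a ((6 * g + 12) * a) (6 * (g * a + a + 1)) le_rfl (by omega)
    have h4 := hs.mc true a' (g * a + a + 1 - 1) d d (by omega) le_rfl
    refine le_trans ?_ h2
    rw [mul_assoc]
    have h5 := h1.trans h3
    gcongr
    exact pc0 _ _ _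

theorem qglue_pf (hs : Q_sub) (hk : K_sym) (hr : Q_ring) (hi : Q_in) : Q_glue := by
  obtain ⟨c, hc, hR⟩ := hr
  obtain ⟨c1, hc1, H1⟩ := hi 401
  obtain ⟨c2, hc2, H2⟩ := hi 2
  obtain ⟨c3, hc3, H3⟩ := hi 26
  refine ⟨5 / c1 + 5 / c2 + 25 / (c * c2 * c3), fun a k k' d ha hk1 hk2 => ?_⟩
  have p0 := pc0 true a d
  have q0 := pa0 a k
  have q1 := pa1 a k
  have r0 := pa0 k' d
  have r1 := pa1 k' d
  have s1 := (hk true a k).2
  have s2 := (hk true k' d).2
  have t1 : 0 ≤ 5 / c1 * pc true a d := by positivity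
  have t2 : 0 ≤ 5 / c2 * pc true a d := by positivity
  have t3 : 0 ≤ 25 / (c * c2 * c3) * pc true a d := by positivity
  have u2 := H2 a ha (a + 1) (by omega) k
  rw [add_mul, add_mul]
  rcases le_or_gt k (100 * a) with h | h
  · have u1 := H1 a ha (k' + 1) (by omega) d
    have v1 : pa a k * pa k' d ≤ pa k' d := mul_le_of_le_one_left r0 q1
    have v2 : pa k' d ≤ 5 / c1 * pc true a d := by
      rw [div_mul_eq_mul_div, le_div_iff₀ hc1]
      nlinarith
    linarith
  rcases le_or_gt d k with h' | h'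
  · have u3 := hs.mc true a a k d le_rfl h'
    have v1 : pa a k * pa k' d ≤ pa a k := mul_le_of_le_one_right q0 r1
    have v2 : pa a k ≤ 5 / c2 * pc true a d := by
      rw [div_mul_eq_mul_div, le_div_iff₀ hc2]
      nlinarith
    linarith
  · have u3 := hR a (k / 6) d (by omega) (by omega) (by omega)
    have u4 := hs.mc true a a k (6 * (k / 6)) le_rfl (by omega)
    have u5 := H3 (k / 6 - 1) (by omega) (k' + 1) (by omega) d
    have w1 : c2 * pa a k ≤ 5 * pc true a (6 * (k / 6)) := by nlinarith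
    have w2 : c3 * pa k' d ≤ 5 * pc true (k / 6 - 1) d := by nlinarith
    have w3 := mul_le_mul w1 w2 (by positivity) (by have := pc0 true a (6 * (k / 6)); positivity)
    have w4 := mul_le_mul_of_nonneg_left w3 hc.le
    have v : pa a k * pa k' d ≤ 25 / (c * c2 * c3) * pc true a d := by
      rw [div_mul_eq_mul_div, le_div_iff₀ (by positivity)]
      linarith
    linarith

end Vale.Agent.P167Q
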