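import Vale.Agent.P167Q.XStm

/-! P167Q: independence of local functions with disjoint supports. -/

open Finset Filter Topology MeasureTheory
open scoped Classical BigOperators

namespace Vale.Agent.P167Q

namespace XIndx

theorem lc_mono {ι : Type} {V U : Finset ι} {G : (ι → Bool) → ℝ} (h : Lc V G) (hVU : V ⊆ U) :
    Lc U G := fun ω ω' k => h ω ω' fun i hi => k i (hVU hi)

theorem two (h : H_loc) {ι : Type} (V W : Finset ι) (F G : (ι → Bool) → ℝ) (hF : Lc V F)
    (hG : Lc W G) (hd : Disjoint V W) :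
    ∫ ω, F ω * G ω ∂fair ι = (∫ ω, F ω ∂fair ι) * ∫ ω, G ω ∂fair ι := by
  have hF' : Lc (V ∪ W) F := lc_mono hF subset_union_left
  have hG' : Lc (V ∪ W) G := lc_mono hG subset_union_right
  have hP : Lc (V ∪ W) fun ω => F ω * G ω := fun ω ω' k => by
    show F ω * G ω = F ω' * G ω'
    rw [hF' ω ω' k, hG' ω ω' k]
  rw [((h ι (V ∪ W)).1 F hF').2, ((h ι (V ∪ W)).1 G hG').2, ((h ι (V ∪ W)).1 _ hP).2]
  refine ind_pi (fun i : (V ∪ W : Finset ι) => i.1 ∈ V) _ _ (fun η η' k => ?_)
    (fun η η' k => ?_)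
  · refine hF _ _ fun i hi => ?_
    unfold xt
    rw [dif_pos (mem_union_left W hi), dif_pos (mem_union_left W hi)]
    exact k _ hi
  · refine hG _ _ fun i hi => ?_
    unfold xt
    rw [dif_pos (mem_union_right V hi), dif_pos (mem_union_right V hi)]
    exact k _ (disjoint_right.1 hd hi)

theorem many (h : H_loc) {κ ι : Type} (W : ι → Finset κ) (G : ι → (κ → Bool) → ℝ)
    (s : Finset ι) (hG : ∀ i ∈ s, Lc (W i) (G i))
    (hd : ∀ i ∈ s, ∀ j ∈ s, i ≠ j → Disjoint (W i) (W j)) :
    ∫ ω, ∏ i ∈ s, G i ω ∂fair κ = ∏ i ∈ s, ∫ ω, G i ω ∂fair κ := by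
  induction s using Finset.induction_on with
  | empty =>
    have h1 : Lc (∅ : Finset κ) fun _ => (1 : ℝ) := fun _ _ _ => rfl
    simp only [prod_empty]
    rw [((h κ ∅).1 _ h1).2]
    simp
  | insert a s ha ih =>
    have hP : Lc (s.biUnion W) fun ω => ∏ i ∈ s, G i ω := fun ω ω' k =>
      prod_congr rfl fun i hi => hG i (mem_insert_of_mem hi) ω ω' fun v hv =>
        k v (mem_biUnion.2 ⟨i, hi, hv⟩)
    have hdis : Disjoint (W a) (s.biUnion W) := by
      rw [disjoint_biUnion_right]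
      intro j hj
      exact hd a (mem_insert_self a s) j (mem_insert_of_mem hj) fun e => ha (e ▸ hj)
    simp only [prod_insert ha]
    rw [two h (W a) (s.biUnion W) (G a) _ (hG a (mem_insert_self a s)) hP hdis,
      ih (fun i hi => hG i (mem_insert_of_mem hi))
        fun i hi j hj => hd i (mem_insert_of_mem hi) j (mem_insert_of_mem hj)]

end XIndx

theorem xind_pf (hb : Base) : X_ind := fun _ s W G hG hd => XIndx.many hb.loc W G s hG hd

end Vale.Agent.P167Q
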