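import Vale.Agent.P167Q.XStm

open Finset Filter Topology MeasureTheory
open scoped Classical

namespace Vale.Agent.P167Q

namespace XIupx

theorem prob : IsProbabilityMeasure perc := by
  rw [perc_eq]
  exact fair_prob _

theorem memLp {G : Cf → ℝ} (hG : Bd G) (r : ENNReal) : MemLp G r perc := by
  haveI := prob
  obtain ⟨h1, M, hM⟩ := hG
  exact MemLp.of_bound h1.aestronglyMeasurable M (Eventually.of_forall hM)

theorem hold {p q : ℝ} (hpq : p.HolderConjugate q) {f g : Cf → ℝ} (hf : Bd f) (hg : Bd g)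
    (f0 : ∀ ω, 0 ≤ f ω) (g0 : ∀ ω, 0 ≤ g ω) :
    (ex fun ω => f ω * g ω) ≤ (ex fun ω => f ω ^ p) ^ (1 / p) * (ex fun ω => g ω ^ q) ^ (1 / q) :=
  integral_mul_le_Lp_mul_Lq_of_nonneg hpq (Eventually.of_forall f0) (Eventually.of_forall g0)
    (memLp hf _) (memLp hg _)

theorem bdZ (hx : X_bd) (T : Tri) (s t : ℝ) : Bd (T.Z s t) :=
  hx.mul _ _ (hx.mid (3 * 2 ^ T.J) (2 ^ (T.J + T.m₁) - 1) fun n => s ^ n)
    (hx.mid (3 * 2 ^ T.J₁) (2 ^ (T.J₁ + T.m₂) - 1) fun n => t ^ n)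

theorem powZ (T : Tri) {s t p : ℝ} (hs : 0 ≤ s) (ht : 0 ≤ t) (hp : 0 < p) (B : Set Cf) (ω : Cf) :
    (T.Z s t ω * B.indicator 1 ω) ^ p = T.Z (s ^ p) (t ^ p) ω * B.indicator 1 ω := by
  by_cases h : ω ∈ B
  · simp only [Set.indicator_of_mem h, Pi.one_apply, mul_one, Tri.Z]
    rw [Real.mul_rpow (pow_nonneg hs _) (pow_nonneg ht _), ← Real.rpow_natCast s,
      ← Real.rpow_natCast t, ← Real.rpow_mul hs, ← Real.rpow_mul ht, mul_comm _ p, mul_comm _ p,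
      Real.rpow_mul hs, Real.rpow_mul ht, Real.rpow_natCast, Real.rpow_natCast]
  · simp only [Set.indicator_of_notMem h, mul_zero]
    exact Real.zero_rpow hp.ne'

theorem ind0 (B : Set Cf) (ω : Cf) : (0 : ℝ) ≤ B.indicator 1 ω :=
  Set.indicator_nonneg (fun _ _ => zero_le_one) ω

theorem core (hx : X_bd) {p q b C : ℝ} (hpq : p.HolderConjugate q) {n f H : Cf → ℝ}
    (hn : Bd n) (hf : Bd f) (hH : Bd H) (f0 : ∀ ω, 0 ≤ f ω)
    (hle : ∀ᵐ ω ∂perc, n ω ≤ Real.exp b * (f ω * Real.exp (H ω / q)))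
    (hC : (ex fun ω => Real.exp (H ω)) ≤ Real.exp C) :
    ex n ≤ Real.exp (C / q + b) * (ex fun ω => f ω ^ p) ^ (1 / p) := by
  have hq : 0 < q := hpq.symm.pos
  have hg : Bd fun ω => Real.exp (H ω / q) :=
    hx.cont H (fun x => Real.exp (x / q)) hH (by fun_prop)
  have h1 : ex n ≤ Real.exp b * ex fun ω => f ω * Real.exp (H ω / q) := by
    unfold ex
    rw [← integral_const_mul]
    exact integral_mono_ae (hx.int _ hn) ((hx.int _ (hx.mul _ _ hf hg)).const_mul _) hle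
  have h2 := hold hpq hf hg f0 fun ω => (Real.exp_pos _).le
  have h3 : (fun ω => Real.exp (H ω / q) ^ q) = fun ω => Real.exp (H ω) := by
    funext ω
    rw [← Real.exp_mul, div_mul_cancel₀ _ hq.ne']
  rw [h3] at h2
  have h4 : (ex fun ω => Real.exp (H ω)) ^ (1 / q) ≤ Real.exp (C / q) := by
    have h5 : 0 ≤ ex fun ω => Real.exp (H ω) := integral_nonneg fun ω => (Real.exp_pos _).le
    refine (Real.rpow_le_rpow h5 hC (by positivity)).trans_eq ?_
    rw [← Real.exp_mul, mul_one_div]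
  have h6 : 0 ≤ (ex fun ω => f ω ^ p) ^ (1 / p) :=
    Real.rpow_nonneg (integral_nonneg fun ω => Real.rpow_nonneg (f0 ω) _) _
  calc ex n ≤ Real.exp b * ex fun ω => f ω * Real.exp (H ω / q) := h1
    _ ≤ Real.exp b * ((ex fun ω => f ω ^ p) ^ (1 / p) * Real.exp (C / q)) :=
        mul_le_mul_of_nonneg_left (h2.trans (mul_le_mul_of_nonneg_left h4 h6)) (Real.exp_pos _).le
    _ = Real.exp (C / q + b) * (ex fun ω => f ω ^ p) ^ (1 / p) := by
        rw [Real.exp_add]; ring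

end XIupx

open XIupx in
theorem iup_pf (hb : Base) (hx : X_bd) (ht : C_tri) (hu : D_up) : I_up := by
  intro A θ₁ θ₂ p hp
  have hpq : p.HolderConjugate (Real.conjExponent p) := Real.HolderConjugate.conjExponent hp
  generalize Real.conjExponent p = q at hpq
  have hq : 0 < q := hpq.symm.pos
  obtain ⟨c, hc, hu⟩ := hu A θ₁ θ₂
  obtain ⟨C, hC⟩ := ht A θ₁ θ₂ q (q * c) (by positivity)
  refine ⟨C / q, fun T hT B hB => ?_⟩
  obtain ⟨hH, hC⟩ := hC T hT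
  have hn : Bd fun ω => |T.nn θ₁ θ₂ ω| * B.indicator 1 ω :=
    hx.mul _ _ (hx.cont _ (fun x => |x|) (hx.nb (T.ch θ₁ θ₂) T.R) continuous_abs) (hx.ind B hB)
  have hf : Bd fun ω => T.Z |ww (θ₁ + θ₂)| |ww θ₂| ω * B.indicator 1 ω :=
    hx.mul _ _ (bdZ hx T _ _) (hx.ind B hB)
  have f0 : ∀ ω, 0 ≤ T.Z |ww (θ₁ + θ₂)| |ww θ₂| ω * B.indicator 1 ω := fun ω =>
    mul_nonneg (mul_nonneg (pow_nonneg (abs_nonneg _) _) (pow_nonneg (abs_nonneg _) _)) (ind0 B ω)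
  have key := core hx (b := T.b θ₁ θ₂) hpq hn hf hH f0 (by
    filter_upwards [hb.fin] with ω hω
    have h1 := hu T hT ω hω
    have h2 : Real.exp (-(Real.sqrt 3 * T.Y θ₁ θ₂ ω) + c * T.V ω) = Real.exp (T.b θ₁ θ₂) *
        Real.exp ((q * (-(Real.sqrt 3 * T.Y θ₁ θ₂ ω) - T.b θ₁ θ₂) + q * c * T.V ω) / q) := by
      rw [← Real.exp_add]
      refine congrArg Real.exp ?_
      field_simp
      ring
    rw [h2] at h1
    refine (mul_le_mul_of_nonneg_right h1 (ind0 B ω)).trans_eq ?_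
    ring) hC
  have h3 : (fun ω => (T.Z |ww (θ₁ + θ₂)| |ww θ₂| ω * B.indicator 1 ω) ^ p) =
      fun ω => T.Z (|ww (θ₁ + θ₂)| ^ p) (|ww θ₂| ^ p) ω * B.indicator 1 ω :=
    funext fun ω => powZ T (abs_nonneg _) (abs_nonneg _) (by linarith) B ω
  rw [h3] at key
  exact key

end Vale.Agent.P167Q
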