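import Vale.Agent.P167Q.XStm

/-! P167Q, one arm exponent: exponential moments of the number of large clusters. -/

open Finset MeasureTheory
open scoped Classical

namespace Vale.Agent.P167Q

namespace XMomx

theorem card_bz (z : Sq) (s : ℕ) : (bz z s).card = (2 * s + 1) ^ 2 := by
  have e : ∀ a : ℤ, (Icc (a - s) (a + s)).card = 2 * s + 1 := fun a => by
    rw [Int.card_Icc, show a + s + 1 - (a - s) = ((2 * s + 1 : ℕ) : ℤ) by push_cast; ring,
      Int.toNat_natCast]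
  rw [bz, card_product, e, e, pow_two]

theorem kb_le (s : ℕ) (z : Sq) (ω : Cf) : kb s z ω ≤ (2 * (3 * s) + 1) ^ 2 :=
  (card_filter_le _ _).trans (card_image_le.trans (card_bz z _).le)

theorem exp_le (t : ℝ) {k n : ℕ} (h : k ≤ n) : Real.exp (t * k) ≤ Real.exp |t| ^ n := by
  rw [← Real.exp_nat_mul, mul_comm (n : ℝ)]
  refine Real.exp_le_exp.2 ((mul_le_mul_of_nonneg_right (le_abs_self t) (Nat.cast_nonneg k)).trans ?_)
  exact mul_le_mul_of_nonneg_left (Nat.cast_le.2 h) (abs_nonneg t)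

end XMomx

theorem kmom_pf (ht : K_tile) (hx : X_bd) (ha : K_arm) (hg : K_gen) : K_mom := by
  intro t
  have : IsProbabilityMeasure perc := perc_eq ▸ fair_prob (ℤ × ℤ)
  have l1 : 1 ≤ Real.exp |t| := Real.one_le_exp (abs_nonneg t)
  have l0 : 0 < Real.exp |t| := Real.exp_pos _
  obtain ⟨g, g1, hga⟩ := ha (1 / (4 * Real.exp |t| ^ 2)) (by positivity)
  obtain ⟨n₀, s₀, hI⟩ := ht g g1
  refine ⟨2 * 2 ^ n₀ + Real.exp |t| ^ (2 * (3 * s₀) + 1) ^ 2, fun s z => ?_⟩
  have i0 : Integrable (fun ω => Real.exp (t * kb s z ω)) perc :=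
    hx.int _ (hx.kb s z fun k => Real.exp (t * k))
  by_cases hs : s₀ ≤ s
  · obtain ⟨I, I1, I2, I3⟩ := hI s hs z
    have k1 := hg (Real.exp |t|) _ g l1 g1 (le_of_eq (by field_simp)) hga (bz z (3 * s)) I I2
    have k2 : (ex fun ω => Real.exp (t * kb s z ω)) ≤
        ex fun ω => Real.exp |t| ^ kI g (bz z (3 * s)) I ω := by
      refine integral_mono i0 (hx.int _ (hx.kI g _ I fun k => Real.exp |t| ^ k)) fun ω => ?_
      refine XMomx.exp_le t (card_le_card fun C hC => ?_)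
      obtain ⟨c1, c2⟩ := mem_filter.1 hC
      refine mem_filter.2 ⟨c1, I3 C ?_ c2⟩
      obtain ⟨x, x1, rfl⟩ := mem_image.1 c1
      exact ⟨x, x1, Relation.ReflTransGen.refl⟩
    have k3 : (2 : ℝ) ^ I.card ≤ 2 ^ n₀ := pow_le_pow_right₀ one_le_two I1
    have k4 : 0 ≤ Real.exp |t| ^ (2 * (3 * s₀) + 1) ^ 2 := by positivity
    linarith
  · have k2 : (ex fun ω => Real.exp (t * kb s z ω)) ≤
        ∫ _ω, Real.exp |t| ^ (2 * (3 * s₀) + 1) ^ 2 ∂perc :=
      integral_mono i0 (integrable_const _) fun ω => XMomx.exp_le t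
        ((XMomx.kb_le s z ω).trans (Nat.pow_le_pow_left (by omega) 2))
    rw [integral_const, probReal_univ, one_smul] at k2
    have k4 : (0 : ℝ) ≤ 2 * 2 ^ n₀ := by positivity
    linarith

end Vale.Agent.P167Q
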