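import Vale.Agent.P167Q.XStm

/-! P167Q: exponential moment of one centred small variable. -/

open Finset Relation Filter Topology MeasureTheory
open scoped Classical

namespace Vale.Agent.P167Q

namespace XOnex

theorem exp_le (z : ℝ) : Real.exp z ≤ 1 + z + z ^ 2 * Real.exp |z| := by
  have h0 := Real.exp_pos z
  have h1 : Real.exp z - 1 ≤ z * Real.exp z := by
    have a1 := mul_le_mul_of_nonneg_right (Real.add_one_le_exp (-z)) h0.le
    rw [← Real.exp_add, neg_add_cancel, Real.exp_zero] at a1
    linarith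
  rcases le_total 0 z with h | h
  · rw [abs_of_nonneg h]
    nlinarith [mul_le_mul_of_nonneg_left h1 h]
  · have a1 := Real.add_one_le_exp z
    have a2 := Real.one_le_exp (abs_nonneg z)
    nlinarith [mul_le_mul_of_nonneg_left a2 (sq_nonneg z)]

theorem pt {z x ε T : ℝ} (hx : 0 ≤ x) (hε : 0 ≤ ε) (hT : ε ≤ T) (hz : |z| ≤ ε * x) :
    Real.exp z ≤ 1 + z + ε ^ 2 * Real.exp ((T + 2) * x) := by
  have h1 : z ^ 2 ≤ ε ^ 2 * Real.exp x ^ 2 := by
    rw [← sq_abs, ← mul_pow]
    refine pow_le_pow_left₀ (abs_nonneg _) (hz.trans (mul_le_mul_of_nonneg_left ?_ hε)) 2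
    linarith [Real.add_one_le_exp x]
  have h2 : Real.exp |z| ≤ Real.exp (T * x) :=
    Real.exp_le_exp.2 (hz.trans (mul_le_mul_of_nonneg_right hT hx))
  have h3 : Real.exp ((T + 2) * x) = Real.exp x ^ 2 * Real.exp (T * x) := by
    rw [← Real.exp_nat_mul, ← Real.exp_add]
    congr 1
    push_cast
    ring
  have h4 := mul_le_mul h1 h2 (Real.exp_pos _).le (by positivity)
  have h5 := exp_le z
  rw [h3, ← mul_assoc]
  linarith

end XOnex

open XOnex in
theorem cone_pf (hx : X_bd) : C_one := by
  intro T B hT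
  have : IsProbabilityMeasure perc := fair_prob _
  refine ⟨Real.exp ((T + 2) * |B|) * |B|, by positivity, fun W K ε hW hK hε hεT hWK hK0 hB => ?_⟩
  have iW := hx.int W hW
  have iE : Integrable (fun ω => Real.exp ((T + 2) * K ω)) perc :=
    hx.int _ (hx.cont K (fun y => Real.exp ((T + 2) * y)) hK (by fun_prop))
  have iZ : Integrable (fun ω => Real.exp (W ω - ex W)) perc :=
    hx.int _ (hx.cont W (fun y => Real.exp (y - ex W)) hW (by fun_prop))
  have hB' : ∫ ω, Real.exp ((T + 2) * K ω) ∂perc ≤ |B| := hB.trans (le_abs_self B)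
  have h1 : |ex W| ≤ ε * |B| := by
    refine (norm_integral_le_of_norm_le (f := W) (iE.const_mul ε)
      (ae_of_all _ fun ω => ?_)).trans ?_
    · refine (hWK ω).trans (mul_le_mul_of_nonneg_left ?_ hε)
      nlinarith [Real.add_one_le_exp ((T + 2) * K ω), hK0 ω, mul_nonneg hT (hK0 ω)]
    · rw [integral_const_mul]
      exact mul_le_mul_of_nonneg_left hB' hε
  have i1 : Integrable (fun ω => W ω - ex W) perc := iW.sub (integrable_const _)
  have i2 : Integrable (fun ω => 1 + (W ω - ex W)) perc := (integrable_const _).add i1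
  have i3 := iE.const_mul (ε ^ 2 * Real.exp ((T + 2) * |B|))
  have h2 := integral_mono iZ (i2.add i3) fun ω => by
    have a1 := pt (z := W ω - ex W) (add_nonneg (abs_nonneg B) (hK0 ω)) hε hεT
      ((abs_sub _ _).trans (by linarith [hWK ω]))
    rw [mul_add, Real.exp_add, ← mul_assoc] at a1
    exact a1
  simp only [Pi.add_apply] at h2
  rw [integral_add i2 i3, integral_add (integrable_const _) i1,
    integral_sub iW (integrable_const _), integral_const_mul] at h2
  simp only [integral_const, probReal_univ, one_smul] at h2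
  have h3 := mul_le_mul_of_nonneg_left hB'
    (show 0 ≤ ε ^ 2 * Real.exp ((T + 2) * |B|) by positivity)
  have h4 := Real.add_one_le_exp (Real.exp ((T + 2) * |B|) * |B| * ε ^ 2)
  unfold ex at h2 ⊢
  linarith

end Vale.Agent.P167Q
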