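import Vale.Agent.P167Q.XStm

/-! Elementary properties of the generating function of the number of loops. -/

open Finset Relation Filter Topology MeasureTheory
open scoped Classical BigOperators

namespace Vale.Agent.P167Q

namespace XR0x

theorem prob : IsProbabilityMeasure perc := fair_prob (ℤ × ℤ)

theorem ex_ind {B : Set Cf} (hB : MeasurableSet B) : ex (B.indicator 1) = perc.real B :=
  integral_indicator_one hB

end XR0x

theorem r0_pf (hb : Base) (hq : X_geo) (hd : X_dep) (hx : X_bd) : R_0 := by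
  have := XR0x.prob
  have hi : ∀ (t : ℝ) (J m : ℕ), Integrable (fun ω => t ^ N1 J m ω) perc := fun t J m =>
    hx.int _ (hx.mid _ _ fun k => t ^ k)
  refine ⟨fun s t J m hs hst => ⟨?_, ?_⟩, fun J m => ?_, fun t J m ht => ⟨?_, ?_⟩,
    fun J m => ?_, fun J m => ?_⟩
  · exact integral_nonneg fun ω => pow_nonneg hs _
  · exact integral_mono (hi s J m) (hi t J m) fun ω => pow_le_pow_left₀ hs hst _
  · simp [FF, ex]
  · exact measureReal_nonneg
  · have hm : MeasurableSet {ω | ¬NoArm (3 * 2 ^ J) (2 ^ (J + m) - 1) ω} :=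
      ((hb.loc _ _).2 _ (hd.arm0 _ _)).1
    rw [pp, pa, ← XR0x.ex_ind hm]
    refine integral_mono (hx.int _ (hx.ind _ hm)) (hi t J m) fun ω => ?_
    by_cases h : ω ∈ {ω | ¬NoArm (3 * 2 ^ J) (2 ^ (J + m) - 1) ω}
    · rw [Set.indicator_of_mem h]
      show (1 : ℝ) ≤ t ^ N1 J m ω
      rw [N1, hq.zero _ _ ω h, pow_zero]
    · rw [Set.indicator_of_notMem h]
      exact pow_nonneg ht _
  · refine mul_nonneg (Real.sqrt_nonneg _) (sub_nonneg.2 ?_)
    refine integral_mono (hx.int _ (hx.ns _ _ fun k => (k : ℝ)))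
      (hx.int _ (hx.ns _ _ fun k => (k : ℝ))) fun ω => ?_
    exact Nat.cast_le.2 (hq.nsm _ _ 0 ω (Nat.pow_le_pow_right (by norm_num) (Nat.le_add_right J m)))
  · have h1 : 1 ≤ 3 * 2 ^ J := Nat.succ_le_of_lt (by positivity)
    have hl : Le (box (2 ^ (J + m) - 1 + 1) \ box (3 * 2 ^ J - 1)) {ω : Cf | N1 J m ω = 0} := by
      intro ω ω' h
      show (N1 J m ω = 0) = (N1 J m ω' = 0)
      rw [N1, N1, hd.mid _ _ h1 ω ω' h]
    have hm : MeasurableSet {ω : Cf | N1 J m ω = 0} := ((hb.loc _ _).2 _ hl).1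
    rw [← XR0x.ex_ind hm, FF]
    congr 1
    funext ω
    by_cases h : N1 J m ω = 0
    · rw [Set.indicator_of_mem (show ω ∈ {ω : Cf | N1 J m ω = 0} from h), h, pow_zero]
      rfl
    · rw [Set.indicator_of_notMem (show ω ∉ {ω : Cf | N1 J m ω = 0} from h), zero_pow h]

end Vale.Agent.P167Q
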