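import Vale.Agent.P167Q.XStm
import Vale.Agent.P167Q.HCir
import Vale.Agent.P167Q.HDet

/-! P167Q: arms between comparable scales have positive probability. -/

open Finset Filter Topology MeasureTheory
open scoped Classical BigOperators

namespace Vale.Agent.P167Q

open Vale.Agent.P152 (Vx Site v6 src tgt dir)
open Vale.Agent.P145.Rs (HC rc rc_fin)

namespace XRswx

/-- the black square of a vertex -/
def bq (u : Site) : Sq := (u.1 + u.2, u.1 - u.2)

theorem ed_bq (m : Vx) :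
    ed (v6 m) true false = bq (src m) ∧ ed (v6 m) true true = bq (tgt m) := by
  obtain ⟨⟨a, b⟩, s⟩ := m
  cases s
  · have h : ¬Even ((v6 ((a, b), false)).1 + (v6 ((a, b), false)).2) := by
      rw [Int.even_iff]
      simp [v6]
      omega
    unfold ed
    simp only [h, decide_false]
    simp [v6, bq, src, tgt, dir]
    omega
  · have h : Even ((v6 ((a, b), true)).1 + (v6 ((a, b), true)).2) := by
      rw [Int.even_iff]
      simp [v6]
      omega
    unfold ed
    simp only [h, decide_true]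
    simp [v6, bq, src, tgt, dir]
    omega

theorem op_of {ω : Cf} {x y : Site} (h : e2 (fun m => ω (v6 m)) x y) : Op ω (bq x) (bq y) := by
  obtain ⟨m, hm, k⟩ := h
  have hm' : ω (v6 m) = true := hm
  rcases k with ⟨rfl, rfl⟩ | ⟨rfl, rfl⟩
  · exact ⟨v6 m, false, by rw [hm', (ed_bq m).1], by rw [hm', Bool.not_false, (ed_bq m).2]⟩
  · exact ⟨v6 m, true, by rw [hm', (ed_bq m).2], by rw [hm', Bool.not_true, (ed_bq m).1]⟩

theorem clus_of {ω : Cf} {S : Set Site} {x y : Site}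
    (h : P153.Conn (e2 fun m => ω (v6 m)) S x y) : bq y ∈ clus ω (bq x) := by
  induction h with
  | refl => exact Relation.ReflTransGen.refl
  | tail _ k ih => exact Relation.ReflTransGen.tail ih (op_of k.2.1)

theorem sub_ba {g a : ℕ} (ha : 144 ≤ a) {ω : Cf}
    (h : (fun m => ω (v6 m)) ∈ HC e2 0 (((3 * g + 1 : ℕ) : ℤ) * ((a / 2 : ℕ) : ℤ)) 0
      ((a / 2 : ℕ) : ℤ)) : ω ∈ BA true a (g * a) := by
  obtain ⟨x, hx, y, hy, k1, k2⟩ := h
  have k3 := P153.RSW.cn_mem k2 k1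
  have hx' : x.1 = 0 := hx
  have hy' : y.1 = ((3 * g + 1 : ℕ) : ℤ) * ((a / 2 : ℕ) : ℤ) := hy
  have h1 := k1.2.2
  have h2 := k3.2.2.1
  refine ⟨bq x, mem_box.2 (by simp only [bq]; omega), ?_, fun k => ?_⟩
  · rw [decide_eq_true_eq, Int.even_iff]
    simp only [bq]
    omega
  · have h3 := (mem_box.1 (Finset.mem_coe.1 (k (clus_of k2)))).2.1
    have h4 : g * a ≤ g * (3 * (a / 2)) := Nat.mul_le_mul_left g (by omega)
    have h5 : g * a < (3 * g + 1) * (a / 2) := by
      have : (3 * g + 1) * (a / 2) = g * (3 * (a / 2)) + a / 2 := by ring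
      omega
    have h6 : ((g * a : ℕ) : ℤ) < ((3 * g + 1 : ℕ) : ℤ) * ((a / 2 : ℕ) : ℤ) := by
      exact_mod_cast h5
    simp only [bq] at h3
    omega

theorem diag {ω : Cf} {b : ℕ} (h : ∀ v ∈ box (b + 1), ω v = true) (k : ℕ) (hk : k ≤ b + 1) :
    ((k : ℤ), (k : ℤ)) ∈ clus ω (0, 0) := by
  induction k with
  | zero => exact Relation.ReflTransGen.refl
  | succ k ih =>
    have h1 := h (((k + 1 : ℕ) : ℤ), ((k + 1 : ℕ) : ℤ)) (mem_box.2 (by dsimp only; omega))
    refine Relation.ReflTransGen.tail (ih (by omega))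
      ⟨(((k + 1 : ℕ) : ℤ), ((k + 1 : ℕ) : ℤ)), false, ?_, ?_⟩ <;> rw [h1] <;> simp [ed]

theorem pos_all (hl : H_loc) {ι : Type} (W : Finset ι) :
    0 < (fair ι).real {ω : ι → Bool | ∀ v ∈ W, ω v = true} := by
  have hW : Le W {ω : ι → Bool | ∀ v ∈ W, ω v = true} := fun ω ω' k =>
    propext (forall_congr' fun v => forall_congr' fun hv => by rw [k v hv])
  rw [((hl _ _).2 _ hW).2]
  refine Finset.expect_pos' (fun η _ => by split_ifs <;> norm_num)
    ⟨fun _ => true, Finset.mem_univ _, ?_⟩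
  have h : xt W (fun _ => true) ∈ {ω : ι → Bool | ∀ v ∈ W, ω v = true} := fun v hv => by
    simp only [xt, dif_pos hv]
  rw [if_pos h]
  exact one_pos

end XRswx

open XRswx

theorem qrsw_pf (hb : Base) (hd : X_dep) : Q_rsw := by
  refine ⟨fun g => ?_, fun b => ?_⟩
  · obtain ⟨P, hP⟩ := hb.pu Vx
    have h := HCirx.hyp hb.ev hb.sym hb.cr hP
    obtain ⟨c, hc0, hr⟩ := P145.Rs.rsw (1 / 2) (3 * g + 1) (by norm_num)
    refine ⟨c, hc0, fun a ha => ?_⟩
    have h1 := hr _ e2 P h ((a / 2 : ℕ) : ℤ) (by omega)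
    have hW := HCirx.le_ev hb.ev
      (rc_fin 0 (((3 * g + 1 : ℕ) : ℤ) * ((a / 2 : ℕ) : ℤ)) 0 ((a / 2 : ℕ) : ℤ))
      {v | v.1 = 0} {v | v.1 = ((3 * g + 1 : ℕ) : ℤ) * ((a / 2 : ℕ) : ℤ)}
    have h2 := (hb.inv _ _ (Equiv.ofBijective v6 HDetx.v6_bij) false).measureReal_preimage
      ((hb.loc Vx _).2 _ hW).1.nullMeasurableSet
    refine h1.trans ((hP.loc _ _ hW).le.trans (h2.ge.trans ?_))
    refine measureReal_mono (μ := fair (ℤ × ℤ)) fun ω hω => sub_ba ha ?_
    simpa only [Set.mem_preimage, Bool.false_xor, Equiv.ofBijective_apply, HC] using hω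
  · have h1 := pos_all hb.loc (box (b + 1))
    refine h1.trans_le (measureReal_mono (μ := fair (ℤ × ℤ)) fun ω hω => ?_)
    refine ⟨(0, 0), mem_box.2 (by simp), by simp, fun k => ?_⟩
    have h2 := (mem_box.1 (Finset.mem_coe.1 (k (diag hω (b + 1) le_rfl)))).2.1
    dsimp only at h2
    omega

end Vale.Agent.P167Q
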