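import Vale.Agent.P167Q.XStm

/-! P167Q: sums of the masses of the small clusters. -/

open Finset Relation Filter Topology MeasureTheory
open scoped Classical BigOperators

namespace Vale.Agent.P167Q

namespace XSumx

theorem sml_mono {C : Set Sq} {s s' : ℕ} (h : s ≤ s') (hC : Sml C s) : Sml C s' := by
  intro x hx y hy
  have := hC x hx y hy
  have h' : (s : ℤ) ≤ s' := by exact_mod_cast h
  constructor <;> linarith [this.1, this.2]

theorem flt (hb : Base) (hg : X_geo) (ω : Cf) {a R s : ℕ} (haR : a ≤ R) (hs : s ≤ a) {x : Sq}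
    (hx : x ∈ box a) :
    (cls ω (box R)).filter (fun C => Sml C s ∧ x ∈ fill ω C) =
      (cls ω (bz x s)).filter fun C => Sml C s ∧ x ∈ fill ω C := by
  ext C
  simp only [mem_filter, cls, mem_image]
  constructor
  · rintro ⟨⟨y, -, rfl⟩, h1, h2⟩
    exact ⟨⟨y, by exact_mod_cast hg.sml ω _ s x h1 h2 (hb.bas.self ω y), rfl⟩, h1, h2⟩
  · rintro ⟨⟨y, -, rfl⟩, h1, h2⟩
    refine ⟨?_, h1, h2⟩
    by_contra hn
    have hd : ∀ z ∈ box a, z ∉ clus ω y := fun z hz hzy =>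
      hn ⟨z, hb.bas.mono a R haR hz, hb.bas.cleq ω y z hzy⟩
    have hp : ((-(a : ℤ), 0) : Sq) ∈ box a := by
      rw [mem_box]
      simp
    have hq : (((a : ℤ), 0) : Sq) ∈ box a := by
      rw [mem_box]
      simp
    obtain ⟨u, hu, hu'⟩ := (hg.bd ω _ _ (hg.side ω _ a hd x hx _ hp h2)).1
    obtain ⟨v, hv, hv'⟩ := (hg.bd ω _ _ (hg.side ω _ a hd x hx _ hq h2)).2.1
    have := (h1 v hv u hu).1
    have h' : (s : ℤ) ≤ a := by exact_mod_cast hs
    have h0 : (0 : ℤ) ≤ a := by positivity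
    simp only at hu' hv'
    linarith

theorem ms_eq (hb : Base) {ψ : Sq → ℝ} {a R : ℕ} (haR : a ≤ R) (hψ : ∀ x, ψ x ≠ 0 → x ∈ box a)
    (S : Set Sq) : ms ψ R S = ∑ x ∈ box a, if x ∈ S then ψ x else 0 := by
  unfold ms
  refine (sum_subset (hb.bas.mono a R haR) fun x _ hx => ?_).symm
  have : ψ x = 0 := by
    by_contra h
    exact hx (hψ x h)
  simp [this]

theorem gsum (hb : Base) (hg : X_geo) (ω : Cf) {ψ : Sq → ℝ} {a R s : ℕ} (haR : a ≤ R)
    (hs : s ≤ a) (hψ : ∀ x, ψ x ≠ 0 → x ∈ box a) :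
    ∑ C ∈ cls ω (box R), (if Sml C s then ms ψ R (fill ω C) else 0) =
      ∑ x ∈ box a, ψ x * ns s x ω := by
  have e : ∀ C : Set Sq, (if Sml C s then ms ψ R (fill ω C) else 0) =
      ∑ x ∈ box a, if Sml C s ∧ x ∈ fill ω C then ψ x else 0 := by
    intro C
    rw [ms_eq hb haR hψ]
    by_cases h : Sml C s <;> simp [h]
  simp only [e]
  rw [sum_comm]
  refine sum_congr rfl fun x hx => ?_
  rw [← sum_filter, flt hb hg ω haR hs hx, sum_const, nsmul_eq_mul, mul_comm]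
  rfl

theorem ms_nn {ψ : Sq → ℝ} (h : ∀ x, 0 ≤ ψ x) (R : ℕ) (S : Set Sq) : 0 ≤ ms ψ R S :=
  sum_nonneg fun x _ => by
    split_ifs
    · exact h x
    · exact le_rfl

theorem ms_le (hg : X_geo) (ω : Cf) {ψ : Sq → ℝ} {B : ℝ} (hB : 0 ≤ B) (h : ∀ x, ψ x ≤ B) (R : ℕ)
    {C : Set Sq} {s : ℕ} (hC : Sml C s) : ms ψ R (fill ω C) ≤ B * (s : ℝ) ^ 2 := by
  unfold ms
  rw [← sum_filter]
  refine (sum_le_card_nsmul _ _ B fun x _ => h x).trans ?_
  rw [nsmul_eq_mul, mul_comm]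
  refine mul_le_mul_of_nonneg_left ?_ hB
  exact_mod_cast hg.card ω C s (box R) hC

theorem ptw (hg : X_geo) (ω : Cf) {ψ : Sq → ℝ} {A : ℝ} {J : ℕ} (hA : Ad A J ψ) (R : ℕ)
    {C : Set Sq} {y : Sq} (hy : y ∈ C) :
    (if Sml C (2 ^ J) then ms ψ R (fill ω C) else 0) ^ 2 ≤
      A * ∑ j ∈ range (J + 1), (4 : ℝ) ^ j / 4 ^ J *
        ((if Sml C (2 ^ j) then ms ψ R (fill ω C) else 0) -
          if Sml C (2 ^ j / 2) then ms ψ R (fill ω C) else 0) := by
  have hB : 0 ≤ A / 4 ^ J := (hA.nn 0).trans (hA.le 0)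
  have hA0 : 0 ≤ A := by
    have := mul_nonneg hB (by positivity : (0 : ℝ) ≤ 4 ^ J)
    rwa [div_mul_cancel₀ _ (by positivity)] at this
  have hm := ms_nn hA.nn R (fill ω C)
  have ht : ∀ j ∈ range (J + 1), 0 ≤ (4 : ℝ) ^ j / 4 ^ J *
      ((if Sml C (2 ^ j) then ms ψ R (fill ω C) else 0) -
        if Sml C (2 ^ j / 2) then ms ψ R (fill ω C) else 0) := by
    intro j _
    refine mul_nonneg (by positivity) ?_
    by_cases h2 : Sml C (2 ^ j / 2)
    · rw [if_pos h2, if_pos (sml_mono (Nat.div_le_self _ _) h2), sub_self]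
    · rw [if_neg h2, sub_zero]
      split_ifs
      · exact hm
      · exact le_rfl
  by_cases hJ : Sml C (2 ^ J)
  · have hex : ∃ j, Sml C (2 ^ j) := ⟨J, hJ⟩
    have h1 := Nat.find_spec hex
    have h2 : Nat.find hex ≤ J := Nat.find_min' hex hJ
    have h3 : ∀ k < Nat.find hex, ¬Sml C (2 ^ k) := fun k hk => Nat.find_min hex hk
    generalize Nat.find hex = j at h1 h2 h3
    have h4 : ¬Sml C (2 ^ j / 2) := by
      rcases j with _ | k
      · intro h
        have := (h y hy y hy).1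
        simp at this
      · rw [pow_succ, Nat.mul_div_cancel _ two_pos]
        exact h3 k (Nat.lt_succ_self k)
    have h5 := single_le_sum ht (mem_range.2 (Nat.lt_succ_of_le h2))
    rw [if_pos h1, if_neg h4, sub_zero] at h5
    have h6 := ms_le hg ω hB hA.le R h1
    have e : (((2 ^ j : ℕ) : ℝ)) ^ 2 = 4 ^ j := by
      push_cast
      rw [← pow_mul, mul_comm, pow_mul]
      norm_num
    rw [e] at h6
    rw [if_pos hJ]
    refine le_trans ?_ (mul_le_mul_of_nonneg_left h5 hA0)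
    calc ms ψ R (fill ω C) ^ 2 = ms ψ R (fill ω C) * ms ψ R (fill ω C) := sq _
      _ ≤ A / 4 ^ J * 4 ^ j * ms ψ R (fill ω C) := mul_le_mul_of_nonneg_right h6 hm
      _ = _ := by ring
  · rw [if_neg hJ]
    simpa using mul_nonneg hA0 (sum_nonneg ht)

end XSumx

open XSumx in
theorem dsum_pf (hb : Base) (hg : X_geo) : D_sum := by
  intro A T ψ J hA hJ ω
  have haR : 3 * 2 ^ J ≤ T.R := Nat.mul_le_mul_left 3 (Nat.pow_le_pow_right two_pos hJ)
  have hψ : ∀ x, ψ x ≠ 0 → x ∈ box (3 * 2 ^ J) := fun x h => (hA.supp x h).1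
  have hs : ∀ j ≤ J, 2 ^ j ≤ 3 * 2 ^ J := fun j hj =>
    (Nat.pow_le_pow_right two_pos hj).trans (Nat.le_mul_of_pos_left _ three_pos)
  refine ⟨fun C => ⟨ms_nn hA.nn _ _, ?_⟩, ?_, gsum hb hg ω haR (hs J le_rfl) hψ, ?_⟩
  · unfold Tri.mu
    rw [ms_eq hb haR hψ, ← hA.one]
    refine sum_le_sum fun x _ => ?_
    split_ifs
    · exact le_rfl
    · exact hA.nn x
  · refine sum_nonneg fun j _ => mul_nonneg (by positivity) (sum_nonneg fun x _ =>
      mul_nonneg (hA.nn x) (hg.nlk j x ω x ?_).1)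
    rw [mem_bz]
    have : (0 : ℤ) ≤ ((2 ^ j : ℕ) : ℤ) := by positivity
    refine ⟨?_, ?_, ?_, ?_⟩ <;> linarith
  · have h1 : ∀ C ∈ cls ω (box T.R), T.sm ψ J ω C ^ 2 ≤
        A * ∑ j ∈ range (J + 1), (4 : ℝ) ^ j / 4 ^ J *
          ((if Sml C (2 ^ j) then ms ψ T.R (fill ω C) else 0) -
            if Sml C (2 ^ j / 2) then ms ψ T.R (fill ω C) else 0) := by
      intro C hC
      obtain ⟨y, -, rfl⟩ := mem_image.1 hC
      exact ptw hg ω hA T.R (hb.bas.self ω y)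
    refine (sum_le_sum h1).trans (le_of_eq ?_)
    rw [← mul_sum, sum_comm]
    unfold QQ
    refine congrArg _ (sum_congr rfl fun j hj => ?_)
    have hj' := hs j (Nat.lt_succ_iff.1 (mem_range.1 hj))
    rw [← mul_sum, sum_sub_distrib, gsum hb hg ω haR hj' hψ,
      gsum hb hg ω haR ((Nat.div_le_self _ _).trans hj') hψ, ← sum_sub_distrib]
    unfold LL nl
    simp only [mul_sub]

end Vale.Agent.P167Q
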