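import Vale.Agent.P167Q.XStm
import Vale.Agent.P152.FPotA

open Finset Filter Topology MeasureTheory
open scoped Classical BigOperators

namespace Vale.Agent.P167Q

open Vale.Agent.P152 (IsTest gcov Sm)

namespace XTfx

theorem ex_bump : ∃ A ρ, Bump A ρ := by
  let f : ContDiffBump (0 : ℝ × ℝ) := ⟨1 / 2, 1, by norm_num, by norm_num⟩
  have hs : Sm (f.normed volume) := ⟨f.contDiff_normed, f.hasCompactSupport_normed⟩
  obtain ⟨a, -, ha⟩ := hs.bdd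
  refine ⟨a, f.normed volume, f.contDiff_normed, f.nonneg_normed, fun z => (le_abs_self _).trans (ha z),
    fun z hz => ?_, f.integral_normed⟩
  have h1 : z ∈ Function.support (f.normed volume) := hz
  rw [f.support_normed_eq, mem_ball_zero_iff, Prod.norm_def, max_lt_iff] at h1
  exact ⟨h1.1, h1.2⟩

theorem bmp_eq (ρ : ℝ × ℝ → ℝ) (m : ℕ) (z : ℝ × ℝ) :
    bmp ρ m z = ρ (((2 : ℝ) ^ m)⁻¹ • z - ((2 : ℝ), (0 : ℝ))) / 4 ^ m := by
  unfold bmp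
  have h : (z.1 / 2 ^ m - 2, z.2 / 2 ^ m) = ((2 : ℝ) ^ m)⁻¹ • z - ((2 : ℝ), (0 : ℝ)) := by
    ext
    · simp [div_eq_inv_mul]
    · simp [div_eq_inv_mul]
  rw [h]

theorem sm_bmp {A : ℝ} {ρ : ℝ × ℝ → ℝ} (h : Bump A ρ) (m : ℕ) : Sm (bmp ρ m) := by
  have e : bmp ρ m = fun z => ρ (((2 : ℝ) ^ m)⁻¹ • z - ((2 : ℝ), (0 : ℝ))) / 4 ^ m :=
    funext (bmp_eq ρ m)
  refine ⟨?_, ?_⟩
  · rw [e]
    exact (h.sm.comp ((contDiff_id.const_smul _).sub contDiff_const)).div_const _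
  · refine HasCompactSupport.intro (isCompact_closedBall (0 : ℝ × ℝ) (3 * 2 ^ m)) ?_
    intro z hz
    by_contra hne
    have h1 : ρ (z.1 / 2 ^ m - 2, z.2 / 2 ^ m) ≠ 0 := by
      intro h0
      apply hne
      unfold bmp
      rw [h0, zero_div]
    obtain ⟨h2, h3⟩ := h.supp _ h1
    apply hz
    have hp : (0 : ℝ) < 2 ^ m := by positivity
    rw [mem_closedBall_zero_iff, Prod.norm_def, max_le_iff, Real.norm_eq_abs, Real.norm_eq_abs]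
    simp only at h2 h3
    rw [abs_lt] at h2 h3
    have h4 : z.1 / 2 ^ m < 3 := by linarith [h2.2]
    have h5 : -3 < z.1 / 2 ^ m := by linarith [h2.1]
    have h6 : z.2 / 2 ^ m < 3 := by linarith [h3.2]
    have h7 : -3 < z.2 / 2 ^ m := by linarith [h3.1]
    rw [div_lt_iff₀ hp] at h4 h6
    rw [lt_div_iff₀ hp] at h5 h7
    exact ⟨abs_le.2 ⟨by linarith, by linarith⟩, abs_le.2 ⟨by linarith, by linarith⟩⟩

theorem int_bmp {A : ℝ} {ρ : ℝ × ℝ → ℝ} (h : Bump A ρ) (m : ℕ) : ∫ z, bmp ρ m z = 1 := by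
  simp only [bmp_eq]
  rw [integral_div]
  have h1 := Measure.integral_comp_smul (volume : Measure (ℝ × ℝ))
    (fun w : ℝ × ℝ => ρ (w - ((2 : ℝ), (0 : ℝ)))) ((2 : ℝ) ^ m)⁻¹
  rw [h1, integral_sub_right_eq_self (fun w => ρ w) ((2 : ℝ), (0 : ℝ)), h.one]
  have h2 : Module.finrank ℝ (ℝ × ℝ) = 2 := by simp
  have h3 : ((((2 : ℝ) ^ m)⁻¹) ^ 2)⁻¹ = 4 ^ m := by
    rw [inv_pow, inv_inv, ← pow_mul, mul_comm, pow_mul]
    norm_num
  rw [h2, h3, abs_of_pos (by positivity), smul_eq_mul, mul_one, div_self (by positivity)]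

theorem err (C a b c e0 e1 e2 e3 e4 e5 : ℝ) (h0 : |e0| ≤ C) (h1 : |e1| ≤ C) (h2 : |e2| ≤ C)
    (h3 : |e3| ≤ C) (h4 : |e4| ≤ C) (h5 : |e5| ≤ C) :
    |a * a * e0 + 2 * a * b * e1 + 2 * a * c * e2 + b * b * e3 + 2 * b * c * e4 + c * c * e5| ≤
      (|a * a| + |2 * a * b| + |2 * a * c| + |b * b| + |2 * b * c| + |c * c|) * C := by
  have k : ∀ x e : ℝ, |e| ≤ C → |x * e| ≤ |x| * C := fun x e he => by
    rw [abs_mul]
    exact mul_le_mul_of_nonneg_left he (abs_nonneg _)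
  have k0 := abs_le.1 (k (a * a) e0 h0)
  have k1 := abs_le.1 (k (2 * a * b) e1 h1)
  have k2 := abs_le.1 (k (2 * a * c) e2 h2)
  have k3 := abs_le.1 (k (b * b) e3 h3)
  have k4 := abs_le.1 (k (2 * b * c) e4 h4)
  have k5 := abs_le.1 (k (c * c) e5 h5)
  rw [abs_le]
  constructor <;> nlinarith [k0.1, k0.2, k1.1, k1.2, k2.1, k2.2, k3.1, k3.2, k4.1, k4.2, k5.1, k5.2]

end XTfx

open XTfx in
theorem gtf_pf (h : G_val) : G_tf := by
  refine ⟨ex_bump, fun A ρ hρ θ₁ θ₂ => ?_⟩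
  obtain ⟨C, hC⟩ := h A ρ hρ
  refine ⟨3 / (2 * Real.pi) * ((|(θ₁ + θ₂) * (θ₁ + θ₂)| + |2 * (θ₁ + θ₂) * (-θ₁)| +
    |2 * (θ₁ + θ₂) * (-θ₂)| + |(-θ₁) * (-θ₁)| + |2 * (-θ₁) * (-θ₂)| + |(-θ₂) * (-θ₂)|) * C),
    fun m₁ m₂ hm₁ hm₂ => ?_⟩
  have s0 := sm_bmp hρ 0
  have s1 := sm_bmp hρ m₁
  have s2 := sm_bmp hρ (m₁ + m₂)
  have e : tf ρ θ₁ θ₂ m₁ m₂ = ∑ j : Fin 3, (![θ₁ + θ₂, -θ₁, -θ₂] j) •
      (![bmp ρ 0, bmp ρ m₁, bmp ρ (m₁ + m₂)] j) := by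
    funext z
    simp only [tf, Fin.sum_univ_three, Pi.add_apply, Pi.smul_apply, smul_eq_mul,
      Matrix.cons_val_zero, Matrix.cons_val_one, Matrix.cons_val_two, Matrix.head_cons,
      Matrix.tail_cons]
    ring
  have hs : ∀ j : Fin 3, Sm (![bmp ρ 0, bmp ρ m₁, bmp ρ (m₁ + m₂)] j) := by
    intro j
    fin_cases j
    · exact s0
    · exact s1
    · exact s2
  have hsm : Sm (tf ρ θ₁ θ₂ m₁ m₂) := by
    rw [e]
    exact Vale.Agent.P152.Sm.sum _ _ fun j _ => (hs j).smul _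
  refine ⟨⟨hsm.1, hsm.2, ?_⟩, ?_⟩
  · unfold tf
    have i01 : Integrable fun x : ℝ × ℝ => (θ₁ + θ₂) * bmp ρ 0 x - θ₁ * bmp ρ m₁ x :=
      (s0.integrable.const_mul _).sub (s1.integrable.const_mul _)
    rw [integral_sub i01 (s2.integrable.const_mul _), integral_sub (s0.integrable.const_mul _)
      (s1.integrable.const_mul _), integral_const_mul, integral_const_mul, integral_const_mul,
      int_bmp hρ, int_bmp hρ, int_bmp hρ]
    ring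
  · have g := Vale.Agent.P152.gcov_sum ![θ₁ + θ₂, -θ₁, -θ₂]
      ![bmp ρ 0, bmp ρ m₁, bmp ρ (m₁ + m₂)] hs
    rw [← e] at g
    simp only [Fin.sum_univ_three, Matrix.cons_val_zero, Matrix.cons_val_one, Matrix.cons_val_two,
      Matrix.head_cons, Matrix.tail_cons] at g
    rw [Vale.Agent.P152.gcov_symm s1 s0, Vale.Agent.P152.gcov_symm s2 s0,
      Vale.Agent.P152.gcov_symm s2 s1] at g
    have k := err C (θ₁ + θ₂) (-θ₁) (-θ₂) _ _ _ _ _ _ (hC 0 0 (Or.inl rfl))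
      (hC 0 m₁ (Or.inr (by omega))) (hC 0 (m₁ + m₂) (Or.inr (by omega))) (hC m₁ m₁ (Or.inl rfl))
      (hC m₁ (m₁ + m₂) (Or.inr (by omega))) (hC (m₁ + m₂) (m₁ + m₂) (Or.inl rfl))
    have hp : 0 < 3 / (2 * Real.pi) := by positivity
    have k2 := mul_le_mul_of_nonneg_left k hp.le
    rw [← abs_of_pos hp, ← abs_mul, abs_of_pos hp] at k2
    refine le_of_eq_of_le (congrArg abs ?_) k2
    rw [g]
    unfold aa
    push_cast
    field_simp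
    ring

end Vale.Agent.P167Q
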