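import Vale.Agent.P167Q.XStm

/-! P167Q: tiling of a box by small boxes. -/

open Finset
open scoped Classical

namespace Vale.Agent.P167Q

namespace XTilex

theorem quo (d u G : ℤ) (hu : 0 < u) (h1 : -(G * u) ≤ d) (h2 : d ≤ G * u) :
    ∃ a ∈ Icc (-G) G, u * a ≤ d ∧ d ≤ u * a + u := by
  have e := Int.mul_ediv_add_emod d u
  have e1 := Int.emod_nonneg d hu.ne'
  have e2 := Int.emod_lt_of_pos d hu
  refine ⟨d / u, mem_Icc.2 ⟨?_, ?_⟩, by linarith, by linarith⟩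
  · have : u * (-G) < u * (d / u + 1) := by linarith
    have := lt_of_mul_lt_mul_left this hu.le
    omega
  · have : u * (d / u) ≤ u * G := by linarith
    exact le_of_mul_le_mul_left this hu

end XTilex

theorem ktile_pf : K_tile := by
  intro g hg
  refine ⟨(Icc (-(48 * g : ℤ)) (48 * g) ×ˢ Icc (-(48 * g : ℤ)) (48 * g)).card, 16 * g,
    fun s hs z => ?_⟩
  obtain ⟨u, hu⟩ : ∃ u, u = s / (8 * g) := ⟨_, rfl⟩
  have hg8 : 0 < 8 * g := by omega
  have u1 : 8 * g * u ≤ s := by rw [hu]; exact Nat.mul_div_le s (8 * g)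
  have u2 : s < 8 * g * (u + 1) := by rw [hu]; exact Nat.lt_mul_div_succ s hg8
  have u3 : 1 ≤ u := by
    rw [hu]
    exact (Nat.le_div_iff_mul_le hg8).2 (by omega)
  have u4 : g ≤ g * u := Nat.le_mul_of_pos_right g u3
  have u5 : s ≤ 16 * (g * u) := by
    have : 8 * g * (u + 1) = 8 * (g * u) + 8 * g := by ring
    omega
  have u6 : 2 * (g * u) < s / 2 := by
    have : 8 * g * u = 8 * (g * u) := by ring
    omega
  refine ⟨(Icc (-(48 * g : ℤ)) (48 * g) ×ˢ Icc (-(48 * g : ℤ)) (48 * g)).image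
    (fun q : ℤ × ℤ => (((z.1 + u * q.1, z.2 + u * q.2) : Sq), u)), card_image_le,
    fun i hi => ?_, fun C hC hS => ?_⟩
  · obtain ⟨q, _, rfl⟩ := mem_image.1 hi
    exact u3
  · obtain ⟨x, hx, hxC⟩ := hC
    rw [mem_bz] at hx
    have hu0 : (0 : ℤ) < u := by exact_mod_cast u3
    have u7 : ((3 * s : ℕ) : ℤ) ≤ 48 * g * u := by
      have : 3 * s ≤ 48 * g * u := by
        have : 48 * g * u = 48 * (g * u) := by ring
        omega
      exact_mod_cast this
    obtain ⟨a, ha, a1, a2⟩ := XTilex.quo (x.1 - z.1) u (48 * g) hu0 (by linarith [hx.1])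
      (by linarith [hx.2.1])
    obtain ⟨b, hb, b1, b2⟩ := XTilex.quo (x.2 - z.2) u (48 * g) hu0 (by linarith [hx.2.2.1])
      (by linarith [hx.2.2.2])
    refine ⟨_, mem_image.2 ⟨(a, b), mem_product.2 ⟨ha, hb⟩, rfl⟩, ⟨x, ?_, hxC⟩, fun hsub => hS ?_⟩
    · rw [mem_bz]
      refine ⟨?_, ?_, ?_, ?_⟩ <;> dsimp only <;> linarith
    · intro v hv w hw
      have h1 := mem_bz.1 (mem_coe.1 (hsub hv))
      have h2 := mem_bz.1 (mem_coe.1 (hsub hw))
      dsimp only at h1 h2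
      have u8 : 2 * ((g * u : ℕ) : ℤ) < ((s / 2 : ℕ) : ℤ) := by exact_mod_cast u6
      constructor <;> linarith [h1.1, h1.2.1, h1.2.2.1, h1.2.2.2, h2.1, h2.2.1, h2.2.2.1, h2.2.2.2]

end Vale.Agent.P167Q
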