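import Vale.Agent.P167Q.XStm

open Finset Relation
open scoped Classical

namespace Vale.Agent.P167Q

namespace XTopx

theorem agree {l n a K : ℕ} (hbas : P_bas) (L : Lift l n a K) (ω : Cf) :
    ∃ ω' : EC l n → Bool, ∀ v ∈ box (K + 1), ω v = pb l n a ω' v := by
  refine ⟨fun v => if h : ∃ x ∈ box (K + 1), io l a x = v.1 then ω h.choose else false,
    fun v hv => ?_⟩
  obtain ⟨h, -⟩ := L.vt v hv
  have hex : ∃ x ∈ box (K + 1), io l a x = io l a v := ⟨v, hv, rfl⟩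
  have h1 : hex.choose = v := by
    refine L.inj _ hex.choose_spec.1 _ (hbas.mono _ _ (by omega) hv) ?_
    unfold em
    rw [hex.choose_spec.2]
  unfold pb
  rw [dif_pos h]
  simp only []
  rw [dif_pos hex, h1]

theorem core (hb : Base) (hc : T_cyl) {l n a' a k b : ℕ} (fit : Fit l n a' b) (hak : a ≤ k)
    (hkb : k + 1 ≤ b) (ω : EC l n → Bool) (h1 : NoArm a k (pb l n a' ω))
    (h2 : NoArm (k + 1) b (pb l n a' ω)) : mid a b (pb l n a' ω) ≠ 0 := by
  have L := hb.lift l n a' b fit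
  have hn : 0 < n := by
    have := fit.2.2.2.2
    omega
  have h3 : NoArm a b (pb l n a' ω) := fun x hx y hy => by
    have h := h1 x hx hy
    exact Finset.mem_coe.2 (hb.bas.mono k b (by omega) (Finset.mem_coe.1 h))
  have c0 := hb.cl l n a' a b fit (by omega) ω h3
  have h0 : ((0, 0) : Sq) ∈ box a := by
    rw [mem_box]
    simp
  obtain ⟨t, ht, x, hx, y, hxy, hdis, hsub⟩ := hc l n fit.1 hn ω (im l n a' a)
    ((hb.ext l n a' b fit).2 a (by omega)) ⟨_, Finset.mem_image_of_mem _ h0⟩ (by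
      intro t ht
      obtain ⟨t', ht', rfl⟩ := Finset.mem_image.1 ht
      exact (c0 t' ht').2.1)
  obtain ⟨t', ht', rfl⟩ := Finset.mem_image.1 ht
  obtain ⟨x', hx', rfl⟩ := ((c0 t' ht').1 x).1 hx
  have hxk : x' ∈ box k := Finset.mem_coe.1 (h1 t' ht' hx')
  obtain ⟨y', hnb, rfl⟩ := (L.inc x' (hb.bas.mono k (b + 1) (by omega) hxk) y).1 hxy
  have hy : y' ∈ box (k + 1) := hb.bas.nbb k x' y' hnb hxk
  obtain ⟨c1, -, -, c4⟩ := hb.cl l n a' (k + 1) b fit hkb ω h2 y' hy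
  have hm : IsMid a b (pb l n a' ω) (clus (pb l n a' ω) y') := by
    refine ⟨h2 y' hy, fun z hz hzc => ?_, fun z hz => ?_⟩
    · exact Finset.disjoint_left.1 hdis ((c1 _).2 ⟨z, hzc, rfl⟩) (Finset.mem_image_of_mem _ hz)
    · exact (c4 z (hb.bas.mono a b (by omega) hz)).1 (hsub (Finset.mem_image_of_mem _ hz))
  unfold mid
  refine Finset.card_ne_zero_of_mem (a := clus (pb l n a' ω) y') ?_
  rw [Finset.mem_filter]
  exact ⟨Finset.mem_image_of_mem _ (hb.bas.mono _ _ hkb hy), hm⟩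

end XTopx

theorem ttop_pf (hb : Base) (hd : X_dep) (hc : T_cyl) : T_top := by
  intro a k b ω ha hak hkb h1 h2
  have fit : Fit (b + 2) (2 * (2 * (b + 2))) (2 * (b + 2)) b :=
    ⟨even_two_mul _, even_two_mul _, le_rfl, by omega, by omega⟩
  obtain ⟨ω', hω⟩ := XTopx.agree hb.bas (hb.lift _ _ _ _ fit) ω
  have e1 := hd.arm0 a k ω _ fun v hv => hω v (hb.bas.mono _ _ (by omega) hv)
  have e2 := hd.arm0 (k + 1) b ω _ hω
  have e3 := hd.mid a b ha ω _ fun v hv => hω v (Finset.mem_sdiff.1 hv).1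
  rw [e3]
  refine XTopx.core hb hc fit hak hkb ω' ?_ ?_
  · by_contra h
    exact (cast e1.symm h : ¬NoArm a k ω) h1
  · by_contra h
    exact (cast e2.symm h : ¬NoArm (k + 1) b ω) h2

end Vale.Agent.P167Q
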