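import Vale.Agent.P167Q.XStm

/-! P167Q: a cluster that surrounds a connected set. -/

open Finset Relation
open scoped Classical

namespace Vale.Agent.P167Q

namespace XTopAx

variable {X E : Type} [Fintype X] [DecidableEq X] [Fintype E] [DecidableEq E] {S : Sys X E}

theorem mono (hb : S.Bas) (ω : E → Bool) {C C' : Finset X} (h : C ⊆ S.D ω C') :
    S.D ω C ⊆ S.D ω C' := by
  have key : ∀ z, S.av ω C' z S.r → S.av ω C z S.r := by
    intro z hz
    induction hz using ReflTransGen.head_induction_on with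
    | refl => exact ReflTransGen.refl
    | head h1 h2 ih =>
      refine ReflTransGen.head ⟨h1.1, fun k => ?_⟩ ih
      exact ((hb.mD ω C' _).1 (h k)).elim h1.2 fun k' => k' h2
  intro z hz
  rcases (hb.mD ω C z).1 hz with k | k
  · exact h k
  · exact (hb.mD ω C' z).2 (Or.inr fun k' => k (key z k'))

end XTopAx

theorem top_of {X E : Type} [Fintype X] [DecidableEq X] [Fintype E] [DecidableEq E] (S : Sys X E)
    (hb : S.Bas) (ht : S.Tree) : S.Top := by
  intro ω T hT hne hr
  obtain ⟨t, htT, hmax⟩ := exists_max_image T (fun t => (S.D ω (S.cl ω t)).card) hne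
  obtain ⟨x, hx, y, hxy, hy⟩ := hb.exit ω _ ((hb.mCl ω _).2 ⟨⟨t, rfl⟩, hr t htT⟩)
  have e := hb.cleq ω t x hx
  have h1 : x ∈ S.D ω (S.cl ω y) := (ht ω x y hxy).resolve_left (by rwa [e])
  have h2 : S.cl ω t ⊆ S.D ω (S.cl ω y) := e ▸ (hb.subD ω y x).1 h1
  have h3 : (S.D ω (S.cl ω t)).card < (S.D ω (S.cl ω y)).card :=
    card_lt_card ⟨XTopAx.mono hb ω h2,
      fun k => hy (k ((hb.mD ω _ y).2 (Or.inl (hb.self ω y))))⟩
  have h4 : Disjoint (S.cl ω y) T := disjoint_left.2 fun t' h5 h6 => by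
    have h7 := hmax t' h6
    rw [hb.cleq ω y t' h5] at h7
    exact absurd h3 (not_lt.2 h7)
  exact ⟨t, htT, x, hx, y, hxy, h4, (hb.side ω _ T hT h4).resolve_right
    fun k => disjoint_left.1 k htT (h2 (hb.self ω t))⟩

end Vale.Agent.P167Q
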