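import Vale.Agent.P167Q.XStm
import Vale.Agent.P152.FPotA

/-! P167Q: the covariance of two rescaled bumps. -/

open Filter Topology MeasureTheory Metric
open scoped Classical

namespace Vale.Agent.P167Q

open Vale.Agent.P152

namespace XValx

variable {A : ℝ} {ρ : ℝ × ℝ → ℝ}

theorem b_smul (ρ : ℝ × ℝ → ℝ) (m : ℕ) (z : ℝ × ℝ) :
    bmp ρ m ((2 : ℝ) ^ m • z) = bmp ρ 0 z / 4 ^ m := by
  have h : (2 : ℝ) ^ m ≠ 0 := by positivity
  simp only [bmp, Prod.smul_fst, Prod.smul_snd, smul_eq_mul, mul_div_cancel_left₀ _ h, pow_zero,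
    div_one]

theorem cov (ρ : ℝ × ℝ → ℝ) (m : ℕ) (F : ℝ × ℝ → ℝ) :
    ∫ z, F z * bmp ρ m z = ∫ z, F ((2 : ℝ) ^ m • z) * bmp ρ 0 z := by
  have h := Measure.integral_comp_smul (volume : Measure (ℝ × ℝ)) (fun z => F z * bmp ρ m z)
    ((2 : ℝ) ^ m)
  have h1 : ((2 : ℝ) ^ m) ^ Module.finrank ℝ (ℝ × ℝ) = 4 ^ m := by
    rw [Module.finrank_prod, Module.finrank_self, ← pow_mul, mul_comm, pow_mul]
    norm_num
  have h2 : (0 : ℝ) < 4 ^ m := by positivity
  simp only [b_smul, ← mul_div_assoc, integral_div] at h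
  rw [h1, abs_of_pos (inv_pos.2 h2), smul_eq_mul, div_eq_inv_mul] at h
  exact (mul_left_cancel₀ (inv_pos.2 h2).ne' h).symm

theorem supp (h : Bump A ρ) (m : ℕ) {z : ℝ × ℝ} (hz : bmp ρ m z ≠ 0) : ‖z‖ ≤ 3 * 2 ^ m := by
  have h0 : (0 : ℝ) < 2 ^ m := by positivity
  obtain ⟨h1, h2⟩ := h.supp _ (div_ne_zero_iff.1 hz).1
  rw [abs_lt] at h1 h2
  have a1 : 1 * 2 ^ m < z.1 := (lt_div_iff₀ h0).1 (by linarith [h1.1])
  have a2 : z.1 < 3 * 2 ^ m := (div_lt_iff₀ h0).1 (by linarith [h1.2])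
  have a3 : -1 * 2 ^ m < z.2 := (lt_div_iff₀ h0).1 h2.1
  have a4 : z.2 < 1 * 2 ^ m := (div_lt_iff₀ h0).1 h2.2
  rw [Prod.norm_def, Real.norm_eq_abs, Real.norm_eq_abs]
  exact max_le (abs_le.2 ⟨by linarith, by linarith⟩) (abs_le.2 ⟨by linarith, by linarith⟩)

theorem sm (h : Bump A ρ) (m : ℕ) : Sm (bmp ρ m) := by
  refine ⟨(h.sm.comp (((contDiff_fst.div_const _).sub contDiff_const).prodMk
    (contDiff_snd.div_const _))).div_const _,
    HasCompactSupport.intro (isCompact_closedBall (0 : ℝ × ℝ) (3 * 2 ^ m)) fun z hz => ?_⟩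
  by_contra h1
  exact hz (mem_closedBall_zero_iff.2 (supp h m h1))

theorem one0 (h : Bump A ρ) : ∫ z, bmp ρ 0 z = 1 := by
  rw [← h.one, ← integral_sub_right_eq_self ρ ((2, 0) : ℝ × ℝ)]
  refine integral_congr_ae (Eventually.of_forall fun z => ?_)
  simp only [bmp, pow_zero, div_one]
  refine congrArg ρ (Prod.ext rfl ?_)
  simp

theorem one (h : Bump A ρ) (m : ℕ) : ∫ z, bmp ρ m z = 1 := by
  have h1 := cov ρ m fun _ => 1
  simp only [one_mul] at h1
  rw [h1, one0 h]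

theorem gr (m : ℕ) {x y : ℝ × ℝ} (h : y ≠ x) : green ((2 : ℝ) ^ m • x) ((2 : ℝ) ^ m • y) =
    green x y - m * Real.log 2 / (2 * Real.pi) := by
  have h1 : 0 < (x.1 - y.1) ^ 2 + (x.2 - y.2) ^ 2 := by
    rcases (add_nonneg (sq_nonneg (x.1 - y.1)) (sq_nonneg (x.2 - y.2))).eq_or_lt with h2 | h2
    · refine absurd (Prod.ext ?_ ?_) h <;> nlinarith [sq_nonneg (x.1 - y.1), sq_nonneg (x.2 - y.2)]
    · exact h2
  have h0 : (0 : ℝ) < 2 ^ m := by positivity
  have h2 : ((2 : ℝ) ^ m * x.1 - 2 ^ m * y.1) ^ 2 + (2 ^ m * x.2 - 2 ^ m * y.2) ^ 2 =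
      (2 ^ m) ^ 2 * ((x.1 - y.1) ^ 2 + (x.2 - y.2) ^ 2) := by ring
  unfold green
  simp only [Prod.smul_fst, Prod.smul_snd, smul_eq_mul]
  rw [h2, Real.sqrt_mul (sq_nonneg _), Real.sqrt_sq h0.le,
    Real.log_mul h0.ne' (Real.sqrt_pos.2 h1).ne', Real.log_pow]
  ring

theorem pot_b (h : Bump A ρ) (m : ℕ) (x : ℝ × ℝ) : pot (bmp ρ m) ((2 : ℝ) ^ m • x) =
    pot (bmp ρ 0) x - m * Real.log 2 / (2 * Real.pi) := by
  have h2 : ∫ q, (green x q - m * Real.log 2 / (2 * Real.pi)) * bmp ρ 0 q =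
      pot (bmp ρ 0) x - m * Real.log 2 / (2 * Real.pi) := by
    simp only [sub_mul]
    rw [integral_sub (FPotA_int (sm h 0) _) ((sm h 0).integrable.const_mul _), integral_const_mul,
      one0 h, mul_one, pot]
  rw [← h2, pot, cov]
  refine integral_congr_ae ?_
  filter_upwards [Measure.ae_ne volume x] with y hy
  rw [gr m hy]

end XValx

open XValx in
theorem gval_pf : G_val := by
  intro A ρ h
  obtain ⟨C, hC⟩ := (isCompact_closedBall (0 : ℝ × ℝ) 3).exists_bound_of_continuousOn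
    (contDiff_pot (sm h 0)).continuous.continuousOn
  refine ⟨C, fun m m' hm => ?_⟩
  have h0 : (0 : ℝ) < 2 ^ m' := by positivity
  have h1 : (2 : ℝ) ^ m ≤ 2 ^ m' := pow_le_pow_right₀ one_le_two (by omega)
  have h2 : gcov (bmp ρ m) (bmp ρ m') + m' * Real.log 2 / (2 * Real.pi) =
      ∫ x, (pot (bmp ρ m') x + m' * Real.log 2 / (2 * Real.pi)) * bmp ρ m x := by
    simp only [add_mul]
    rw [integral_add (FCalcB_int (contDiff_pot (sm h m')).continuous (sm h m))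
      ((sm h m).integrable.const_mul _), integral_const_mul, one h, mul_one, gcov_eq, ip]
  have h3 : ∫ x, C * bmp ρ m x = C := by rw [integral_const_mul, one h, mul_one]
  rw [h2, ← h3, ← Real.norm_eq_abs]
  refine norm_integral_le_of_norm_le ((sm h m).integrable.const_mul _)
    (Eventually.of_forall fun x => ?_)
  have h4 : 0 ≤ bmp ρ m x := div_nonneg (h.nn _) (by positivity)
  by_cases hx : bmp ρ m x = 0
  · simp [hx]
  · have h5 := pot_b h m' (((2 : ℝ) ^ m')⁻¹ • x)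
    rw [smul_inv_smul₀ h0.ne'] at h5
    rw [h5, sub_add_cancel, norm_mul, Real.norm_of_nonneg h4]
    refine mul_le_mul_of_nonneg_right (hC _ (mem_closedBall_zero_iff.2 ?_)) h4
    rw [norm_smul, norm_inv, Real.norm_of_nonneg h0.le, inv_mul_le_iff₀ h0]
    linarith [supp h m hx]

end Vale.Agent.P167Q
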