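import Vale.Agent.P167Q.Main
import Vale.Agent.P167Q.XSh
import Vale.Agent.P167Q.XGeo
import Vale.Agent.P167Q.XDep
import Vale.Agent.P167Q.XBd
import Vale.Agent.P167Q.XInd
import Vale.Agent.P167Q.XBk2
import Vale.Agent.P167Q.XBk
import Vale.Agent.P167Q.XSym
import Vale.Agent.P167Q.XArm
import Vale.Agent.P167Q.XGen
import Vale.Agent.P167Q.XTile
import Vale.Agent.P167Q.XMom
import Vale.Agent.P167Q.XKmid
import Vale.Agent.P167Q.XOne
import Vale.Agent.P167Q.XIn
import Vale.Agent.P167Q.XLev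
import Vale.Agent.P167Q.XScl
import Vale.Agent.P167Q.XTri
import Vale.Agent.P167Q.XCls
import Vale.Agent.P167Q.XGood
import Vale.Agent.P167Q.XSum
import Vale.Agent.P167Q.XUp
import Vale.Agent.P167Q.XVal
import Vale.Agent.P167Q.XTf
import Vale.Agent.P167Q.XCel
import Vale.Agent.P167Q.XGff
import Vale.Agent.P167Q.XIup
import Vale.Agent.P167Q.XIlo
import Vale.Agent.P167Q.XFin1
import Vale.Agent.P167Q.XFin2
import Vale.Agent.P167Q.XR0
import Vale.Agent.P167Q.XR1
import Vale.Agent.P167Q.XR3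
import Vale.Agent.P167Q.XR2
import Vale.Agent.P167Q.XSub
import Vale.Agent.P167Q.XDec
import Vale.Agent.P167Q.XEup
import Vale.Agent.P167Q.XRing
import Vale.Agent.P167Q.XRsw
import Vale.Agent.P167Q.XGlue
import Vale.Agent.P167Q.XElo
import Vale.Agent.P167Q.XTopA
import Vale.Agent.P167Q.XTop
import Vale.Agent.P167Q.XMid
import Vale.Agent.P167Q.XGoal

/-! P167Q: assembly of the one arm exponent. -/

namespace Vale.Agent.P167Q

theorem base_pf : Base :=
  have hs := hsym_pf hinv_pf hloc_pf hev_pf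
  have hc := hcr_pf hinv_pf hloc_pf hev_pf hs
  have hu := hpu_pf hloc_pf (hfk_pf hloc_pf)
  have he := cext_pf clift_pf pbas_pf
  ⟨pbas_pf, ploc_pf pbas_pf, hinv_pf, hloc_pf, hfk_pf hloc_pf, hu, hev_pf, hs, hc,
    hcir_pf hu hev_pf hs hc, hfin, fprod_pf pbas_pf, cout_pf, clift_pf, he,
    ccl_pf cout_pf clift_pf he pbas_pf⟩

theorem tcyl_pf : T_cyl := fun l n h1 h2 => by
  obtain ⟨a1, a2, a3⟩ := ccol_pf l n h1 h2
  have hb := bas_of _ a1 a2
  exact top_of _ hb (tree_of _
    ⟨a1, a2, cex_pf l n h1 h2, clink_pf l n h1 h2, cbd_pf l n h1 h2, a3⟩ hb)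

/-- everything that follows from the nesting law -/
structure All : Prop where
  geo : X_geo
  dep : X_dep
  sh : X_sh
  bd : X_bd
  ind : X_ind
  sym : K_sym
  arm : K_arm
  gen : K_gen
  tile : K_tile
  kmid : K_mid
  u1 : I_u1
  l1 : I_l1
  l2 : I_l2
  r0 : R_0
  r1 : R_1
  r2 : R_2
  sub : Q_sub
  dec : Q_dec
  ring : Q_ring
  rsw : Q_rsw
  qin : Q_in
  glue : Q_glue
  eup : E_up
  elo : E_lo

theorem all_of (hG : Goal) : All :=
  have hb := base_pf
  have geo := xgeo_pf hb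
  have dep := xdep_pf hb geo
  have sh := xsh_pf hb dep
  have bd := xbd_pf hb geo
  have ind := xind_pf hb
  have sym := ksym_pf hb sh dep
  have arm := karm_pf hb sym
  have gen := kgen_pf hb sh bd (kbk_pf hb kbk2_pf)
  have mom := kmom_pf ktile_pf bd arm gen
  have tri := ctri_pf geo bd (cscl_pf sh geo bd mom (clev_pf geo dep bd ind mom (cone_pf bd)))
  have sum := dsum_pf hb geo
  have cl := dcls_pf hb geo
  have good := dgood_pf hb geo sum
  have gff := ggff_pf hb hG (gtf_pf gval_pf) gcel_pf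
  have up := iup_pf hb bd tri (dup_pf hb din_pf cl sum)
  have lo := ilo_pf hb bd tri (dlo_pf hb din_pf cl sum)
  have u1 := iu1_pf bd gff up
  have l1 := il1_pf gff lo good
  have l2 := il2_pf hb geo dep bd ind gff up lo good
  have r0 := r0_pf hb geo dep bd
  have r1 := r1_pf r0 u1
  have sub := qsub_pf hb dep
  have kmid := kmid_pf hb ktile_pf bd geo arm gen
  have dec := qdec_pf sub arm
  have r2 := r2_pf r0 r1 u1 l2 kmid dec
  have ring := qring_pf hb dep
  have rsw := qrsw_pf hb dep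
  have qin := qin_pf sub ring rsw
  have glue := qglue_pf sub sym ring qin
  ⟨geo, dep, sh, bd, ind, sym, arm, gen, ktile_pf, kmid, u1, l1, l2, r0, r1, r2, sub, dec, ring,
    rsw, qin, glue, eup_pf sub sym (r3_pf r0 r2 l1),
    elo_pf sub ring rsw qin (qmid_pf r0 sub sym qin glue (ttop_pf hb dep tcyl_pf)) r1⟩

theorem goal2_of (hG : Goal) : Goal2 := goal2_pf (all_of hG).eup (all_of hG).elo

end Vale.Agent.P167Q
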