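import Vale.Agent.P167Q.XStm

open Filter Topology
open scoped Classical

namespace Vale.Agent.P167Q

namespace XR3x

theorem pick (ε : ℝ) (hε : 0 < ε) : ∃ d : ℝ, 0 < d ∧ d < 1 ∧ 5 / 48 * Real.log 2 - ε / 2 ≤
    (aa * (Real.pi / 6 * (1 - d)) ^ 2 + Real.pi / 6 * (1 - d) * (2 * Real.pi / 3 * aa - d)) *
      (1 - d) := by
  have hc : Continuous fun d : ℝ => (aa * (Real.pi / 6 * (1 - d)) ^ 2 +
      Real.pi / 6 * (1 - d) * (2 * Real.pi / 3 * aa - d)) * (1 - d) := by fun_prop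
  have e : (aa * (Real.pi / 6 * (1 - 0)) ^ 2 +
      Real.pi / 6 * (1 - 0) * (2 * Real.pi / 3 * aa - 0)) * (1 - 0) = 5 / 48 * Real.log 2 := by
    have := Real.pi_pos
    unfold aa
    field_simp
    ring
  have ht := (hc.tendsto 0).mono_left (nhdsWithin_le_nhds (s := Set.Ioi 0))
  rw [e] at ht
  obtain ⟨d, h1, h2⟩ := ((ht.eventually (le_mem_nhds (a := 5 / 48 * Real.log 2 - ε / 2)
    (by linarith))).and (Ioo_mem_nhdsGT (zero_lt_one' ℝ))).exists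
  exact ⟨d, h2.1, h2.2, h1⟩

theorem root {x y F c : ℝ} (hx : 0 ≤ x) (hF : x ≤ F) (hc : 0 < c) (h : F ^ c⁻¹ ≤ Real.exp y) :
    x ≤ Real.exp (y * c) := by
  have h1 := Real.rpow_le_rpow (Real.rpow_nonneg (hx.trans hF) _) h hc.le
  rw [Real.rpow_inv_rpow (hx.trans hF) hc.ne', ← Real.exp_mul] at h1
  exact hF.trans h1

end XR3x

theorem r3_pf (h0 : R_0) (h2 : R_2) (hl : I_l1) : R_3 := by
  intro ε hε
  obtain ⟨d, d0, d1, hd⟩ := XR3x.pick ε hε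
  have hπ := Real.pi_pos
  have hc : 0 < 1 - d := by linarith
  have t0 : 0 < Real.pi / 6 * (1 - d) := by positivity
  have t1 : Real.pi / 6 * (1 - d) < Real.pi / 6 := by nlinarith
  obtain ⟨C, hC⟩ := hl (Real.pi / 6 * (1 - d)) (1 - d)⁻¹ (by rwa [abs_of_pos t0])
    ((one_lt_inv₀ hc).2 (by linarith))
  obtain ⟨m₁, hm⟩ := h2 d d0
  obtain ⟨m₂, hm₂⟩ := exists_nat_ge (2 * |C| / ε)
  refine ⟨max 4 (max m₁ m₂), fun m hmm => ?_⟩
  have hw : 0 ≤ ww (Real.pi / 6 * (1 - d)) :=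
    mul_nonneg zero_le_two (Real.cos_nonneg_of_neg_pi_div_two_le_of_le (by linarith) (by linarith))
  have a1 : (m₂ : ℝ) ≤ m := by exact_mod_cast (by omega : m₂ ≤ m)
  have a2 : 2 * |C| ≤ m * ε := (div_le_iff₀ hε).1 (hm₂.trans a1)
  have a3 : C * (1 - d) ≤ |C| := by nlinarith [le_abs_self C, abs_nonneg C]
  filter_upwards [hC m (by omega), hm m (by omega)] with J b1 b2
  obtain ⟨p0, p1⟩ := h0.arm _ J m (Real.rpow_nonneg hw (1 / (1 - d)⁻¹))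
  refine (XR3x.root p0 p1 hc b1).trans (Real.exp_le_exp.2 ?_)
  have c1 := mul_le_mul_of_nonneg_left b2 (mul_pos t0 hc).le
  have c2 := mul_le_mul_of_nonneg_right hd (Nat.cast_nonneg (α := ℝ) m)
  linarith

end Vale.Agent.P167Q
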