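import Vale.Agent.P167Q.HStm

/-! P167Q, one arm exponent: definitions and statements. See `skel/P167Q/PROOFX.md`. -/

open Finset Relation Filter Topology MeasureTheory
open scoped Classical BigOperators

namespace Vale.Agent.P167Q

open Vale.Agent.P152 (IsTest gcov)

noncomputable section

/-- translation (odd translations swap the colours) -/
def sh (t : Sq) (ω : Cf) : Cf := fun v => xor (decide (Odd (t.1 + t.2))) (ω (v + t))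

def bz (z : Sq) (s : ℕ) : Finset Sq := Icc (z.1 - s) (z.1 + s) ×ˢ Icc (z.2 - s) (z.2 + s)

theorem mem_bz {z x : Sq} {s : ℕ} : x ∈ bz z s ↔
    z.1 - s ≤ x.1 ∧ x.1 ≤ z.1 + s ∧ z.2 - s ≤ x.2 ∧ x.2 ≤ z.2 + s := by
  simp only [bz, mem_product, mem_Icc, and_assoc]

theorem bz_zero (s : ℕ) : bz 0 s = box s := by
  simp [bz, box]

/-- diameter below `s` -/
def Sml (C : Set Sq) (s : ℕ) : Prop := ∀ x ∈ C, ∀ y ∈ C, x.1 - y.1 < s ∧ x.2 - y.2 < s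

/-- clusters meeting `W` -/
def cls (ω : Cf) (W : Finset Sq) : Finset (Set Sq) := W.image (clus ω)

def AllF (ω : Cf) : Prop := ∀ x, (clus ω x).Finite

/-- number of small clusters round `x` -/
def ns (s : ℕ) (x : Sq) (ω : Cf) : ℕ :=
  ((cls ω (bz x s)).filter fun C => Sml C s ∧ x ∈ fill ω C).card

def nl (j : ℕ) (x : Sq) (ω : Cf) : ℝ := (ns (2 ^ j) x ω : ℝ) - ns (2 ^ j / 2) x ω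

/-- number of large clusters near `z` -/
def kb (s : ℕ) (z : Sq) (ω : Cf) : ℕ :=
  ((cls ω (bz z (3 * s))).filter fun C => ¬Sml C (s / 2)).card

def IsMid (a b : ℕ) (ω : Cf) (C : Set Sq) : Prop :=
  C ⊆ box b ∧ (∀ x ∈ box a, x ∉ C) ∧ ∀ x ∈ box a, x ∈ fill ω C

/-- number of clusters round `box a` inside `box b` -/
def mid (a b : ℕ) (ω : Cf) : ℕ := ((cls ω (box b)).filter (IsMid a b ω)).card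

/-- number of clusters that cross one of the annuli of `I` -/
def kI (g : ℕ) (W : Finset Sq) (I : Finset (Sq × ℕ)) (ω : Cf) : ℕ :=
  ((cls ω W).filter fun C : Set Sq =>
    ∃ i ∈ I, (∃ x ∈ bz i.1 i.2, x ∈ C) ∧ ¬C ⊆ bz i.1 (g * i.2)).card

def ex (G : Cf → ℝ) : ℝ := ∫ ω, G ω ∂perc

def Bd (G : Cf → ℝ) : Prop := AEMeasurable G perc ∧ ∃ M, ∀ ω, |G ω| ≤ M

def en (s : ℕ) : ℝ := ex fun ω => ns s 0 ω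

def LL (ψ : Sq → ℝ) (J j : ℕ) (ω : Cf) : ℝ := ∑ x ∈ box (3 * 2 ^ J), ψ x * nl j x ω

def SS (ψ : Sq → ℝ) (J : ℕ) (ω : Cf) : ℝ := ∑ x ∈ box (3 * 2 ^ J), ψ x * ns (2 ^ J) x ω

def QQ (ψ : Sq → ℝ) (J : ℕ) (ω : Cf) : ℝ := ∑ j ∈ range (J + 1), 4 ^ j / 4 ^ J * LL ψ J j ω

/-- unit charge at scale `2 ^ J` -/
structure Ad (A : ℝ) (J : ℕ) (ψ : Sq → ℝ) : Prop where
  nn : ∀ x, 0 ≤ ψ x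
  le : ∀ x, ψ x ≤ A / 4 ^ J
  supp : ∀ x, ψ x ≠ 0 → x ∈ box (3 * 2 ^ J) ∧ (2 : ℤ) ^ J ≤ x.1
  one : ∑ x ∈ box (3 * 2 ^ J), ψ x = 1

def ww (θ : ℝ) : ℝ := 2 * Real.cos (Real.pi / 3 + θ)

def pa (a b : ℕ) : ℝ := perc.real {ω | ¬NoArm a b ω}

/-- arm of colour `c` -/
def BA (c : Bool) (a b : ℕ) : Set Cf :=
  {ω | ∃ x ∈ box a, decide (Even (x.1 + x.2)) = c ∧ ¬clus ω x ⊆ box b}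

def pc (c : Bool) (a b : ℕ) : ℝ := perc.real (BA c a b)

def N1 (J m : ℕ) (ω : Cf) : ℕ := mid (3 * 2 ^ J) (2 ^ (J + m) - 1) ω

def FF (t : ℝ) (J m : ℕ) : ℝ := ex fun ω => t ^ N1 J m ω

def be (J m : ℕ) : ℝ := Real.sqrt 3 * (en (2 ^ (J + m)) - en (2 ^ J))

def pp (J m : ℕ) : ℝ := pa (3 * 2 ^ J) (2 ^ (J + m) - 1)

def aa : ℝ := 3 / (4 * Real.pi ^ 2) * Real.log 2

/-- three charges -/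
structure Tri where
  J : ℕ
  m₁ : ℕ
  m₂ : ℕ
  ψ₀ : Sq → ℝ
  ψ₁ : Sq → ℝ
  ψ₂ : Sq → ℝ

namespace Tri

variable (T : Tri)

def J₁ : ℕ := T.J + T.m₁

def J₂ : ℕ := T.J + T.m₁ + T.m₂

def Ok (A : ℝ) : Prop :=
  4 ≤ T.m₁ ∧ 4 ≤ T.m₂ ∧ Ad A T.J T.ψ₀ ∧ Ad A T.J₁ T.ψ₁ ∧ Ad A T.J₂ T.ψ₂

def R : ℕ := 3 * 2 ^ T.J₂

def ch (θ₁ θ₂ : ℝ) (x : Sq) : ℝ := (θ₁ + θ₂) * T.ψ₀ x - θ₁ * T.ψ₁ x - θ₂ * T.ψ₂ x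

def nn (θ₁ θ₂ : ℝ) (ω : Cf) : ℝ := nb (T.ch θ₁ θ₂) T.R ω

def mu (ψ : Sq → ℝ) (ω : Cf) (C : Set Sq) : ℝ := ms ψ T.R (fill ω C)

def sm (ψ : Sq → ℝ) (J : ℕ) (ω : Cf) (C : Set Sq) : ℝ :=
  if Sml C (2 ^ J) then T.mu ψ ω C else 0

def xx (θ₁ θ₂ : ℝ) (ω : Cf) (C : Set Sq) : ℝ := T.mu (T.ch θ₁ θ₂) ω C

def xs (θ₁ θ₂ : ℝ) (ω : Cf) (C : Set Sq) : ℝ :=
  (θ₁ + θ₂) * T.sm T.ψ₀ T.J ω C - θ₁ * T.sm T.ψ₁ T.J₁ ω C - θ₂ * T.sm T.ψ₂ T.J₂ ω C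

def M₁ (ω : Cf) (C : Set Sq) : Prop := IsMid (3 * 2 ^ T.J) (2 ^ T.J₁ - 1) ω C

def M₂ (ω : Cf) (C : Set Sq) : Prop := IsMid (3 * 2 ^ T.J₁) (2 ^ T.J₂ - 1) ω C

/-- counted by one of the three `kb` -/
def Ct (ω : Cf) (C : Set Sq) : Prop :=
  ∃ j, (j = T.J ∨ j = T.J₁ ∨ j = T.J₂) ∧ C ∈ cls ω (bz 0 (3 * 2 ^ j)) ∧ ¬Sml C (2 ^ j / 2)

def Y (θ₁ θ₂ : ℝ) (ω : Cf) : ℝ :=
  (θ₁ + θ₂) * SS T.ψ₀ T.J ω - θ₁ * SS T.ψ₁ T.J₁ ω - θ₂ * SS T.ψ₂ T.J₂ ω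

def V (ω : Cf) : ℝ := QQ T.ψ₀ T.J ω + QQ T.ψ₁ T.J₁ ω + QQ T.ψ₂ T.J₂ ω +
  kb (2 ^ T.J) 0 ω + kb (2 ^ T.J₁) 0 ω + kb (2 ^ T.J₂) 0 ω

def Z (s t : ℝ) (ω : Cf) : ℝ := s ^ N1 T.J T.m₁ ω * t ^ N1 T.J₁ T.m₂ ω

def b (θ₁ θ₂ : ℝ) : ℝ := (θ₁ + θ₂) * be T.J T.m₁ + θ₂ * be T.J₁ T.m₂

def Good (θ₁ θ₂ η : ℝ) (ω : Cf) : Prop := ∀ C ∈ cls ω (box T.R),
  -(Real.pi / 2) ≤ T.xx θ₁ θ₂ ω C ∧ T.xx θ₁ θ₂ ω C ≤ Real.pi / 6 - η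

end Tri

/-- rescaled and shifted bump -/
def bmp (ρ : ℝ × ℝ → ℝ) (m : ℕ) (z : ℝ × ℝ) : ℝ :=
  ρ (z.1 / 2 ^ m - 2, z.2 / 2 ^ m) / 4 ^ m

structure Bump (A : ℝ) (ρ : ℝ × ℝ → ℝ) : Prop where
  sm : ContDiff ℝ (⊤ : ℕ∞) ρ
  nn : ∀ z, 0 ≤ ρ z
  le : ∀ z, ρ z ≤ A
  supp : ∀ z, ρ z ≠ 0 → |z.1| < 1 ∧ |z.2| < 1
  one : ∫ z, ρ z = 1

def tf (ρ : ℝ × ℝ → ℝ) (θ₁ θ₂ : ℝ) (m₁ m₂ : ℕ) (z : ℝ × ℝ) : ℝ :=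
  (θ₁ + θ₂) * bmp ρ 0 z - θ₁ * bmp ρ m₁ z - θ₂ * bmp ρ (m₁ + m₂) z

def cel (J : ℕ) (g : ℝ × ℝ → ℝ) (x : Sq) : ℝ := ∫ z in region (1 / 2 ^ J) {x}, g z

/-- disjoint occurrence of two events -/
def dj {E : Type} (A B : Set (E → Bool)) : Set (E → Bool) :=
  {ω | ∃ α ∈ A, ∃ β ∈ B, α ≤ ω ∧ β ≤ ω ∧ ∀ v, ¬(α v = true ∧ β v = true)}

/-- a witness of the family `A` has colour `b` -/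
def wi {ι : Type} (b : Bool) (A : Set (Finset ι)) : Set (ι → Bool) :=
  {ω | ∃ S ∈ A, ∀ v ∈ S, ω v = b}

def Sys.Top {X E : Type} [Fintype X] [DecidableEq X] [Fintype E] [DecidableEq E] (S : Sys X E) :
    Prop :=
  ∀ (ω : E → Bool) (T : Finset X), S.Cnn T → T.Nonempty → (∀ t ∈ T, S.r ∉ S.cl ω t) →
    ∃ t ∈ T, ∃ x ∈ S.cl ω t, ∃ y, S.inc x y ∧ Disjoint (S.cl ω y) T ∧ T ⊆ S.D ω (S.cl ω y)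

end

/-- what is already proved -/
structure Base : Prop where
  bas : P_bas
  ploc : P_loc
  inv : H_inv
  loc : H_loc
  fk : H_fk
  pu : H_pu
  ev : H_ev
  sym : H_sym
  cr : H_cr
  cir : H_cir
  fin : H_fin
  prod : F_prod
  out : C_out
  lift : C_lift
  ext : C_ext
  cl : C_cl

/-! ### Geometry, locality, measurability -/

structure X_sh : Prop where
  mp : ∀ t, MeasurePreserving (sh t) perc perc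
  op : ∀ t ω x y, Op (sh t ω) x y ↔ Op ω (x + t) (y + t)
  cl : ∀ t ω x y, y ∈ clus (sh t ω) x ↔ y + t ∈ clus ω (x + t)
  fl : ∀ t ω (C : Set Sq) x, x ∈ fill (sh t ω) {y | y + t ∈ C} ↔ x + t ∈ fill ω C
  ns : ∀ s x ω, ns s x ω = ns s 0 (sh x ω)
  arm : ∀ (z : Sq) (a b : ℕ), perc.real {ω | ∃ x ∈ bz z a, ¬clus ω x ⊆ bz z b} = pa a b

structure X_geo : Prop where
  loc : ∀ ω ω' x, (∀ v b i, ed v b i ∈ clus ω x → ω v = ω' v) →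
    clus ω' x = clus ω x ∧ fill ω' (clus ω x) = fill ω (clus ω x)
  bd : ∀ ω (C : Set Sq) x, x ∈ fill ω C → (∃ y ∈ C, y.1 ≤ x.1) ∧ (∃ y ∈ C, x.1 ≤ y.1) ∧
    (∃ y ∈ C, y.2 ≤ x.2) ∧ ∃ y ∈ C, x.2 ≤ y.2
  side : ∀ ω (C : Set Sq) (a : ℕ), (∀ x ∈ box a, x ∉ C) → ∀ x ∈ box a, ∀ y ∈ box a,
    x ∈ fill ω C → y ∈ fill ω C
  sub : ∀ ω z x, x ∈ fill ω (clus ω z) → clus ω x ⊆ fill ω (clus ω z)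
  sml : ∀ ω (C : Set Sq) (s : ℕ) x, Sml C s → x ∈ fill ω C → C ⊆ bz x s
  card : ∀ ω (C : Set Sq) (s : ℕ) (W : Finset Sq), Sml C s →
    (W.filter fun x => x ∈ fill ω C).card ≤ s ^ 2
  nsm : ∀ s s' x ω, s ≤ s' → ns s x ω ≤ ns s' x ω
  nlk : ∀ j z ω, ∀ x ∈ bz z (2 ^ j), 0 ≤ nl j x ω ∧ nl j x ω ≤ kb (2 ^ j) z ω
  zero : ∀ a b ω, ¬NoArm a b ω → mid a b ω = 0

structure X_dep : Prop where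
  ns : ∀ s x, Lc (bz x (2 * s + 1)) (ns s x)
  mid : ∀ a b, 1 ≤ a → Lc (box (b + 1) \ box (a - 1)) (mid a b)
  arm : ∀ a b, 1 ≤ a → a ≤ b → Le (box (b + 1) \ box (a - 1)) {ω | ¬NoArm a b ω}
  arm0 : ∀ a b, Le (box (b + 1)) {ω | ¬NoArm a b ω}
  ba : ∀ c a b, Le (box (b + 1)) (BA c a b)
  up : ∀ a b, IsUpperSet (BA true a b)

structure X_bd : Prop where
  loc : ∀ (W : Finset Sq) (G : Cf → ℝ), Lc W G → Bd G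
  ns : ∀ s x (F : ℕ → ℝ), Bd fun ω => F (ns s x ω)
  kb : ∀ s z (F : ℕ → ℝ), Bd fun ω => F (kb s z ω)
  kI : ∀ g W I (F : ℕ → ℝ), Bd fun ω => F (kI g W I ω)
  mid : ∀ a b (F : ℕ → ℝ), Bd fun ω => F (mid a b ω)
  nb : ∀ φ R, Bd (nb φ R)
  const : ∀ c : ℝ, Bd fun _ => c
  add : ∀ G H, Bd G → Bd H → Bd fun ω => G ω + H ω
  sub : ∀ G H, Bd G → Bd H → Bd fun ω => G ω - H ω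
  mul : ∀ G H, Bd G → Bd H → Bd fun ω => G ω * H ω
  sum : ∀ (ι : Type) (s : Finset ι) (G : ι → Cf → ℝ), (∀ i ∈ s, Bd (G i)) →
    Bd fun ω => ∑ i ∈ s, G i ω
  cont : ∀ G (F : ℝ → ℝ), Bd G → Continuous F → Bd fun ω => F (G ω)
  ind : ∀ B : Set Cf, MeasurableSet B → Bd (B.indicator 1)
  int : ∀ G, Bd G → Integrable G perc

def X_ind : Prop := ∀ (ι : Type) (s : Finset ι) (W : ι → Finset Sq) (G : ι → Cf → ℝ),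
  (∀ i ∈ s, Lc (W i) (G i)) → (∀ i ∈ s, ∀ j ∈ s, i ≠ j → Disjoint (W i) (W j)) →
  (ex fun ω => ∏ i ∈ s, G i ω) = ∏ i ∈ s, ex (G i)

/-! ### Counting large clusters -/

def K_bk2 : Prop := ∀ (E : Type) [Fintype E] [DecidableEq E] (A B : Set (E → Bool)),
  𝔼 ω, (if ω ∈ dj A B then (1 : ℝ) else 0) ≤
    (𝔼 ω, if ∃ α ∈ A, α ≤ ω then (1 : ℝ) else 0) * 𝔼 ω, if ∃ β ∈ B, β ≤ ω then (1 : ℝ) else 0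

def K_bk : Prop := ∀ (ι κ : Type) [Fintype κ] (W : Finset ι) (b : Bool) (A : κ → Set (Finset ι)),
  (∀ i, ∀ S ∈ A i, S ⊆ W) →
  (fair ι).real {ω | ∃ S : κ → Finset ι, (∀ i, S i ∈ A i ∧ ∀ v ∈ S i, ω v = b) ∧
    ∀ i j, i ≠ j → Disjoint (S i) (S j)} ≤ ∏ i, (fair ι).real (wi b (A i))

def K_sym : Prop := ∀ c a b, pc c a b ≤ pa a b ∧ pa a b ≤ 5 * pc c (a + 1) b

def K_arm : Prop := ∀ ε > 0, ∃ g : ℕ, 1 ≤ g ∧ ∀ u, 1 ≤ u → pa u (g * u) ≤ ε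

def K_gen : Prop := ∀ (t ε : ℝ) (g : ℕ), 1 ≤ t → 1 ≤ g → 4 * t ^ 2 * ε ≤ 1 →
  (∀ u, 1 ≤ u → pa u (g * u) ≤ ε) → ∀ (W : Finset Sq) (I : Finset (Sq × ℕ)),
  (∀ i ∈ I, 1 ≤ i.2) → (ex fun ω => t ^ kI g W I ω) ≤ 2 * 2 ^ I.card

def K_tile : Prop := ∀ g : ℕ, 1 ≤ g → ∃ n₀ s₀ : ℕ, ∀ s ≥ s₀, ∀ z : Sq,
  ∃ I : Finset (Sq × ℕ), I.card ≤ n₀ ∧ (∀ i ∈ I, 1 ≤ i.2) ∧ ∀ C : Set Sq,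
    (∃ x ∈ bz z (3 * s), x ∈ C) → ¬Sml C (s / 2) →
    ∃ i ∈ I, (∃ x ∈ bz i.1 i.2, x ∈ C) ∧ ¬C ⊆ bz i.1 (g * i.2)

def K_mom : Prop := ∀ t : ℝ, ∃ C : ℝ, ∀ s z, (ex fun ω => Real.exp (t * kb s z ω)) ≤ C

def K_mid : Prop := ∀ t : ℝ, 1 ≤ t → ∃ C : ℝ, ∃ J₀, ∀ J ≥ J₀, ∀ m, 1 ≤ m →
  FF t J m ≤ Real.exp (C * m)

/-! ### Concentration -/

def C_one : Prop := ∀ T B : ℝ, 0 ≤ T → ∃ C : ℝ, 0 ≤ C ∧ ∀ (W K : Cf → ℝ) (ε : ℝ), Bd W → Bd K →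
  0 ≤ ε → ε ≤ T → (∀ ω, |W ω| ≤ ε * K ω) → (∀ ω, 0 ≤ K ω) →
  (ex fun ω => Real.exp ((T + 2) * K ω)) ≤ B →
  (ex fun ω => Real.exp (W ω - ex W)) ≤ Real.exp (C * ε ^ 2)

def C_lev : Prop := ∀ A T : ℝ, 0 ≤ T → ∃ C : ℝ, ∀ J j ψ (τ : ℝ), Ad A J ψ → j ≤ J →
  |τ| ≤ T * 2 ^ (J - j) → (ex fun ω => Real.exp (τ * (LL ψ J j ω - ex (LL ψ J j)))) ≤ C

def C_scl : Prop := ∀ A t : ℝ, 0 ≤ t → ∃ C : ℝ, ∀ J ψ (σ : ℝ), Ad A J ψ → |σ| ≤ t →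
  (ex fun ω => Real.exp (σ * (SS ψ J ω - en (2 ^ J)) + t * (QQ ψ J ω + kb (2 ^ J) 0 ω))) ≤ C

def C_tri : Prop := ∀ (A θ₁ θ₂ σ t : ℝ), 0 ≤ t → ∃ C : ℝ, ∀ T : Tri, T.Ok A →
  (Bd fun ω => σ * (-(Real.sqrt 3 * T.Y θ₁ θ₂ ω) - T.b θ₁ θ₂) + t * T.V ω) ∧
  (ex fun ω => Real.exp (σ * (-(Real.sqrt 3 * T.Y θ₁ θ₂ ω) - T.b θ₁ θ₂) + t * T.V ω)) ≤
    Real.exp C

/-! ### Deterministic decomposition -/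

def D_in : Prop := (∀ x : ℝ, |ww x| ≤ Real.exp (-(Real.sqrt 3 * x) + 8 * x ^ 2)) ∧
  ∀ η > 0, ∃ c : ℝ, 0 ≤ c ∧ ∀ x : ℝ, -(Real.pi / 2) ≤ x → x ≤ Real.pi / 6 - η →
    Real.exp (-c) ≤ ww x ∧ Real.exp (-(Real.sqrt 3 * x) - c * x ^ 2) ≤ ww x

def D_cls : Prop := ∀ (A θ₁ θ₂ : ℝ) (T : Tri), T.Ok A → ∀ ω, ∀ C ∈ cls ω (box T.R),
  (T.M₁ ω C → ¬T.M₂ ω C ∧ T.xx θ₁ θ₂ ω C = θ₁ + θ₂ ∧ T.xs θ₁ θ₂ ω C = 0) ∧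
  (T.M₂ ω C → T.xx θ₁ θ₂ ω C = θ₂ ∧ T.xs θ₁ θ₂ ω C = 0) ∧
  (¬T.M₁ ω C → ¬T.M₂ ω C → T.Ct ω C ∨ T.xx θ₁ θ₂ ω C = T.xs θ₁ θ₂ ω C)

def D_sum : Prop := ∀ (A : ℝ) (T : Tri) (ψ : Sq → ℝ) (J : ℕ), Ad A J ψ → J ≤ T.J₂ → ∀ ω,
  (∀ C, 0 ≤ T.mu ψ ω C ∧ T.mu ψ ω C ≤ 1) ∧ 0 ≤ QQ ψ J ω ∧
  ∑ C ∈ cls ω (box T.R), T.sm ψ J ω C = SS ψ J ω ∧
  ∑ C ∈ cls ω (box T.R), T.sm ψ J ω C ^ 2 ≤ A * QQ ψ J ω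

def D_up : Prop := ∀ A θ₁ θ₂ : ℝ, ∃ c : ℝ, 0 ≤ c ∧ ∀ T : Tri, T.Ok A → ∀ ω, AllF ω →
  |T.nn θ₁ θ₂ ω| ≤ T.Z |ww (θ₁ + θ₂)| |ww θ₂| ω *
    Real.exp (-(Real.sqrt 3 * T.Y θ₁ θ₂ ω) + c * T.V ω)

def D_lo : Prop := ∀ A θ₁ θ₂ η : ℝ, 0 < η → ∃ c : ℝ, 0 ≤ c ∧ ∀ T : Tri, T.Ok A → ∀ ω, AllF ω →
  T.Good θ₁ θ₂ η ω → T.Z (ww (θ₁ + θ₂)) (ww θ₂) ω *
    Real.exp (-(Real.sqrt 3 * T.Y θ₁ θ₂ ω) - c * T.V ω) ≤ T.nn θ₁ θ₂ ω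

def D_good : Prop := ∀ (A θ : ℝ) (T : Tri), T.Ok A → ∀ ω,
  (|θ| < Real.pi / 6 → T.Good θ 0 (Real.pi / 6 - |θ|) ω) ∧
  (-(Real.pi / 3) < θ → θ < 0 → NoArm (3 * 2 ^ T.J₁) (2 ^ T.J₂ - 1) ω →
    T.Good (θ / 2) (θ / 2) (Real.pi / 6 + θ / 2) ω)

/-! ### The field -/

def G_val : Prop := ∀ A ρ, Bump A ρ → ∃ C : ℝ, ∀ m m' : ℕ, (m' = m ∨ m + 4 ≤ m') →
  |gcov (bmp ρ m) (bmp ρ m') + m' * Real.log 2 / (2 * Real.pi)| ≤ C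

def G_tf : Prop := (∃ A ρ, Bump A ρ) ∧ ∀ A ρ, Bump A ρ → ∀ θ₁ θ₂ : ℝ, ∃ C : ℝ, ∀ m₁ m₂ : ℕ,
  4 ≤ m₁ → 4 ≤ m₂ → IsTest (tf ρ θ₁ θ₂ m₁ m₂) ∧
    |3 / (2 * Real.pi) * gcov (tf ρ θ₁ θ₂ m₁ m₂) (tf ρ θ₁ θ₂ m₁ m₂) -
      aa * ((θ₁ + θ₂) ^ 2 * m₁ + θ₂ ^ 2 * m₂)| ≤ C

def G_cel : Prop := ∀ A ρ, Bump A ρ → ∀ J m : ℕ, Ad A (J + m) (cel J (bmp ρ m)) ∧
  ∀ R ≥ 3 * 2 ^ (J + m), ∀ S : Set Sq, IntegrableOn (bmp ρ m) (region (1 / 2 ^ J) S) ∧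
    ∫ z in region (1 / 2 ^ J) S, bmp ρ m z = ms (cel J (bmp ρ m)) R S

def G_gff : Prop := ∃ A : ℝ, ∀ θ₁ θ₂ : ℝ, ∃ C : ℝ, ∀ m₁ m₂ : ℕ, 4 ≤ m₁ → 4 ≤ m₂ →
  ∀ᶠ J in atTop, ∃ ψ₀ ψ₁ ψ₂, Tri.Ok ⟨J, m₁, m₂, ψ₀, ψ₁, ψ₂⟩ A ∧
    Real.exp (-(aa * ((θ₁ + θ₂) ^ 2 * m₁ + θ₂ ^ 2 * m₂)) - C) ≤
      ex (Tri.nn ⟨J, m₁, m₂, ψ₀, ψ₁, ψ₂⟩ θ₁ θ₂) ∧
    ex (Tri.nn ⟨J, m₁, m₂, ψ₀, ψ₁, ψ₂⟩ θ₁ θ₂) ≤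
      Real.exp (-(aa * ((θ₁ + θ₂) ^ 2 * m₁ + θ₂ ^ 2 * m₂)) + C)

/-! ### Integrated inequalities -/

def I_up : Prop := ∀ A θ₁ θ₂ p : ℝ, 1 < p → ∃ C : ℝ, ∀ T : Tri, T.Ok A → ∀ B : Set Cf,
  MeasurableSet B → (ex fun ω => |T.nn θ₁ θ₂ ω| * B.indicator 1 ω) ≤ Real.exp (C + T.b θ₁ θ₂) *
    (ex fun ω => T.Z (|ww (θ₁ + θ₂)| ^ p) (|ww θ₂| ^ p) ω * B.indicator 1 ω) ^ (1 / p)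

def I_lo : Prop := ∀ A θ₁ θ₂ η p : ℝ, 0 < η → 1 < p → 0 < ww (θ₁ + θ₂) → 0 < ww θ₂ →
  ∃ C : ℝ, ∀ T : Tri, T.Ok A → ∀ B : Set Cf, MeasurableSet B → (∀ ω ∈ B, T.Good θ₁ θ₂ η ω) →
  (ex fun ω => T.Z (ww (θ₁ + θ₂) ^ (1 / p)) (ww θ₂ ^ (1 / p)) ω * B.indicator 1 ω) ^ p ≤
    Real.exp (C - T.b θ₁ θ₂) * ex fun ω => T.nn θ₁ θ₂ ω * B.indicator 1 ω

def I_u1 : Prop := ∀ θ p : ℝ, 1 < p → ∃ C : ℝ, ∀ m : ℕ, 4 ≤ m → ∀ᶠ J in atTop,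
  Real.exp (-(aa * θ ^ 2 * m) - θ * be J m - C) ≤ FF (|ww θ| ^ p) J m ^ (1 / p)

def I_l1 : Prop := ∀ θ p : ℝ, |θ| < Real.pi / 6 → 1 < p → ∃ C : ℝ, ∀ m : ℕ, 4 ≤ m →
  ∀ᶠ J in atTop, FF (ww θ ^ (1 / p)) J m ^ p ≤ Real.exp (-(aa * θ ^ 2 * m) - θ * be J m + C)

def I_l2 : Prop := ∀ θ p : ℝ, -(Real.pi / 3) < θ → θ < 0 → 1 < p → ∃ C : ℝ, ∀ m₁ m₂ : ℕ,
  4 ≤ m₁ → 4 ≤ m₂ → ∀ᶠ J in atTop,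
  (FF (ww θ ^ (1 / p)) J m₁ * (FF (ww (θ / 2) ^ (1 / p)) (J + m₁) m₂ - pp (J + m₁) m₂)) ^ p ≤
    Real.exp C * (Real.exp (-(aa * θ ^ 2 * m₁) - θ * be J m₁ +
      (-(aa * (θ / 2) ^ 2 * m₂) - θ / 2 * be (J + m₁) m₂)) +
      (FF (ww θ ^ p) J m₁ * pp (J + m₁) m₂) ^ (1 / p))

structure R_0 : Prop where
  mono : ∀ (s t : ℝ) J m, 0 ≤ s → s ≤ t → 0 ≤ FF s J m ∧ FF s J m ≤ FF t J m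
  one : ∀ J m, FF 1 J m = 1
  arm : ∀ (t : ℝ) J m, 0 ≤ t → 0 ≤ pp J m ∧ pp J m ≤ FF t J m
  be : ∀ J m, 0 ≤ be J m
  zero : ∀ J m, FF 0 J m = perc.real {ω | N1 J m ω = 0}

def R_1 : Prop :=
  (∃ C : ℝ, ∀ m : ℕ, 4 ≤ m → ∀ᶠ J in atTop, be J m ≤ 2 * Real.pi / 3 * aa * m + C) ∧
  ∀ ε > 0, ∃ m₀ : ℕ, ∀ m ≥ m₀, ∀ᶠ J in atTop,
    Real.exp (-((5 / 48 * Real.log 2 + ε) * m)) ≤ FF 0 J m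

def R_2 : Prop := ∀ ε > 0, ∃ m₀ : ℕ, ∀ m ≥ m₀, ∀ᶠ J in atTop,
  (2 * Real.pi / 3 * aa - ε) * m ≤ be J m

def R_3 : Prop := ∀ ε > 0, ∃ m₀ : ℕ, ∀ m ≥ m₀, ∀ᶠ J in atTop,
  pp J m ≤ Real.exp (-((5 / 48 * Real.log 2 - ε) * m))

/-! ### Arms -/

structure Q_sub : Prop where
  ma : ∀ a a' b b', a ≤ a' → b' ≤ b → pa a b ≤ pa a' b'
  mc : ∀ c a a' b b', a ≤ a' → b' ≤ b → pc c a b ≤ pc c a' b'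
  two : ∀ a b a' d, b + 2 ≤ a' → a' ≤ d →
    perc.real ({ω | ¬NoArm a b ω} ∩ {ω | ¬NoArm a' d ω}) = pa a b * pa a' d
  sub : ∀ a b a' d, a ≤ b → b + 2 ≤ a' → a' ≤ d → pa a d ≤ pa a b * pa a' d

def Q_dec : Prop := ∃ α > 0, ∃ C : ℝ, ∀ J m : ℕ, pp J m ≤ Real.exp (C - α * m)

def Q_ring : Prop := ∃ c > 0, ∀ a u d : ℕ, 72 ≤ u → a < u → 6 * u ≤ d →
  c * (pc true a (6 * u) * pc true (u - 1) d) ≤ pc true a d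

def Q_rsw : Prop := (∀ g : ℕ, ∃ c > 0, ∀ a ≥ 144, c ≤ pc true a (g * a)) ∧
  ∀ b, 0 < pc true 0 b

def Q_in : Prop := ∀ g : ℕ, ∃ c > 0, ∀ a ≥ 144, ∀ a' ≤ g * a, ∀ d,
  c * pc true a' d ≤ pc true a d

def Q_glue : Prop := ∃ C : ℝ, ∀ a k k' d : ℕ, 144 ≤ a → a ≤ k → k' ≤ 4 * k →
  pa a k * pa k' d ≤ C * pc true a d

def T_cyl : Prop := ∀ l n : ℕ, Even n → 0 < n → (cs l n).Top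

def T_top : Prop := ∀ (a k b : ℕ) (ω : Cf), 1 ≤ a → a ≤ k → k + 1 ≤ b → NoArm a k ω →
  NoArm (k + 1) b ω → mid a b ω ≠ 0

def Q_mid : Prop := ∃ C : ℝ, ∀ J ≥ 6, ∀ m ≥ 4,
  FF 0 J m ≤ C * m * pc true (3 * 2 ^ J) (2 ^ (J + m) - 1)

def E_up : Prop := ∀ ε > 0, ∀ᶠ n : ℕ in atTop,
  pc true 0 n ≤ Real.exp (-((5 / 48 - ε) * Real.log n))

def E_lo : Prop := ∀ ε > 0, ∀ᶠ n : ℕ in atTop,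
  Real.exp (-((5 / 48 + ε) * Real.log n)) ≤ pc true 0 n

def Goal2 : Prop := Tendsto (fun n : ℕ =>
  Real.log (perc.real {ω | ∃ y ∈ clus ω (0, 0), (n : ℤ) < max |y.1| |y.2|}) / Real.log n) atTop
  (𝓝 (-(5 / 48)))

end Vale.Agent.P167Q
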