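import Vale.Agent.P167Q.YStm

/-! P167Q: sums of powers of the sup norm over a box. -/

open Finset
open scoped Classical

namespace Vale.Agent.P167Q

namespace YVsumx

theorem card_box (R : ℕ) : (box R).card = (2 * R + 1) ^ 2 := by
  have : ((R : ℤ) + 1 - -(R : ℤ)).toNat = 2 * R + 1 := by omega
  rw [box, card_product, Int.card_Icc, this, sq]

theorem box_sub (R : ℕ) : box R ⊆ box (R + 1) := fun x hx => by
  rw [mem_box] at hx ⊢
  omega

theorem split (R : ℕ) : (box (R + 1)).erase 0 = (box R).erase 0 ∪ (box (R + 1) \ box R) := by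
  ext x
  simp only [mem_erase, mem_union, mem_sdiff, mem_box, ne_eq, Prod.ext_iff, Prod.fst_zero,
    Prod.snd_zero]
  omega

theorem shell (a : ℝ) (R : ℕ) : ∑ z ∈ box (R + 1) \ box R, (nr z : ℝ) ^ (-a) =
    8 * ((R : ℝ) + 1) ^ (1 - a) := by
  have h1 : ∀ z ∈ box (R + 1) \ box R, (nr z : ℝ) ^ (-a) = ((R : ℝ) + 1) ^ (-a) := fun z hz => by
    have : nr z = R + 1 := by
      simp only [mem_sdiff, mem_box] at hz
      unfold nr
      omega
    rw [this, Nat.cast_succ]
  have h2 : (box (R + 1) \ box R).card = 8 * (R + 1) := by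
    rw [card_sdiff_of_subset (box_sub R), card_box, card_box]
    exact Nat.sub_eq_of_eq_add (by ring)
  rw [sum_congr rfl h1, sum_const, h2, nsmul_eq_mul, sub_eq_add_neg,
    Real.rpow_add (by positivity), Real.rpow_one]
  push_cast
  ring

theorem main {a : ℝ} (h1 : a ≤ 1) (R : ℕ) :
    ∑ z ∈ (box R).erase 0, (nr z : ℝ) ^ (-a) ≤ 8 * (R * (R : ℝ) ^ (1 - a)) := by
  induction R with
  | zero =>
    have : (box 0).erase 0 = ∅ := by decide
    simp [this]
  | succ R ih =>
    rw [split, sum_union (disjoint_sdiff.mono_left (erase_subset _ _)), shell, Nat.cast_succ]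
    have h2 : (R : ℝ) ^ (1 - a) ≤ ((R : ℝ) + 1) ^ (1 - a) :=
      Real.rpow_le_rpow (by positivity) (by linarith) (by linarith)
    have h3 := mul_le_mul_of_nonneg_left h2 (Nat.cast_nonneg (α := ℝ) R)
    linarith

end YVsumx

theorem vsum_pf : V_sum := by
  intro a _ h1 R hR
  have h0 : (0 : ℝ) < R := by exact_mod_cast hR
  rw [show 2 - a = 1 + (1 - a) by ring, Real.rpow_add h0, Real.rpow_one]
  exact YVsumx.main h1 R

end Vale.Agent.P167Q
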